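import Mathlib

namespace Vale.Agent.P321S

open MonoidAlgebra Finset

/-- finitely supported signed measures on the monoid `M`, with convolution -/
abbrev Al (M : Type*) [Monoid M] := MonoidAlgebra ℝ M

variable {M : Type*} [Monoid M]

/-- pairing of a finitely supported measure with a function -/
noncomputable def E (F : Al M) (φ : M → ℝ) : ℝ := F.coeff.sum fun w a => a * φ w

@[simp] lemma E_zero (φ : M → ℝ) : E (0 : Al M) φ = 0 := by simp [E]

lemma E_add (F G : Al M) (φ : M → ℝ) : E (F + G) φ = E F φ + E G φ := by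
  unfold E
  rw [coeff_add]
  exact Finsupp.sum_add_index' (fun _ => by simp) (fun _ _ _ => by ring)

lemma E_smul (r : ℝ) (F : Al M) (φ : M → ℝ) : E (r • F) φ = r * E F φ := by
  unfold E
  rw [coeff_smul, Finsupp.sum_smul_index (fun _ => by simp), Finsupp.mul_sum]
  apply Finsupp.sum_congr
  intro x _
  ring

lemma E_neg (F : Al M) (φ : M → ℝ) : E (-F) φ = - E F φ := by
  have := E_smul (-1) F φ
  rw [neg_one_smul] at this
  rw [this]; ring

lemma E_sub (F G : Al M) (φ : M → ℝ) : E (F - G) φ = E F φ - E G φ := by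
  rw [sub_eq_add_neg, E_add, E_neg]; ring

@[simp] lemma E_single (m : M) (r : ℝ) (φ : M → ℝ) : E (single m r : Al M) φ = r * φ m := by
  unfold E
  rw [coeff_single]
  exact Finsupp.sum_single_index (by simp)

@[simp] lemma E_one (φ : M → ℝ) : E (1 : Al M) φ = φ 1 := by
  rw [one_def, E_single, one_mul]

lemma E_sum {ι : Type*} (s : Finset ι) (F : ι → Al M) (φ : M → ℝ) :
    E (∑ i ∈ s, F i) φ = ∑ i ∈ s, E (F i) φ := by
  classical
  induction s using Finset.induction_on with
  | empty => simp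
  | insert a s ha ih => rw [Finset.sum_insert ha, Finset.sum_insert ha, E_add, ih]

lemma E_add_fun (F : Al M) (φ ψ : M → ℝ) : E F (fun w => φ w + ψ w) = E F φ + E F ψ := by
  unfold E
  rw [← Finsupp.sum_add]
  apply Finsupp.sum_congr
  intro x _
  ring

lemma E_smul_fun (F : Al M) (r : ℝ) (φ : M → ℝ) : E F (fun w => r * φ w) = r * E F φ := by
  unfold E
  rw [Finsupp.mul_sum]
  apply Finsupp.sum_congr
  intro x _
  ring

lemma E_sub_fun (F : Al M) (φ ψ : M → ℝ) : E F (fun w => φ w - ψ w) = E F φ - E F ψ := by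
  have h := E_add_fun F φ (fun w => (-1) * ψ w)
  rw [E_smul_fun] at h
  have e : (fun w => φ w + (-1) * ψ w) = fun w => φ w - ψ w := by funext w; ring
  rw [e] at h
  rw [h]; ring

lemma E_zero_fun (F : Al M) : E F (fun _ => (0:ℝ)) = 0 := by
  unfold E; simp

/-- total mass -/
noncomputable def mass (F : Al M) : ℝ := E F (fun _ => 1)

lemma E_const (F : Al M) (c : ℝ) : E F (fun _ => c) = mass F * c := by
  have := E_smul_fun F c (fun _ => 1)
  simp only [mul_one] at this
  rw [this, mass]; ring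

lemma E_mul (F G : Al M) (φ : M → ℝ) :
    E (F * G) φ = E F (fun u => E G (fun v => φ (u * v))) := by
  induction F using MonoidAlgebra.induction_linear with
  | zero => simp
  | add x y hx hy => rw [add_mul, E_add, E_add, hx, hy]
  | single m r =>
    rw [E_single]
    induction G using MonoidAlgebra.induction_linear with
    | zero => simp
    | add x y hx hy => rw [mul_add, E_add, E_add, hx, hy]; ring
    | single m' r' =>
      rw [single_mul_single, E_single, E_single]; ring

lemma E_swap (F G : Al M) (f : M → M → ℝ) :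
    E F (fun u => E G (fun v => f u v)) = E G (fun v => E F (fun u => f u v)) := by
  induction F using MonoidAlgebra.induction_linear with
  | zero => simp [E_zero_fun]
  | add x y hx hy =>
    rw [E_add, hx, hy, ← E_add_fun]
    congr 1
    funext v
    rw [E_add]
  | single m r =>
    rw [E_single, ← E_smul_fun]
    congr 1
    funext v
    rw [E_single]

/-- nonnegative measures -/
def Nn (F : Al M) : Prop := ∀ w, 0 ≤ F.coeff w

lemma E_nonneg {F : Al M} (hF : Nn F) {φ : M → ℝ} (h : ∀ w, 0 ≤ φ w) : 0 ≤ E F φ := by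
  unfold E Finsupp.sum
  exact Finset.sum_nonneg (fun w _ => mul_nonneg (hF w) (h w))

lemma E_mono {F : Al M} (hF : Nn F) {φ ψ : M → ℝ} (h : ∀ w, φ w ≤ ψ w) : E F φ ≤ E F ψ := by
  have := E_nonneg hF (φ := fun w => ψ w - φ w) (fun w => sub_nonneg.mpr (h w))
  rw [E_sub_fun] at this
  linarith

lemma E_indicator [DecidableEq M] (F : Al M) (w : M) :
    E F (fun x => if x = w then 1 else 0) = F.coeff w := by
  unfold E
  simp only [mul_ite, mul_one, mul_zero]
  rw [Finsupp.sum_ite_eq']
  simp only [Finsupp.mem_support_iff, ne_eq, ite_not]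
  split_ifs with h
  · exact h.symm
  · rfl

lemma Nn_of_E {F : Al M} (h : ∀ φ : M → ℝ, (∀ w, 0 ≤ φ w) → 0 ≤ E F φ) : Nn F := by
  classical
  intro w
  rw [← E_indicator F w]
  apply h
  intro x
  split_ifs <;> norm_num

lemma Nn.add {F G : Al M} (hF : Nn F) (hG : Nn G) : Nn (F + G) := by
  intro w; rw [coeff_add, Finsupp.add_apply]; exact add_nonneg (hF w) (hG w)

lemma Nn.mul {F G : Al M} (hF : Nn F) (hG : Nn G) : Nn (F * G) := by
  apply Nn_of_E
  intro φ hφ
  rw [E_mul]
  exact E_nonneg hF (fun u => E_nonneg hG (fun v => hφ _))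

lemma Nn.smul {F : Al M} (hF : Nn F) {r : ℝ} (hr : 0 ≤ r) : Nn (r • F) := by
  intro w; rw [coeff_smul, Finsupp.smul_apply, smul_eq_mul]; exact mul_nonneg hr (hF w)

lemma Nn_one : Nn (1 : Al M) := by
  apply Nn_of_E
  intro φ hφ
  rw [E_one]; exact hφ _

lemma Nn_zero : Nn (0 : Al M) := by intro w; simp

lemma Nn_single (m : M) {r : ℝ} (hr : 0 ≤ r) : Nn (single m r : Al M) := by
  apply Nn_of_E
  intro φ hφ
  rw [E_single]; exact mul_nonneg hr (hφ _)

lemma Nn.pow {F : Al M} (hF : Nn F) (n : ℕ) : Nn (F ^ n) := by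
  induction n with
  | zero => rw [pow_zero]; exact Nn_one
  | succ n ih => rw [pow_succ]; exact ih.mul hF

lemma Nn_sum {ι : Type*} (s : Finset ι) (F : ι → Al M) (h : ∀ i ∈ s, Nn (F i)) :
    Nn (∑ i ∈ s, F i) := by
  classical
  induction s using Finset.induction_on with
  | empty => simpa using Nn_zero
  | insert a s ha ih =>
    rw [Finset.sum_insert ha]
    exact (h a (Finset.mem_insert_self a s)).add
      (ih (fun i hi => h i (Finset.mem_insert_of_mem hi)))

/-- pointwise order -/
def Le (F G : Al M) : Prop := ∀ w, F.coeff w ≤ G.coeff w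

lemma Le.nn {F G : Al M} (h : Le F G) : Nn (G - F) := by
  intro w
  rw [coeff_sub, Finsupp.sub_apply]
  exact sub_nonneg.mpr (h w)

lemma Nn.le {F G : Al M} (h : Nn (G - F)) : Le F G := by
  intro w
  have := h w
  rw [coeff_sub, Finsupp.sub_apply] at this
  linarith

lemma Le.refl (F : Al M) : Le F F := fun _ => le_rfl

lemma Le.trans {F G H : Al M} (h : Le F G) (h' : Le G H) : Le F H := fun w => (h w).trans (h' w)

lemma Le.E {F G : Al M} (h : Le F G) {φ : M → ℝ} (hφ : ∀ w, 0 ≤ φ w) : E F φ ≤ E G φ := by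
  have := E_nonneg h.nn hφ
  rw [E_sub] at this
  linarith

lemma Le.mul_right {F G H : Al M} (h : Le F G) (hH : Nn H) : Le (F * H) (G * H) := by
  apply Nn.le
  have := h.nn.mul hH
  rwa [sub_mul] at this

lemma Le.mul_left {F G H : Al M} (h : Le F G) (hH : Nn H) : Le (H * F) (H * G) := by
  apply Nn.le
  have := hH.mul h.nn
  rwa [mul_sub] at this

lemma Le.mul {F G F' G' : Al M} (h : Le F G) (h' : Le F' G') (hF' : Nn F') (hG : Nn G) :
    Le (F * F') (G * G') := (h.mul_right hF').trans (h'.mul_left hG)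

lemma Le.pow {F G : Al M} (h : Le F G) (hF : Nn F) (hG : Nn G) (n : ℕ) : Le (F^n) (G^n) := by
  induction n with
  | zero => simpa using Le.refl _
  | succ n ih => rw [pow_succ, pow_succ]; exact ih.mul h hF (hG.pow n)

lemma Le.add {F G F' G' : Al M} (h : Le F G) (h' : Le F' G') : Le (F + F') (G + G') := by
  intro w
  rw [coeff_add, coeff_add, Finsupp.add_apply, Finsupp.add_apply]
  exact add_le_add (h w) (h' w)

lemma Le.smul {F G : Al M} (h : Le F G) {r : ℝ} (hr : 0 ≤ r) : Le (r • F) (r • G) := by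
  intro w
  rw [coeff_smul, coeff_smul, Finsupp.smul_apply, Finsupp.smul_apply, smul_eq_mul, smul_eq_mul]
  exact mul_le_mul_of_nonneg_left (h w) hr

lemma mass_add (F G : Al M) : mass (F + G) = mass F + mass G := E_add F G _
lemma mass_sub (F G : Al M) : mass (F - G) = mass F - mass G := E_sub F G _
lemma mass_smul (r : ℝ) (F : Al M) : mass (r • F) = r * mass F := E_smul r F _
lemma mass_mul (F G : Al M) : mass (F * G) = mass F * mass G := by
  unfold mass
  rw [E_mul]
  have := E_const F (mass G)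
  unfold mass at this
  exact this
@[simp] lemma mass_one : mass (1 : Al M) = 1 := by unfold mass; rw [E_one]
lemma mass_pow (F : Al M) (n : ℕ) : mass (F^n) = mass F ^ n := by
  induction n with
  | zero => simp
  | succ n ih => rw [pow_succ, mass_mul, ih, pow_succ]
lemma mass_nonneg {F : Al M} (h : Nn F) : 0 ≤ mass F := E_nonneg h (fun _ => zero_le_one)
lemma mass_mono {F G : Al M} (h : Le F G) : mass F ≤ mass G := h.E (fun _ => zero_le_one)

/-- probability measures -/
structure Pr (F : Al M) : Prop where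
  nn : Nn F
  mass : mass F = 1

lemma Pr.one : Pr (1 : Al M) := ⟨Nn_one, mass_one⟩
lemma Pr.mul {F G : Al M} (hF : Pr F) (hG : Pr G) : Pr (F * G) :=
  ⟨hF.nn.mul hG.nn, by rw [mass_mul, hF.mass, hG.mass, one_mul]⟩
lemma Pr.pow {F : Al M} (hF : Pr F) (n : ℕ) : Pr (F^n) :=
  ⟨hF.nn.pow n, by rw [mass_pow, hF.mass, one_pow]⟩

/-- total variation norm -/
noncomputable def l1 (F : Al M) : ℝ := F.coeff.sum fun _ a => |a|

lemma l1_nonneg (F : Al M) : 0 ≤ l1 F := by
  unfold l1 Finsupp.sum
  exact Finset.sum_nonneg (fun w _ => abs_nonneg _)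

/-- evaluation of `l1` on any finite set containing the support -/
lemma l1_eq_sum (F : Al M) (s : Finset M) (h : F.coeff.support ⊆ s) :
    l1 F = ∑ w ∈ s, |F.coeff w| := by
  unfold l1
  exact Finsupp.sum_of_support_subset _ h _ (fun _ _ => abs_zero)

lemma E_eq_sum (F : Al M) (s : Finset M) (h : F.coeff.support ⊆ s) (φ : M → ℝ) :
    E F φ = ∑ w ∈ s, F.coeff w * φ w := by
  unfold E
  exact Finsupp.sum_of_support_subset _ h _ (fun _ _ => zero_mul _)

lemma l1_add_le (F G : Al M) : l1 (F + G) ≤ l1 F + l1 G := by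
  classical
  have hs : (F + G).coeff.support ⊆ F.coeff.support ∪ G.coeff.support := by
    rw [coeff_add]; exact Finsupp.support_add
  rw [l1_eq_sum (F+G) _ hs, l1_eq_sum F (F.coeff.support ∪ G.coeff.support) Finset.subset_union_left,
    l1_eq_sum G (F.coeff.support ∪ G.coeff.support) Finset.subset_union_right,
    ← Finset.sum_add_distrib]
  apply Finset.sum_le_sum
  intro w _
  rw [coeff_add, Finsupp.add_apply]
  exact abs_add_le _ _

lemma l1_smul (r : ℝ) (F : Al M) : l1 (r • F) = |r| * l1 F := by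
  classical
  have hs : (r • F).coeff.support ⊆ F.coeff.support := by
    rw [coeff_smul]; exact Finsupp.support_smul
  rw [l1_eq_sum (r • F) _ hs, l1_eq_sum F _ (Finset.Subset.refl _), Finset.mul_sum]
  apply Finset.sum_congr rfl
  intro w _
  rw [coeff_smul, Finsupp.smul_apply, smul_eq_mul, abs_mul]

lemma l1_neg (F : Al M) : l1 (-F) = l1 F := by
  have := l1_smul (-1) F
  rw [neg_one_smul] at this
  rw [this]; simp

lemma l1_sub_le (F G : Al M) : l1 (F - G) ≤ l1 F + l1 G := by
  rw [sub_eq_add_neg]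
  exact (l1_add_le _ _).trans_eq (by rw [l1_neg])

lemma l1_sub_comm (F G : Al M) : l1 (F - G) = l1 (G - F) := by
  rw [← l1_neg]; congr 1; abel

lemma l1_triangle (F G H : Al M) : l1 (F - H) ≤ l1 (F - G) + l1 (G - H) := by
  have e : F - H = (F - G) + (G - H) := by abel
  rw [e]; exact l1_add_le _ _

lemma E_le_l1 (F : Al M) (φ : M → ℝ) (h : ∀ w, |φ w| ≤ 1) : |E F φ| ≤ l1 F := by
  rw [E_eq_sum F _ (Finset.Subset.refl _), l1_eq_sum F _ (Finset.Subset.refl _)]
  refine (Finset.abs_sum_le_sum_abs _ _).trans ?_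
  apply Finset.sum_le_sum
  intro w _
  rw [abs_mul]
  exact mul_le_of_le_one_right (abs_nonneg _) (h w)

lemma l1_eq_E (F : Al M) : ∃ φ : M → ℝ, (∀ w, |φ w| ≤ 1) ∧ E F φ = l1 F := by
  refine ⟨fun w => SignType.sign (F.coeff w), ?_, ?_⟩
  · intro w
    rcases lt_trichotomy (F.coeff w) 0 with h | h | h
    · simp [h]
    · simp [h]
    · simp [h]
  · unfold E l1
    apply Finsupp.sum_congr
    intro w _
    exact self_mul_sign _

lemma l1_le_of {F : Al M} {c : ℝ} (h : ∀ φ : M → ℝ, (∀ w, |φ w| ≤ 1) → E F φ ≤ c) : l1 F ≤ c := by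
  obtain ⟨φ, h1, h2⟩ := l1_eq_E F
  rw [← h2]; exact h φ h1

lemma E_abs_le_l1 (F : Al M) {φ : M → ℝ} {c : ℝ} (hc : 0 ≤ c) (h : ∀ w, |φ w| ≤ c) :
    |E F φ| ≤ c * l1 F := by
  rw [E_eq_sum F _ (Finset.Subset.refl _), l1_eq_sum F _ (Finset.Subset.refl _), Finset.mul_sum]
  refine (Finset.abs_sum_le_sum_abs _ _).trans ?_
  apply Finset.sum_le_sum
  intro w _
  rw [abs_mul, mul_comm]
  exact mul_le_mul_of_nonneg_right (h w) (abs_nonneg _)

lemma l1_mul_le (F G : Al M) : l1 (F * G) ≤ l1 F * l1 G := by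
  apply l1_le_of
  intro φ hφ
  rw [E_mul]
  have := E_abs_le_l1 F (φ := fun u => E G (fun v => φ (u*v))) (l1_nonneg G)
    (fun u => E_le_l1 G _ (fun v => hφ _))
  calc E F (fun u => E G (fun v => φ (u*v))) ≤ |E F (fun u => E G (fun v => φ (u*v)))| := le_abs_self _
    _ ≤ l1 G * l1 F := this
    _ = l1 F * l1 G := mul_comm _ _

lemma l1_of_nn {F : Al M} (h : Nn F) : l1 F = mass F := by
  unfold l1 mass E
  apply Finsupp.sum_congr
  intro w _
  rw [mul_one, abs_of_nonneg (h w)]

lemma Pr.l1 {F : Al M} (h : Pr F) : l1 F = 1 := by rw [l1_of_nn h.nn, h.mass]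

lemma l1_zero : l1 (0 : Al M) = 0 := by simp [l1]

end Vale.Agent.P321S
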