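import Mathlib
import Vale.Agent.P321S.Alg
import Vale.Agent.P321.Words

namespace Vale.Agent.P321S

open MonoidAlgebra Finset
open Vale.Agent.P321 (Letter)

/-- words in the three letters `a = 0`, `b = 1`, `c = 01` -/
abbrev Wo := FreeMonoid Letter

/-- a single letter -/
noncomputable def lt (x : Letter) : Al Wo := single (FreeMonoid.of x) 1

/-- the trace of the block `01` -/
noncomputable def eN (q : ℝ) : Al Wo :=
  (q^2) • (1 : Al Wo) + (q*(1-q)) • lt .a + (q*(1-q)) • lt .b + ((1-q)^2) • lt .c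

/-- the trace of the single bit `0` -/
noncomputable def eX (q : ℝ) : Al Wo := q • (1 : Al Wo) + (1-q) • lt .a

/-- the trace of the block `(01)^g 0 (01)^g` -/
noncomputable def eU (q : ℝ) (g : ℕ) : Al Wo := eN q ^ g * eX q * eN q ^ g

/-- TARGET of the overlap module -/
def OverlapBase (q : ℝ) : Prop :=
  ∃ (cg cl : ℕ) (δ : ℝ), 0 < cg ∧ 0 < cl ∧ 0 < δ ∧ ∀ e : ℕ, 1 ≤ e →
    l1 (eU q (cg*e) ^ (cl*e) - eU q (cg*e) ^ (cl*e+1)) ≤ 2 - 2*δ

end Vale.Agent.P321S
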