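import Mathlib
import Vale.Agent.P321S.BaseDefs
import Vale.Agent.P321.Final

namespace Vale.Agent.P321S

open MonoidAlgebra Finset

/-- `P` describes the law of the trace of the bit string `l` -/
def Descr (q : ℝ) (P : Al Wo) (l : List Bool) : Prop :=
  ∀ g : List Bool → ℝ,
    E P (fun w => g (Vale.Agent.P321.bits (FreeMonoid.toList w))) = Vale.Agent.P321.tr q l g

/-- squared Hellinger distance (unnormalised) -/
noncomputable def hell {M : Type*} [Monoid M] (P Q : Al M) : ℝ := by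
  classical exact ∑ w ∈ P.coeff.support ∪ Q.coeff.support, (√(P.coeff w) - √(Q.coeff w))^2

/-- INPUT of the final assembly -/
def StringsInput (q : ℝ) (H L : ℕ) : Prop :=
  ∃ (C : ℝ) (y0 : ℕ), 0 < C ∧ ∀ y : ℕ, y0 ≤ y → ∃ (u v : List Bool) (P Q : Al Wo),
    u ≠ v ∧ u.length = v.length ∧ (u.length : ℝ) ≤ C * (y:ℝ)^L ∧ Pr P ∧ Pr Q ∧
    Descr q P u ∧ Descr q Q v ∧ hell P Q ≤ C / (y:ℝ)^H

/-- TARGETS of the final assembly (c) -/
def Targets : Prop :=
  -- describing laws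
  (∀ q, Descr q 1 []) ∧ (∀ q, Descr q (eN q) [false, true]) ∧ (∀ q, Descr q (eX q) [false]) ∧
  (∀ q P Q l l', Descr q P l → Descr q Q l' → Descr q (P*Q) (l ++ l')) ∧
  -- final theorem
  (∀ q : ℝ, 0 < q → q < 1 → ∀ K H L : ℕ, 1 ≤ L → K * L ≤ H → StringsInput q H L →
    ∃ c : ℝ, 0 < c ∧ ∀ n : ℕ, 1 ≤ n → c * (n:ℝ)^K ≤ (Vale.Agent.P321.sampleComplexity q n : ℝ))

end Vale.Agent.P321S
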