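import Mathlib
import Vale.Agent.P321S.Interface

namespace Vale.Agent.P321S

open MonoidAlgebra Finset
open Vale.Agent.P321 (Letter bits tr Rec patternProb trace Estimator sampleComplexity)

lemma tr_append (q : ℝ) (l l' : List Bool) (g : List Bool → ℝ) :
    tr q (l ++ l') g = tr q l (fun u => tr q l' (fun v => g (u ++ v))) := by
  induction l generalizing g with
  | nil => simp [tr]
  | cons b l ih =>
    simp only [List.cons_append, tr]
    rw [ih, ih]

lemma bits_append (w w' : List Letter) : bits (w ++ w') = bits w ++ bits w' := by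
  simp [bits]

theorem descr_one (q : ℝ) : Descr q 1 [] := by
  intro g
  rw [E_one]
  simp [tr, bits]

theorem descr_eX (q : ℝ) : Descr q (eX q) [false] := by
  intro g
  unfold eX lt
  rw [E_add, E_smul, E_smul, E_one, E_single]
  simp [tr, bits, Letter.toBits]
  ring

theorem descr_eN (q : ℝ) : Descr q (eN q) [false, true] := by
  intro g
  unfold eN lt
  rw [E_add, E_add, E_add, E_smul, E_smul, E_smul, E_smul, E_one, E_single, E_single, E_single]
  simp [tr, bits, Letter.toBits]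
  ring

theorem descr_mul (q : ℝ) (P Q : Al Wo) (l l' : List Bool) (hP : Descr q P l)
    (hQ : Descr q Q l') : Descr q (P * Q) (l ++ l') := by
  intro g
  rw [E_mul, tr_append, ← hP]
  congr 1
  funext u
  rw [← hQ]
  congr 1
  funext v
  rw [FreeMonoid.toList_mul, bits_append]

/-- if `m` traces suffice, then the two laws can be told apart -/
lemma separation (q : ℝ) (h0 : 0 < q) (h1 : q < 1) (n m : ℕ) (h : Rec q n m)
    (u v : List Bool) (P Q : Al Wo) (huv : u ≠ v) (hu : u.length = n) (hv : v.length = n)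
    (hP : Pr P) (hQ : Pr Q) (dP : Descr q P u) (dQ : Descr q Q v) :
    1 ≤ 9 * m * hell P Q := by
  classical
  obtain ⟨e, he⟩ := h
  obtain ⟨x, hx⟩ := Vale.Agent.P321.exists_ofFn n u hu
  obtain ⟨y, hy⟩ := Vale.Agent.P321.exists_ofFn n v hv
  have hxy : x ≠ y := by
    intro h
    apply huv
    rw [← hx, ← hy, h]
  set s : Finset Wo := P.coeff.support ∪ Q.coeff.support with hs
  let pP : s → ℝ := fun w => P.coeff (w : Wo)
  let pQ : s → ℝ := fun w => Q.coeff (w : Wo)
  let f : s → List Bool := fun w => bits (FreeMonoid.toList (w : Wo))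
  have hrx : ∀ g : List Bool → ℝ, ∑ k : Fin n → Bool, patternProb q k * g (trace x k)
      = ∑ w : s, pP w * g (f w) := by
    intro g
    rw [Vale.Agent.P321.sum_pattern, hx, ← dP g, E_eq_sum P s Finset.subset_union_left]
    exact (Finset.sum_coe_sort s (fun w => P.coeff w * g (bits (FreeMonoid.toList w)))).symm
  have hry : ∀ g : List Bool → ℝ, ∑ k : Fin n → Bool, patternProb q k * g (trace y k)
      = ∑ w : s, pQ w * g (f w) := by
    intro g
    rw [Vale.Agent.P321.sum_pattern, hy, ← dQ g, E_eq_sum Q s Finset.subset_union_right]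
    exact (Finset.sum_coe_sort s (fun w => Q.coeff w * g (bits (FreeMonoid.toList w)))).symm
  have hP1 : ∑ w, pP w = 1 := by
    have := hrx (fun _ => 1)
    simp only [mul_one] at this
    rw [← this, Vale.Agent.P321.sum_patternProb]
  have hQ1 : ∑ w, pQ w = 1 := by
    have := hry (fun _ => 1)
    simp only [mul_one] at this
    rw [← this, Vale.Agent.P321.sum_patternProb]
  have hP0 : ∀ w, 0 ≤ pP w := fun w => hP.nn _
  have hQ0 : ∀ w, 0 ≤ pQ w := fun w => hQ.nn _
  have key := Vale.Agent.P321.two_point pP pQ hP0 hQ0 hP1 hQ1 m (fun w => e.prob (fun j => f (w j)) x)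
    (fun w => e.prob_nonneg _ _) (fun w => Vale.Agent.P321.prob_le_one e _ _)
  have s1 : ∑ w : Fin m → s, (∏ j, pP (w j)) * e.prob (fun j => f (w j)) x
      = e.success q x := by
    unfold Estimator.success
    exact (Vale.Agent.P321.pi_expect (fun k : Fin n → Bool => patternProb q k) (fun k => trace x k) pP
      f hrx m (fun t => e.prob t x)).symm
  have s2 : ∑ w : Fin m → s, (∏ j, pQ (w j)) * e.prob (fun j => f (w j)) x
      = ∑ k : Fin m → Fin n → Bool, (∏ j, patternProb q (k j)) * e.prob (fun j => trace y (k j)) x := by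
    exact (Vale.Agent.P321.pi_expect (fun k : Fin n → Bool => patternProb q k) (fun k => trace y k) pQ
      f hry m (fun t => e.prob t x)).symm
  have s3 : ∑ k : Fin m → Fin n → Bool, (∏ j, patternProb q (k j)) * e.prob (fun j => trace y (k j)) x
      ≤ 1/3 := by
    have hsum : ∑ k : Fin m → Fin n → Bool, (∏ j, patternProb q (k j)) = 1 := by
      rw [Vale.Agent.P321.sum_prod_pow, Vale.Agent.P321.sum_patternProb, one_pow]
    have hy2 := he y
    unfold Estimator.success at hy2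
    have : ∑ k : Fin m → Fin n → Bool, (∏ j, patternProb q (k j)) * e.prob (fun j => trace y (k j)) x
        + ∑ k : Fin m → Fin n → Bool, (∏ j, patternProb q (k j)) * e.prob (fun j => trace y (k j)) y
        ≤ ∑ k : Fin m → Fin n → Bool, (∏ j, patternProb q (k j)) := by
      rw [← Finset.sum_add_distrib]
      apply Finset.sum_le_sum
      intro k _
      rw [← mul_add]
      have h3 := Vale.Agent.P321.prob_add_le_one e (fun j => trace y (k j)) x y hxy
      have h4 : 0 ≤ ∏ j, patternProb q (k j) :=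
        Finset.prod_nonneg (fun j _ => Vale.Agent.P321.patternProb_nonneg q h0.le h1.le _)
      nlinarith
    rw [hsum] at this
    linarith
  rw [s1, s2] at key
  have hx2 := he x
  have hdiff : (1/9 : ℝ) ≤ (e.success q x - ∑ k : Fin m → Fin n → Bool,
      (∏ j, patternProb q (k j)) * e.prob (fun j => trace y (k j)) x)^2 := by
    nlinarith
  set BC := ∑ w, √(pP w) * √(pQ w) with hBC
  have hH : hell P Q = 2 - 2*BC := by
    have e0 : hell P Q = ∑ w : s, (√(pP w) - √(pQ w))^2 := by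
      unfold hell
      have e1 := Finset.sum_coe_sort s (fun w => (√(P.coeff w) - √(Q.coeff w))^2)
      rw [e1, hs]
    have : ∑ w : s, (√(pP w) - √(pQ w))^2 = ∑ w, pP w + ∑ w, pQ w - 2 * BC := by
      rw [hBC, Finset.mul_sum, ← Finset.sum_add_distrib, ← Finset.sum_sub_distrib]
      apply Finset.sum_congr rfl
      intro w _
      have e1 := Real.sq_sqrt (hP0 w)
      have e2 := Real.sq_sqrt (hQ0 w)
      nlinarith
    rw [e0, this, hP1, hQ1]; ring
  have hBC0 : 0 ≤ BC := Finset.sum_nonneg (fun w _ => by positivity)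
  have hBern : 1 + ((2*m : ℕ) : ℝ) * (BC - 1) ≤ (1 + (BC - 1))^(2*m) := by
    apply one_add_mul_le_pow
    linarith
  have hpow : (BC^m)^2 = (1 + (BC-1))^(2*m) := by
    rw [← pow_mul]
    congr 1
    · ring
    · ring
  rw [hpow] at key
  have hfin : 1/9 ≤ ((2*m : ℕ) : ℝ) * (1 - BC) := by
    have := hdiff.trans key
    linarith
  push_cast at hfin
  rw [hH]
  nlinarith

/-- a natural number `y` with `C y^L ≤ n < C (y+1)^L` -/
lemma exists_root (C : ℝ) (hC : 0 < C) (L : ℕ) (hL : 1 ≤ L) (n : ℕ) :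
    ∃ y : ℕ, C * (y:ℝ)^L ≤ n ∧ (n:ℝ) ≤ C * ((y:ℝ)+1)^L := by
  set t : ℝ := ((n:ℝ)/C) ^ ((L:ℝ)⁻¹) with ht
  have hnC : 0 ≤ (n:ℝ)/C := by positivity
  have ht0 : 0 ≤ t := Real.rpow_nonneg hnC _
  have htL : t^L = (n:ℝ)/C := by
    rw [ht]
    exact Real.rpow_inv_natCast_pow hnC (by omega)
  refine ⟨⌊t⌋₊, ?_, ?_⟩
  · have h1 : ((⌊t⌋₊ : ℕ) : ℝ) ≤ t := Nat.floor_le ht0
    have h2 : ((⌊t⌋₊ : ℕ) : ℝ)^L ≤ t^L := pow_le_pow_left₀ (Nat.cast_nonneg _) h1 L
    rw [htL] at h2
    calc C * ((⌊t⌋₊ : ℕ) : ℝ)^L ≤ C * ((n:ℝ)/C) := mul_le_mul_of_nonneg_left h2 hC.le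
      _ = n := by field_simp
  · have h1 : t ≤ ((⌊t⌋₊ : ℕ) : ℝ) + 1 := (Nat.lt_floor_add_one t).le
    have h2 : t^L ≤ (((⌊t⌋₊ : ℕ) : ℝ) + 1)^L := pow_le_pow_left₀ ht0 h1 L
    rw [htL] at h2
    calc (n:ℝ) = C * ((n:ℝ)/C) := by field_simp
      _ ≤ _ := mul_le_mul_of_nonneg_left h2 hC.le

theorem final (q : ℝ) (h0 : 0 < q) (h1 : q < 1) (K H L : ℕ) (hL : 1 ≤ L) (hKL : K * L ≤ H)
    (hin : StringsInput q H L) :
    ∃ c : ℝ, 0 < c ∧ ∀ n : ℕ, 1 ≤ n → c * (n:ℝ)^K ≤ (sampleComplexity q n : ℝ) := by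
  obtain ⟨C, y0, hC, hin⟩ := hin
  set y1 : ℕ := max y0 1 with hy1
  set N0 : ℝ := C * ((y1:ℝ)+1)^L with hN0
  have hN0pos : 0 < N0 := by positivity
  set D : ℝ := 9 * C * (C * 2^L)^K with hD
  have hDpos : 0 < D := by positivity
  refine ⟨min (1/D) (1/N0^K), by positivity, ?_⟩
  intro n hn
  have hn0 : (0:ℝ) ≤ n := Nat.cast_nonneg n
  obtain ⟨y, hya, hyb⟩ := exists_root C hC L hL n
  by_cases hy : y1 ≤ y
  · have hy0 : y0 ≤ y := (le_max_left _ _).trans hy
    have hypos : 1 ≤ y := (le_max_right _ _).trans hy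
    have hyR : (1:ℝ) ≤ (y:ℝ) := by exact_mod_cast hypos
    obtain ⟨u, v, P, Q, huv, hlen, hle, hP, hQ, dP, dQ, hh⟩ := hin y hy0
    have hun : u.length ≤ n := by
      have : (u.length : ℝ) ≤ n := hle.trans hya
      exact_mod_cast this
    have hrec := Vale.Agent.P321.rec_of_le q h0.le h1.le n u.length _ hun
      (Vale.Agent.P321.rec_sampleComplexity q h0 h1 n)
    have hsep := separation q h0 h1 u.length _ hrec u v P Q huv rfl hlen.symm hP hQ dP dQ
    set T : ℝ := (sampleComplexity q n : ℝ) with hT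
    have hT0 : 0 ≤ T := Nat.cast_nonneg _
    have hyH : 0 < (y:ℝ)^H := by positivity
    have h2 : 1 ≤ 9 * T * (C / (y:ℝ)^H) :=
      hsep.trans (mul_le_mul_of_nonneg_left hh (by positivity))
    have h3 : (y:ℝ)^H ≤ 9 * C * T := by
      have e : 9 * T * (C / (y:ℝ)^H) = (9 * C * T) / (y:ℝ)^H := by ring
      rw [e, le_div_iff₀ hyH] at h2
      linarith
    have h4 : (n:ℝ) ≤ C * 2^L * (y:ℝ)^L := by
      refine hyb.trans ?_
      have : ((y:ℝ)+1)^L ≤ (2 * (y:ℝ))^L := pow_le_pow_left₀ (by positivity) (by linarith) L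
      rw [mul_pow] at this
      calc C * ((y:ℝ)+1)^L ≤ C * (2^L * (y:ℝ)^L) := mul_le_mul_of_nonneg_left this hC.le
        _ = _ := by ring
    have h5 : (n:ℝ)^K ≤ (C * 2^L)^K * (y:ℝ)^H := by
      calc (n:ℝ)^K ≤ (C * 2^L * (y:ℝ)^L)^K := pow_le_pow_left₀ hn0 h4 K
        _ = (C * 2^L)^K * (y:ℝ)^(K*L) := by rw [mul_pow, ← pow_mul, mul_comm L K]
        _ ≤ (C * 2^L)^K * (y:ℝ)^H := by
            apply mul_le_mul_of_nonneg_left _ (by positivity)
            exact pow_le_pow_right₀ hyR hKL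
    have h6 : (n:ℝ)^K ≤ D * T := by
      calc (n:ℝ)^K ≤ (C * 2^L)^K * (y:ℝ)^H := h5
        _ ≤ (C * 2^L)^K * (9 * C * T) := mul_le_mul_of_nonneg_left h3 (by positivity)
        _ = D * T := by rw [hD]; ring
    calc min (1/D) (1/N0^K) * (n:ℝ)^K ≤ 1/D * (n:ℝ)^K :=
          mul_le_mul_of_nonneg_right (min_le_left _ _) (by positivity)
      _ ≤ 1/D * (D * T) := mul_le_mul_of_nonneg_left h6 (by positivity)
      _ = T := by field_simp
  · have hpos := Vale.Agent.P321.sampleComplexity_pos q h0 h1 n hn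
    have hpR : (1:ℝ) ≤ (sampleComplexity q n : ℝ) := by exact_mod_cast hpos
    have hyR : (y:ℝ) ≤ (y1:ℝ) := by
      have : y ≤ y1 := by omega
      exact_mod_cast this
    have hnN : (n:ℝ) ≤ N0 := by
      refine hyb.trans ?_
      apply mul_le_mul_of_nonneg_left _ hC.le
      exact pow_le_pow_left₀ (by positivity) (by linarith) L
    calc min (1/D) (1/N0^K) * (n:ℝ)^K ≤ 1/N0^K * N0^K := by
          apply mul_le_mul (min_le_right _ _) (pow_le_pow_left₀ hn0 hnN K) (by positivity)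
            (by positivity)
      _ = 1 := by field_simp
      _ ≤ _ := hpR

theorem targets : Targets :=
  ⟨descr_one, descr_eN, descr_eX, descr_mul,
    fun q h0 h1 K H L hL hKL hin => final q h0 h1 K H L hL hKL hin⟩

end Vale.Agent.P321S
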