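import Mathlib
import Vale.Agent.P321.Comb

namespace Vale.Agent.P321S

open Finset

lemma choose_mono_half (n x y : ℕ) (hxy : x ≤ y) (hy : 2*y ≤ n) : n.choose x ≤ n.choose y := by
  induction y, hxy using Nat.le_induction with
  | base => exact le_rfl
  | succ y _ ih =>
    refine (ih (by omega)).trans ?_
    exact Nat.choose_le_succ_of_lt_half_left (by omega)

lemma choose_le_between (n x y : ℕ) (hxy : x ≤ y) (hy : y ≤ n - x) (hx : x ≤ n) :
    n.choose x ≤ n.choose y := by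
  by_cases h : 2*y ≤ n
  · exact choose_mono_half n x y hxy h
  · rw [← Nat.choose_symm (show y ≤ n by omega)]
    exact choose_mono_half n x (n-y) (by omega) (by omega)

lemma sub_mul_choose_le (n x : ℕ) (h : 2*x ≤ n) : (n - 2*x) * n.choose x ≤ 2^n := by
  rw [← Nat.sum_range_choose n]
  calc (n - 2*x) * n.choose x ≤ ∑ y ∈ Finset.Ico x (n-x), n.choose y := by
        have : ∑ y ∈ Finset.Ico x (n-x), n.choose x ≤ ∑ y ∈ Finset.Ico x (n-x), n.choose y := by
          apply Finset.sum_le_sum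
          intro y hy
          rw [Finset.mem_Ico] at hy
          exact choose_le_between n x y hy.1 (by omega) (by omega)
        rw [Finset.sum_const, Nat.card_Ico, smul_eq_mul] at this
        have e : n - x - x = n - 2*x := by omega
        rwa [e] at this
    _ ≤ ∑ m ∈ Finset.range (n+1), n.choose m := by
        apply Finset.sum_le_sum_of_subset
        intro y hy
        rw [Finset.mem_Ico] at hy
        rw [Finset.mem_range]; omega

lemma abs_mul_choose_le (n x : ℕ) : |(n:ℝ) - 2*x| * (n.choose x : ℝ) ≤ 2^n := by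
  by_cases hx : n < x
  · rw [Nat.choose_eq_zero_of_lt hx]; simp
  push Not at hx
  by_cases h : 2*x ≤ n
  · have h1 := sub_mul_choose_le n x h
    have e : |(n:ℝ) - 2*x| = ((n - 2*x : ℕ) : ℝ) := by
      rw [Nat.cast_sub h]; push_cast
      rw [abs_of_nonneg]
      have : ((2*x : ℕ):ℝ) ≤ n := by exact_mod_cast h
      push_cast at this; linarith
    rw [e]; exact_mod_cast h1
  · have h1 := sub_mul_choose_le n (n-x) (by omega)
    rw [Nat.choose_symm hx] at h1
    have e : |(n:ℝ) - 2*x| = ((n - 2*(n-x) : ℕ) : ℝ) := by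
      have e1 : n - 2*(n-x) = 2*x - n := by omega
      rw [e1, Nat.cast_sub (by omega)]; push_cast
      rw [abs_sub_comm, abs_of_nonneg]
      have : (n:ℝ) ≤ ((2*x : ℕ):ℝ) := by exact_mod_cast (by omega : n ≤ 2*x)
      push_cast at this; linarith
    rw [e]; exact_mod_cast h1

lemma choose_diff_le (A x : ℕ) :
    |((A.choose x : ℝ)) - (A.choose (x+1) : ℝ)| ≤ 2^(A+1) / (A+1) := by
  have h1 : ((A:ℝ)+1) * (A.choose x : ℝ) = ((A+1).choose (x+1) : ℝ) * (x+1) := by
    exact_mod_cast Nat.add_one_mul_choose_eq A x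
  have h2 : (A.choose (x+1) : ℝ) * ((A:ℝ)+1) = ((A+1).choose (x+1) : ℝ) * ((A:ℝ) - x) := by
    by_cases hx : x ≤ A
    · have h := Nat.choose_mul_succ_eq A (x+1)
      have e : A + 1 - (x+1) = A - x := by omega
      rw [e] at h
      have h' : (A.choose (x+1) : ℝ) * ((A:ℝ)+1) = ((A+1).choose (x+1) : ℝ) * ((A - x : ℕ):ℝ) := by
        exact_mod_cast h
      rwa [Nat.cast_sub hx] at h'
    · rw [Nat.choose_eq_zero_of_lt (show A < x+1 by omega),
        Nat.choose_eq_zero_of_lt (show A+1 < x+1 by omega)]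
      simp
  rw [le_div_iff₀ (by positivity)]
  have h3 := abs_mul_choose_le (A+1) (x+1)
  have e : |((A.choose x : ℝ)) - (A.choose (x+1) : ℝ)| * ((A:ℝ)+1)
      = |((A+1 : ℕ) : ℝ) - 2*((x+1 : ℕ):ℝ)| * ((A+1).choose (x+1) : ℝ) := by
    have hA : (0:ℝ) ≤ (A:ℝ)+1 := by positivity
    have hc : (0:ℝ) ≤ ((A+1).choose (x+1) : ℝ) := by positivity
    rw [← abs_of_nonneg hA, ← abs_mul]
    conv_rhs => rw [← abs_of_nonneg hc, ← abs_mul]
    rw [← abs_neg]
    congr 1
    push_cast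
    linear_combination (-1:ℝ) * h1 + h2
  rw [e]
  exact h3

/-- integer-indexed binomial coefficients -/
noncomputable def cz : ℕ → ℤ → ℝ
  | 0, m => if m = 0 then 1 else 0
  | A+1, m => cz A m + cz A (m-1)

lemma cz_neg (A : ℕ) (m : ℤ) (h : m < 0) : cz A m = 0 := by
  induction A generalizing m with
  | zero => simp [cz, h.ne]
  | succ A ih => simp only [cz]; rw [ih m h, ih (m-1) (by omega)]; simp

lemma cz_nat (A k : ℕ) : cz A (k:ℤ) = (A.choose k : ℝ) := by
  induction A generalizing k with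
  | zero =>
    cases k with
    | zero => simp [cz]
    | succ k => simp only [cz, Nat.choose_zero_succ, Nat.cast_zero]; rw [if_neg]; omega
  | succ A ih =>
    cases k with
    | zero =>
      simp only [cz]
      have h0 := ih 0
      rw [h0, cz_neg A _ (by norm_num)]
      simp
    | succ k =>
      simp only [cz]
      have h1 := ih (k+1)
      have h2 := ih k
      have e : ((k+1 : ℕ):ℤ) - 1 = (k:ℤ) := by push_cast; ring
      rw [h1, e, h2, Nat.choose_succ_succ]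
      push_cast; ring

lemma cz_diff (A : ℕ) (m : ℤ) : |cz A m - cz A (m+1)| ≤ 2^(A+1)/(A+1) := by
  have hpos : (0:ℝ) ≤ 2^(A+1)/((A:ℝ)+1) := by positivity
  rcases lt_trichotomy m (-1) with h | h | h
  · rw [cz_neg A m (by omega), cz_neg A (m+1) (by omega)]
    simpa using hpos
  · subst h
    rw [cz_neg A (-1) (by norm_num)]
    have := cz_nat A 0
    simp only [Nat.cast_zero, Nat.choose_zero_right, Nat.cast_one] at this
    have e : (-1:ℤ) + 1 = 0 := by norm_num
    rw [e, this]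
    rw [le_div_iff₀ (by positivity)]
    norm_num
    have : A + 1 ≤ 2^(A+1) := (Nat.lt_two_pow_self (n := A+1)).le
    exact_mod_cast this
  · obtain ⟨k, hk⟩ : ∃ k : ℕ, m = k := ⟨m.toNat, by omega⟩
    subst hk
    have e : (k:ℤ) + 1 = ((k+1 : ℕ):ℤ) := by push_cast; ring
    rw [e, cz_nat, cz_nat]
    exact choose_diff_le A k

/-- sum of neighbours -/
def Pc (c : ℤ → ℝ) : ℤ → ℝ := fun n => c n + c (n+1)

/-- the elementary difference -/
noncomputable def c0 (h : ℕ) : ℤ → ℝ := fun n => cz 0 (h - n) - cz 0 (h + 1 - n)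

lemma Pc_c0 (h A : ℕ) (n : ℤ) : (Pc^[A] (c0 h)) n = cz A (h - n) - cz A (h+1-n) := by
  induction A generalizing n with
  | zero => rfl
  | succ A ih =>
    rw [Function.iterate_succ_apply']
    simp only [Pc, ih, cz]
    have e1 : (h:ℤ) - (n+1) = h - n - 1 := by ring
    have e2 : (h:ℤ) + 1 - (n+1) = h + 1 - n - 1 := by ring
    rw [e1, e2]; ring

lemma Pc_c0_bound (h A : ℕ) (n : ℤ) : |(Pc^[A] (c0 h)) n| ≤ 2^(A+1)/(A+1) := by
  rw [Pc_c0]
  have := cz_diff A (h - n)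
  have e : (h:ℤ) - n + 1 = h + 1 - n := by ring
  rwa [e] at this

/-- weights -/
noncomputable def Wf (δ b : ℝ) : ℕ → (ℕ → ℝ) → ℝ
  | 0, s => s 0
  | t+1, s => δ * Wf δ b t (fun A => s (A+1)) + b * Wf δ b t s

lemma Wf_nonneg {δ b : ℝ} (hδ : 0 ≤ δ) (hb : 0 ≤ b) (t : ℕ) (s : ℕ → ℝ) (hs : ∀ A, 0 ≤ s A) :
    0 ≤ Wf δ b t s := by
  induction t generalizing s with
  | zero => exact hs 0
  | succ t ih =>
    simp only [Wf]
    exact add_nonneg (mul_nonneg hδ (ih _ (fun A => hs _))) (mul_nonneg hb (ih _ hs))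

lemma Wf_closed (δ b : ℝ) (t : ℕ) (s : ℕ → ℝ) :
    Wf δ b t s = ∑ A ∈ range (t+1), (t.choose A : ℝ) * δ^A * b^(t-A) * s A := by
  induction t generalizing s with
  | zero => simp [Wf]
  | succ t ih =>
    simp only [Wf]
    rw [ih, ih, Finset.mul_sum, Finset.mul_sum]
    rw [Finset.sum_range_succ' (fun A => ((t+1).choose A : ℝ) * δ^A * b^(t+1-A) * s A) (t+1)]
    have e1 : ∀ A ∈ range (t+1), ((t+1).choose (A+1) : ℝ) * δ^(A+1) * b^(t+1-(A+1)) * s (A+1)
        = δ * ((t.choose A : ℝ) * δ^A * b^(t-A) * s (A+1))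
          + (t.choose (A+1) : ℝ) * δ^(A+1) * b^(t-A) * s (A+1) := by
      intro A _
      rw [Nat.choose_succ_succ]
      have : t + 1 - (A+1) = t - A := by omega
      rw [this]
      push_cast; ring
    rw [Finset.sum_congr rfl e1, Finset.sum_add_distrib]
    have e2 : ∑ A ∈ range (t+1), b * ((t.choose A : ℝ) * δ^A * b^(t-A) * s A)
        = ∑ A ∈ range (t+1), (t.choose (A+1) : ℝ) * δ^(A+1) * b^(t-A) * s (A+1)
          + ((t+1).choose 0 : ℝ) * δ^0 * b^(t+1-0) * s 0 := by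
      rw [Finset.sum_range_succ' (fun A => b * ((t.choose A : ℝ) * δ^A * b^(t-A) * s A)) t]
      rw [Finset.sum_range_succ (fun A => (t.choose (A+1) : ℝ) * δ^(A+1) * b^(t-A) * s (A+1)) t]
      rw [Nat.choose_eq_zero_of_lt (show t < t+1 by omega)]
      have e3 : ∀ A ∈ range t, b * ((t.choose (A+1) : ℝ) * δ^(A+1) * b^(t-(A+1)) * s (A+1))
          = (t.choose (A+1) : ℝ) * δ^(A+1) * b^(t-A) * s (A+1) := by
        intro A hA
        rw [mem_range] at hA
        have : t - A = (t - (A+1)) + 1 := by omega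
        rw [this, pow_succ]; ring
      rw [Finset.sum_congr rfl e3]
      simp only [Nat.choose_zero_right, Nat.sub_zero, pow_succ]
      ring
    rw [e2]; ring

lemma Wf_mono {δ b : ℝ} (hδ : 0 ≤ δ) (hb : 0 ≤ b) (t : ℕ) (s s' : ℕ → ℝ) (h : ∀ A, s A ≤ s' A) :
    Wf δ b t s ≤ Wf δ b t s' := by
  induction t generalizing s s' with
  | zero => exact h 0
  | succ t ih =>
    simp only [Wf]
    exact add_le_add (mul_le_mul_of_nonneg_left (ih _ _ (fun A => h _)) hδ)
      (mul_le_mul_of_nonneg_left (ih _ _ h) hb)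

lemma binom_partial (δ : ℝ) (h0 : 0 < δ) (h1 : δ ≤ 1) (t j : ℕ) :
    ∑ A ∈ range (t+1), ((t+j).choose (A+j) : ℝ) * δ^(A+j) * (1-δ)^(t-A) ≤ 1 := by
  have hb : (0:ℝ) ≤ 1 - δ := by linarith
  have hone : (δ + (1-δ))^(t+j) = 1 := by
    have : δ + (1-δ) = 1 := by ring
    rw [this, one_pow]
  rw [add_pow] at hone
  have e : ∑ A ∈ range (t+1), ((t+j).choose (A+j) : ℝ) * δ^(A+j) * (1-δ)^(t-A)
      = ∑ m ∈ (range (t+1)).image (fun A => A + j), δ^m * (1-δ)^(t+j-m) * ((t+j).choose m : ℝ) := by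
    rw [Finset.sum_image (by intro a _ b _ h; simpa using h)]
    apply Finset.sum_congr rfl
    intro A _
    have : t + j - (A + j) = t - A := by omega
    rw [this]; ring
  rw [e]
  refine le_trans ?_ hone.le
  apply Finset.sum_le_sum_of_subset_of_nonneg
  · intro m hm
    rw [Finset.mem_image] at hm
    obtain ⟨A, hA, rfl⟩ := hm
    rw [mem_range] at hA ⊢
    omega
  · intro m _ _
    positivity

lemma Wf_two (δ : ℝ) (h0 : 0 < δ) (h1 : δ ≤ 1) (t : ℕ) :
    Wf δ (4*(1-δ)) t (fun A => (2^(A+1)/(A+1))^2) ≤ 8 * 4^t / ((t+1)*(t+2)*δ^2) := by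
  have hb : (0:ℝ) ≤ 1 - δ := by linarith
  rw [Wf_closed]
  have hstep : ∀ A ∈ range (t+1), (t.choose A : ℝ) * δ^A * (4*(1-δ))^(t-A) * (2^(A+1)/((A:ℝ)+1))^2
      ≤ 8 * 4^t / ((t+1)*(t+2)*δ^2) * (((t+2).choose (A+2) : ℝ) * δ^(A+2) * (1-δ)^(t-A)) := by
    intro A hA
    rw [mem_range] at hA
    have e1 : ((t:ℝ)+1) * (t.choose A : ℝ) = ((t+1).choose (A+1) : ℝ) * (A+1) := by
      exact_mod_cast Nat.add_one_mul_choose_eq t A
    have e2 : ((t:ℝ)+2) * ((t+1).choose (A+1) : ℝ) = ((t+2).choose (A+2) : ℝ) * (A+2) := by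
      have := Nat.add_one_mul_choose_eq (t+1) (A+1)
      exact_mod_cast this
    have e3 : ((t+2).choose (A+2) : ℝ) = ((t:ℝ)+1)*((t:ℝ)+2)*(t.choose A : ℝ)/((A+1)*(A+2)) := by
      rw [eq_div_iff (by positivity)]
      linear_combination (-(A:ℝ)-1) * e2 + (-(t:ℝ)-2) * e1
    have e4 : (4*(1-δ))^(t-A) * (2^(A+1)/((A:ℝ)+1))^2 = 4 * 4^t * (1-δ)^(t-A) / (A+1)^2 := by
      rw [mul_pow, div_pow, ← pow_mul]
      have : (4:ℝ)^t = 4^(t-A) * 4^A := by rw [← pow_add]; congr 1; omega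
      rw [this]
      have h4 : (2:ℝ)^((A+1)*2) = 4 * 4^A := by
        rw [mul_comm, pow_mul]; norm_num; rw [pow_succ]; ring
      rw [h4]; field_simp
    have lhs : (t.choose A : ℝ) * δ^A * (4*(1-δ))^(t-A) * (2^(A+1)/((A:ℝ)+1))^2
        = (4 * 4^t * ((t.choose A : ℝ) * δ^A * (1-δ)^(t-A))) * (1/ (A+1)^2) := by
      rw [mul_assoc, e4]; ring
    have rhs : 8 * 4^t / ((t+1)*(t+2)*δ^2) * (((t+2).choose (A+2) : ℝ) * δ^(A+2) * (1-δ)^(t-A))
        = (4 * 4^t * ((t.choose A : ℝ) * δ^A * (1-δ)^(t-A))) * (2 / ((A+1)*(A+2))) := by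
      rw [e3]; field_simp; ring
    rw [lhs, rhs]
    apply mul_le_mul_of_nonneg_left _ (by positivity)
    rw [div_le_div_iff₀ (by positivity) (by positivity)]
    have : (0:ℝ) ≤ A := Nat.cast_nonneg A
    nlinarith
  refine (Finset.sum_le_sum hstep).trans ?_
  rw [← Finset.mul_sum]
  have := binom_partial δ h0 h1 t 2
  exact mul_le_of_le_one_right (by positivity) this

lemma Wf_one (δ : ℝ) (h0 : 0 < δ) (h1 : δ ≤ 1) (t : ℕ) :
    Wf δ (2*(1-δ)) t (fun A => 2^(A+1)/(A+1)) ≤ 2 * 2^t / ((t+1)*δ) := by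
  have hb : (0:ℝ) ≤ 1 - δ := by linarith
  rw [Wf_closed]
  have hstep : ∀ A ∈ range (t+1), (t.choose A : ℝ) * δ^A * (2*(1-δ))^(t-A) * (2^(A+1)/((A:ℝ)+1))
      = 2 * 2^t / ((t+1)*δ) * (((t+1).choose (A+1) : ℝ) * δ^(A+1) * (1-δ)^(t-A)) := by
    intro A hA
    rw [mem_range] at hA
    have e1 : ((t:ℝ)+1) * (t.choose A : ℝ) = ((t+1).choose (A+1) : ℝ) * (A+1) := by
      exact_mod_cast Nat.add_one_mul_choose_eq t A
    have e3 : ((t+1).choose (A+1) : ℝ) = ((t:ℝ)+1)*(t.choose A : ℝ)/(A+1) := by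
      rw [eq_div_iff (by positivity)]; exact e1.symm
    rw [e3, mul_pow]
    have : (2:ℝ)^t = 2^(t-A) * 2^A := by rw [← pow_add]; congr 1; omega
    rw [this, pow_succ 2 A, pow_succ δ A]
    field_simp
  rw [Finset.sum_congr rfl hstep, ← Finset.mul_sum]
  have := binom_partial δ h0 h1 t 1
  exact mul_le_of_le_one_right (by positivity) this

/-- lower bound for the near-central binomial coefficient -/
lemma choose_mid_sq (h : ℕ) : (4:ℝ)^(2*h+1) ≤ 2 * (2*h+2) * ((2*h+1).choose h : ℝ)^2 := by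
  have h1 := Vale.Agent.P321.centralBinom_sq_lower (h+1) (by omega)
  have e : Nat.centralBinom (h+1) = 2 * (2*h+1).choose h := by
    rw [Nat.centralBinom]
    have h1 : 2*(h+1) = (2*h+1)+1 := by ring
    rw [h1, Nat.choose_succ_succ]
    have h2 : (2*h+1).choose (h+1) = (2*h+1).choose h := by
      apply Nat.choose_symm_of_eq_add
      omega
    rw [h2]; ring
  rw [e] at h1
  have h2 : (16:ℝ)^(h+1) ≤ 4*(h+1)*(2 * ((2*h+1).choose h : ℝ))^2 := by exact_mod_cast h1
  have e16 : (16:ℝ)^(h+1) = 4 * 4^(2*h+1) := by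
    have : (16:ℝ) = 4^2 := by norm_num
    rw [this, ← pow_mul]
    ring
  rw [e16] at h2
  nlinarith

end Vale.Agent.P321S
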