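import Mathlib
import Vale.Agent.P321S.Alg

namespace Vale.Agent.P321S

open MonoidAlgebra Finset

variable {M : Type*} [Monoid M]

lemma sq_add_le_of {x y c d P Q : ℝ} (hx : x^2 ≤ c * P) (hy : y^2 ≤ d * Q) (hc : 0 ≤ c)
    (hd : 0 ≤ d) (hP : 0 ≤ P) (hQ : 0 ≤ Q) : (x+y)^2 ≤ (c+d)*(P+Q) := by
  have h1 : (2*x*y)^2 ≤ (c*Q + d*P)^2 := by
    have : x^2*y^2 ≤ (c*P)*(d*Q) := mul_le_mul hx hy (sq_nonneg _) (by positivity)
    nlinarith [sq_nonneg (c*Q - d*P)]
  have h2 : 2*x*y ≤ c*Q + d*P := by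
    have h3 : 0 ≤ c*Q + d*P := by positivity
    exact le_of_sq_le_sq h1 h3 |>.trans' (le_refl _)
  nlinarith

/-- chi-square type domination of the signed measure `F` by the measure `R` -/
def Dom (c : ℝ) (F R : Al M) : Prop := ∀ φ : M → ℝ, (E F φ)^2 ≤ c * E R (fun w => φ w ^ 2)

lemma E_sq_nonneg {R : Al M} (hR : Nn R) (φ : M → ℝ) : 0 ≤ E R (fun w => φ w ^ 2) :=
  E_nonneg hR (fun _ => sq_nonneg _)

lemma Dom.mono {c c' : ℝ} {F R : Al M} (h : Dom c F R) (hR : Nn R) (hc : c ≤ c') : Dom c' F R := by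
  intro φ
  exact (h φ).trans (mul_le_mul_of_nonneg_right hc (E_sq_nonneg hR φ))

lemma Dom.mul {c d : ℝ} {F R G S : Al M} (h : Dom c F R) (h' : Dom d G S) (hR : Nn R)
    (hc : 0 ≤ c) : Dom (c*d) (F*G) (R*S) := by
  intro φ
  rw [E_mul, E_mul]
  refine (h _).trans ?_
  rw [mul_assoc]
  apply mul_le_mul_of_nonneg_left _ hc
  rw [← E_smul_fun]
  exact E_mono hR (fun u => h' _)

lemma Dom.add_sep {c d : ℝ} {F R G S : Al M} (h : Dom c F R) (h' : Dom d G S) (hR : Nn R)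
    (hS : Nn S) (hc : 0 ≤ c) (hd : 0 ≤ d) : Dom (c+d) (F+G) (R+S) := by
  intro φ
  rw [E_add, E_add]
  exact sq_add_le_of (h φ) (h' φ) hc hd (E_sq_nonneg hR φ) (E_sq_nonneg hS φ)

lemma Dom.add {c d : ℝ} {F G R : Al M} (h : Dom c F R) (h' : Dom d G R) :
    Dom (2*c+2*d) (F+G) R := by
  intro φ
  rw [E_add]
  have h1 := h φ
  have h2 := h' φ
  nlinarith [sq_nonneg (E F φ - E G φ)]

lemma Dom.smul {c : ℝ} {F R : Al M} (h : Dom c F R) (a : ℝ) : Dom (a^2*c) (a • F) R := by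
  intro φ
  rw [E_smul, mul_pow, mul_assoc]
  exact mul_le_mul_of_nonneg_left (h φ) (sq_nonneg a)

lemma Dom.neg {c : ℝ} {F R : Al M} (h : Dom c F R) : Dom c (-F) R := by
  intro φ
  rw [E_neg, neg_sq]
  exact h φ

lemma Dom.sub {c d : ℝ} {F G R : Al M} (h : Dom c F R) (h' : Dom d G R) :
    Dom (2*c+2*d) (F-G) R := by
  rw [sub_eq_add_neg]; exact h.add h'.neg

lemma Dom.zero {c : ℝ} (hc : 0 ≤ c) {R : Al M} (hR : Nn R) : Dom c (0 : Al M) R := by
  intro φ
  rw [E_zero]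
  have := E_sq_nonneg hR φ
  have : 0 ≤ c * E R (fun w => φ w ^ 2) := mul_nonneg hc this
  simpa using this

lemma Dom.ref_le {c K : ℝ} {F R R' : Al M} (h : Dom c F R) (hc : 0 ≤ c) (hR : Le R (K • R')) :
    Dom (c*K) F R' := by
  intro φ
  refine (h φ).trans ?_
  rw [mul_assoc, ← E_smul K]
  exact mul_le_mul_of_nonneg_left (hR.E (fun _ => sq_nonneg _)) hc

lemma Dom.ref_le' {c : ℝ} {F R R' : Al M} (h : Dom c F R) (hc : 0 ≤ c) (hR : Le R R') :
    Dom c F R' := by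
  intro φ
  exact (h φ).trans (mul_le_mul_of_nonneg_left (hR.E (fun _ => sq_nonneg _)) hc)

lemma Dom.ref_smul {c K : ℝ} {F R : Al M} (h : Dom c F R) (hK : 0 < K) :
    Dom (c/K) F (K • R) := by
  intro φ
  rw [E_smul]
  have := h φ
  have e : c / K * (K * E R (fun w => φ w ^ 2)) = c * E R (fun w => φ w ^ 2) := by
    field_simp
  rw [e]; exact this

lemma Dom.self {F : Al M} (hF : Nn F) : Dom (mass F) F F := by
  classical
  intro φ
  have hs : ∀ ψ : M → ℝ, E F ψ = ∑ w ∈ F.coeff.support, F.coeff w * ψ w :=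
    fun ψ => E_eq_sum F _ (Finset.Subset.refl _) ψ
  unfold mass
  rw [hs, hs, hs]
  have h := Finset.sum_mul_sq_le_sq_mul_sq F.coeff.support (fun w => √(F.coeff w))
    (fun w => √(F.coeff w) * φ w)
  have e1 : ∑ w ∈ F.coeff.support, √(F.coeff w) * (√(F.coeff w) * φ w)
      = ∑ w ∈ F.coeff.support, F.coeff w * φ w := by
    apply Finset.sum_congr rfl
    intro w _
    rw [← mul_assoc, Real.mul_self_sqrt (hF w)]
  have e2 : ∑ w ∈ F.coeff.support, √(F.coeff w)^2 = ∑ w ∈ F.coeff.support, F.coeff w * 1 := by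
    apply Finset.sum_congr rfl
    intro w _
    rw [Real.sq_sqrt (hF w), mul_one]
  have e3 : ∑ w ∈ F.coeff.support, (√(F.coeff w) * φ w)^2
      = ∑ w ∈ F.coeff.support, F.coeff w * φ w^2 := by
    apply Finset.sum_congr rfl
    intro w _
    rw [mul_pow, Real.sq_sqrt (hF w)]
  rw [e1, e2, e3] at h
  exact h

lemma Pr.dom {F : Al M} (hF : Pr F) : Dom 1 F F := by
  have := Dom.self hF.nn
  rwa [hF.mass] at this

lemma Dom.mul_left {c : ℝ} {F R A : Al M} (h : Dom c F R) (hA : Nn A) :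
    Dom (mass A * c) (A*F) (A*R) := (Dom.self hA).mul h hA (mass_nonneg hA)

lemma Dom.mul_right {c : ℝ} {F R B : Al M} (h : Dom c F R) (hR : Nn R) (hc : 0 ≤ c) (hB : Nn B) :
    Dom (c * mass B) (F*B) (R*B) := h.mul (Dom.self hB) hR hc

lemma Dom.pr_left {c : ℝ} {F R A : Al M} (h : Dom c F R) (hA : Pr A) : Dom c (A*F) (A*R) := by
  have := h.mul_left hA.nn
  rwa [hA.mass, one_mul] at this

lemma Dom.pr_right {c : ℝ} {F R B : Al M} (h : Dom c F R) (hR : Nn R) (hc : 0 ≤ c) (hB : Pr B) :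
    Dom c (F*B) (R*B) := by
  have := h.mul_right hR hc hB.nn
  rwa [hB.mass, mul_one] at this

lemma Dom.pr_sandwich {c : ℝ} {F R A B : Al M} (h : Dom c F R) (hR : Nn R) (hc : 0 ≤ c)
    (hA : Pr A) (hB : Pr B) : Dom c (A*F*B) (A*R*B) :=
  (h.pr_left hA).pr_right (hA.nn.mul hR) hc hB

lemma Dom.sandwich {c : ℝ} {F R A B : Al M} (h : Dom c F R) (hR : Nn R) (hc : 0 ≤ c)
    (hA : Nn A) (hB : Nn B) : Dom (mass A * mass B * c) (A*F*B) (A*R*B) := by
  have := (h.mul_left hA).mul_right (hA.mul hR) (mul_nonneg (mass_nonneg hA) hc) hB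
  have e : mass A * c * mass B = mass A * mass B * c := by ring
  rwa [e] at this

/-- removing the mean -/
lemma Dom.chi {m : ℝ} {P Q : Al M} (h : Dom m P Q) (hP : mass P = 1) (hQ : Pr Q) (hm : 1 ≤ m) :
    Dom (m-1) (P - Q) Q := by
  intro φ
  rw [E_sub]
  set a := E Q φ with ha
  set V := E Q (fun w => φ w ^ 2) with hV
  set x := E P φ - a with hx
  -- for every real y
  have key : ∀ y : ℝ, (x + y)^2 ≤ m * (V - a^2 + y^2) := by
    intro y
    have h1 := h (fun w => φ w + (y - a))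
    rw [E_add_fun, E_const, hP, one_mul] at h1
    have h2 : E Q (fun w => (φ w + (y-a))^2) = V - a^2 + y^2 := by
      have e : (fun w => (φ w + (y-a))^2) = fun w => (φ w ^ 2 + (2*(y-a)) * φ w) + (y-a)^2 := by
        funext w; ring
      rw [e, E_add_fun, E_add_fun, E_smul_fun, E_const, hQ.mass]
      ring
    rw [h2] at h1
    have e3 : E P φ + (y - a) = x + y := by rw [hx]; ring
    rwa [e3] at h1
  have hVa : 0 ≤ V - a^2 := by
    have := hQ.dom φ
    rw [one_mul] at this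
    linarith
  rcases eq_or_lt_of_le hm with h1 | h1
  · -- m = 1
    have hx0 : x = 0 := by
      by_contra hne
      have := key ((V - a^2 - x^2 + 1)/(2*x))
      rw [← h1] at this
      have h2 : 2 * x * ((V - a^2 - x^2 + 1)/(2*x)) = V - a^2 - x^2 + 1 := by
        field_simp
      nlinarith
    rw [hx0, ← h1]; simp
  · have h2 := key (x / (m-1))
    have hm1 : 0 < m - 1 := by linarith
    have e1 : x + x/(m-1) = x * m / (m-1) := by field_simp; ring
    rw [e1] at h2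
    have e2 : (x * m/(m-1))^2 = m * (m * (x^2/(m-1)^2)) := by rw [div_pow]; ring
    rw [e2] at h2
    have h3 := le_of_mul_le_mul_left h2 (by linarith)
    have h4 : x^2/(m-1)^2 * (m - 1) ≤ V - a^2 := by
      have : (x/(m-1))^2 = x^2/(m-1)^2 := by rw [div_pow]
      rw [this] at h3
      linarith
    have h5 : x^2/(m-1)^2 * (m-1) = x^2/(m-1) := by field_simp
    rw [h5, div_le_iff₀ hm1] at h4
    nlinarith [sq_nonneg a]

/-- adding a mean -/
lemma Dom.add_ref {c : ℝ} {ρ R : Al M} (h : Dom c ρ R) (hρ : mass ρ = 0) (hR : Pr R)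
    (hc : 0 ≤ c) : Dom (1+c) (R + ρ) R := by
  intro φ
  rw [E_add]
  set a := E R φ with ha
  set V := E R (fun w => φ w ^ 2) with hV
  have h1 := h (fun w => φ w + (-a))
  rw [E_add_fun, E_const, hρ, zero_mul, add_zero] at h1
  have h2 : E R (fun w => (φ w + (-a))^2) = V - a^2 := by
    have e : (fun w => (φ w + (-a))^2) = fun w => (φ w ^ 2 + (-(2*a)) * φ w) + a^2 := by
      funext w; ring
    rw [e, E_add_fun, E_add_fun, E_smul_fun, E_const, hR.mass]
    rw [← ha, ← hV]; ring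
  rw [h2] at h1
  have hVa : 0 ≤ V - a^2 := by
    have := hR.dom φ
    rw [one_mul] at this
    linarith
  have h3 : a^2 ≤ 1 * a^2 := by linarith
  have := sq_add_le_of h3 h1 zero_le_one hc (sq_nonneg a) hVa
  have e : a^2 + (V - a^2) = V := by ring
  rwa [e] at this

lemma Dom.pow_mul {c : ℝ} {P Q : Al M} (h : Dom c P Q) (hQ : Nn Q) (hc : 0 ≤ c) (n : ℕ) :
    Dom (c^n) (P^n) (Q^n) := by
  induction n with
  | zero => rw [pow_zero, pow_zero, pow_zero]; exact Pr.one.dom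
  | succ n ih => rw [pow_succ, pow_succ, pow_succ]; exact ih.mul h (hQ.pow n) (pow_nonneg hc n)

/-- powers stay close -/
lemma Dom.pow_sub {c : ℝ} {P Q : Al M} (h : Dom c (P - Q) Q) (hP : Pr P) (hQ : Pr Q)
    (hc : 0 ≤ c) (n : ℕ) : Dom ((1+c)^n - 1) (P^n - Q^n) (Q^n) := by
  have h1 : Dom (1+c) P Q := by
    have hm : mass (P - Q) = 0 := by rw [mass_sub, hP.mass, hQ.mass]; ring
    have := h.add_ref hm hQ hc
    have e : Q + (P - Q) = P := by abel
    rwa [e] at this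
  exact (h1.pow_mul hQ.nn (by linarith) n).chi (hP.pow n).mass (hQ.pow n)
    (one_le_pow₀ (by linarith))

lemma pow_sub_one_le {x : ℝ} {n : ℕ} (hx : 0 ≤ x) (h : n * x ≤ 1) : (1+x)^n - 1 ≤ 2 * n * x := by
  have h1 : (1+x)^n ≤ Real.exp (n*x) := by
    calc (1+x)^n ≤ (Real.exp x)^n := by
          apply pow_le_pow_left₀ (by linarith)
          linarith [Real.add_one_le_exp x]
      _ = Real.exp (n*x) := by rw [← Real.exp_nat_mul]
  have h2 : Real.exp (n*x) ≤ 1 + 2*(n*x) := by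
    have hy : 0 ≤ n*x := by positivity
    have := Real.abs_exp_sub_one_le (x := n*x) (by rw [abs_of_nonneg hy]; exact h)
    rw [abs_of_nonneg hy] at this
    have h3 := le_abs_self (Real.exp (n*x) - 1)
    linarith
  linarith

lemma Dom.pow_sub' {c : ℝ} {P Q : Al M} (h : Dom c (P - Q) Q) (hP : Pr P) (hQ : Pr Q)
    (hc : 0 ≤ c) {n : ℕ} (hn : n * c ≤ 1) : Dom (2*n*c) (P^n - Q^n) (Q^n) :=
  (h.pow_sub hP hQ hc n).mono (hQ.pow n).nn (pow_sub_one_le hc hn)

lemma Dom.l1_le {c : ℝ} {F R : Al M} (h : Dom c F R) (hR : Pr R) (hc : 0 ≤ c) : l1 F ≤ √c := by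
  obtain ⟨φ, h1, h2⟩ := l1_eq_E F
  rw [← h2]
  apply Real.le_sqrt_of_sq_le
  refine (h φ).trans ?_
  have : E R (fun w => φ w ^ 2) ≤ 1 := by
    rw [← hR.mass]
    apply E_mono hR.nn
    intro w
    have := h1 w
    rw [← sq_abs]
    exact pow_le_one₀ (abs_nonneg _) this
  nlinarith

lemma Dom.sum_same {ι : Type*} (s : Finset ι) {c : ℝ} {F : ι → Al M} {R : Al M}
    (h : ∀ i ∈ s, Dom c (F i) R) : Dom ((s.card:ℝ)^2 * c) (∑ i ∈ s, F i) R := by
  intro φ
  rw [E_sum]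
  have h1 : (∑ i ∈ s, E (F i) φ)^2 ≤ s.card * ∑ i ∈ s, (E (F i) φ)^2 := sq_sum_le_card_mul_sum_sq
  refine h1.trans ?_
  have h2 : ∑ i ∈ s, (E (F i) φ)^2 ≤ ∑ i ∈ s, c * E R (fun w => φ w ^ 2) :=
    Finset.sum_le_sum (fun i hi => h i hi φ)
  rw [Finset.sum_const, nsmul_eq_mul] at h2
  have h3 : (0:ℝ) ≤ s.card := Nat.cast_nonneg _
  calc (s.card:ℝ) * ∑ i ∈ s, (E (F i) φ)^2 ≤ s.card * (s.card * (c * E R (fun w => φ w ^ 2))) :=
        mul_le_mul_of_nonneg_left h2 h3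
    _ = _ := by ring

/-- pointwise domination -/
def PB (D : ℝ) (F R : Al M) : Prop := ∀ φ : M → ℝ, |E F φ| ≤ D * E R (fun w => |φ w|)

lemma PB.mul {c d : ℝ} {F R G S : Al M} (h : PB c F R) (h' : PB d G S) (hR : Nn R)
    (hc : 0 ≤ c) : PB (c*d) (F*G) (R*S) := by
  intro φ
  rw [E_mul, E_mul]
  refine (h _).trans ?_
  rw [mul_assoc]
  apply mul_le_mul_of_nonneg_left _ hc
  rw [← E_smul_fun]
  exact E_mono hR (fun u => h' _)

lemma PB.add {c d : ℝ} {F G R : Al M} (h : PB c F R) (h' : PB d G R) : PB (c+d) (F+G) R := by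
  intro φ
  rw [E_add, add_mul]
  exact (abs_add_le _ _).trans (add_le_add (h φ) (h' φ))

lemma PB.smul {c : ℝ} {F R : Al M} (h : PB c F R) (a : ℝ) : PB (|a| * c) (a • F) R := by
  intro φ
  rw [E_smul, abs_mul, mul_assoc]
  exact mul_le_mul_of_nonneg_left (h φ) (abs_nonneg a)

lemma PB.neg {c : ℝ} {F R : Al M} (h : PB c F R) : PB c (-F) R := by
  intro φ; rw [E_neg, abs_neg]; exact h φ

lemma PB.sub {c d : ℝ} {F G R : Al M} (h : PB c F R) (h' : PB d G R) : PB (c+d) (F-G) R := by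
  rw [sub_eq_add_neg]; exact h.add h'.neg

lemma E_abs_nonneg {R : Al M} (hR : Nn R) (φ : M → ℝ) : 0 ≤ E R (fun w => |φ w|) :=
  E_nonneg hR (fun _ => abs_nonneg _)

lemma PB.mono {c c' : ℝ} {F R : Al M} (h : PB c F R) (hR : Nn R) (hc : c ≤ c') : PB c' F R := by
  intro φ
  exact (h φ).trans (mul_le_mul_of_nonneg_right hc (E_abs_nonneg hR φ))

lemma PB.of_le {D : ℝ} {F R : Al M} (hF : Nn F) (h : Le F (D • R)) : PB D F R := by
  intro φ
  have h1 : |E F φ| ≤ E F (fun w => |φ w|) := by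
    rw [abs_le]
    constructor
    · have := E_nonneg hF (φ := fun w => |φ w| + φ w) (fun w => by linarith [neg_abs_le (φ w)])
      rw [E_add_fun] at this
      linarith
    · exact E_mono hF (fun w => le_abs_self _)
  refine h1.trans ?_
  rw [← E_smul]
  exact h.E (fun _ => abs_nonneg _)

lemma PB.self {F : Al M} (hF : Nn F) : PB 1 F F := PB.of_le hF (by rw [one_smul]; exact Le.refl F)

lemma PB.ref_le {c K : ℝ} {F R R' : Al M} (h : PB c F R) (hc : 0 ≤ c) (hR : Le R (K • R')) :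
    PB (c*K) F R' := by
  intro φ
  refine (h φ).trans ?_
  rw [mul_assoc, ← E_smul K]
  exact mul_le_mul_of_nonneg_left (hR.E (fun _ => abs_nonneg _)) hc

lemma PB.dom {D : ℝ} {F R : Al M} (h : PB D F R) (hR : Pr R) (hD : 0 ≤ D) : Dom (D^2) F R := by
  intro φ
  have h1 := h φ
  have h2 := hR.dom (fun w => |φ w|)
  simp only [sq_abs, one_mul] at h2
  have h3 : 0 ≤ E R (fun w => |φ w|) := E_abs_nonneg hR.nn φ
  calc (E F φ)^2 = |E F φ|^2 := (sq_abs _).symm
    _ ≤ (D * E R (fun w => |φ w|))^2 := pow_le_pow_left₀ (abs_nonneg _) h1 2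
    _ = D^2 * (E R (fun w => |φ w|))^2 := by ring
    _ ≤ D^2 * E R (fun w => φ w ^ 2) := mul_le_mul_of_nonneg_left h2 (sq_nonneg D)

lemma PB.coeff {D : ℝ} {F R : Al M} (h : PB D F R) (w : M) : |F.coeff w| ≤ D * R.coeff w := by
  classical
  have := h (fun x => if x = w then 1 else 0)
  rw [E_indicator] at this
  have e : (fun x => |if x = w then (1:ℝ) else 0|) = fun x => if x = w then 1 else 0 := by
    funext x; split_ifs <;> simp
  rwa [e, E_indicator] at this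

lemma PB.pow {D : ℝ} {F R : Al M} (h : PB D F R) (hR : Nn R) (hD : 0 ≤ D) (n : ℕ) :
    PB (D^n) (F^n) (R^n) := by
  induction n with
  | zero => rw [pow_zero, pow_zero, pow_zero]; exact PB.self Nn_one
  | succ n ih => rw [pow_succ, pow_succ, pow_succ]; exact ih.mul h (hR.pow n) (pow_nonneg hD n)

end Vale.Agent.P321S
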