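import Mathlib
import Vale.Agent.P321S.Dom
import Vale.Agent.P321S.Binom

namespace Vale.Agent.P321S

open MonoidAlgebra Finset

variable {M : Type*} [Monoid M]

/-- overlap of consecutive powers -/
structure Ov (U : Al M) (l : ℕ) (δ : ℝ) (C : Al M) : Prop where
  prU : Pr U
  nn : Nn C
  le0 : Le C (U^l)
  le1 : Le C (U^(l+1))
  mass : mass C = δ
  pos : 0 < δ

lemma Ov.le_one {U C : Al M} {l : ℕ} {δ : ℝ} (h : Ov U l δ C) : δ ≤ 1 := by
  rw [← h.mass, ← (h.prU.pow l).mass]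
  exact mass_mono h.le0

lemma Dom.scale_ref {c K : ℝ} {F R : Al M} (h : Dom c F (K • R)) : Dom (c*K) F R := by
  intro φ
  have := h φ
  rw [E_smul] at this
  rw [mul_assoc]; exact this

lemma slip_step {L R' C A0 A1 Y Y' Q : Al M} {c0 nP n : ℝ} (hC : Nn C) (hA0 : Nn A0) (hA1 : Nn A1)
    (hL : L = C + A0) (hR : R' = C + A1) (mC : mass C = c0) (mA0 : mass A0 = 1 - c0)
    (mA1 : mass A1 = 1 - c0) (hc0 : 0 ≤ c0) (hc1 : c0 ≤ 1) (hQ : Nn Q) (hn : 0 ≤ n) (hnP : 0 ≤ nP)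
    (hP : Dom nP (Y + Y') Q) (hY : Dom n Y Q) (hY' : Dom n Y' Q) :
    Dom (c0^2*nP/2 + 2*(1-c0^2)*n) (L*Y*R' + R'*Y'*L) (L*Q*R' + R'*Q*L) := by
  have h1c : 0 ≤ 1 - c0 := by linarith
  have d0 : Dom (c0^2*nP/2) (C*(Y+Y')*C) ((2:ℝ) • (C*Q*C)) := by
    have := (hP.sandwich hQ hnP hC hC).ref_smul (K := 2) (by norm_num)
    rw [mC] at this
    have e : c0 * c0 * nP / 2 = c0^2*nP/2 := by ring
    rwa [e] at this
  have d1 : Dom (c0*(1-c0)*n) (C*Y*A1) (C*Q*A1) := by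
    have := hY.sandwich hQ hn hC hA1; rwa [mC, mA1] at this
  have d2 : Dom ((1-c0)*c0*n) (A0*Y*C) (A0*Q*C) := by
    have := hY.sandwich hQ hn hA0 hC; rwa [mC, mA0] at this
  have d3 : Dom ((1-c0)*(1-c0)*n) (A0*Y*A1) (A0*Q*A1) := by
    have := hY.sandwich hQ hn hA0 hA1; rwa [mA0, mA1] at this
  have d4 : Dom (c0*(1-c0)*n) (C*Y'*A0) (C*Q*A0) := by
    have := hY'.sandwich hQ hn hC hA0; rwa [mC, mA0] at this
  have d5 : Dom ((1-c0)*c0*n) (A1*Y'*C) (A1*Q*C) := by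
    have := hY'.sandwich hQ hn hA1 hC; rwa [mC, mA1] at this
  have d6 : Dom ((1-c0)*(1-c0)*n) (A1*Y'*A0) (A1*Q*A0) := by
    have := hY'.sandwich hQ hn hA1 hA0; rwa [mA0, mA1] at this
  have n0 : Nn ((2:ℝ) • (C*Q*C)) := ((hC.mul hQ).mul hC).smul (by norm_num)
  have n1 : Nn (C*Q*A1) := (hC.mul hQ).mul hA1
  have n2 : Nn (A0*Q*C) := (hA0.mul hQ).mul hC
  have n3 : Nn (A0*Q*A1) := (hA0.mul hQ).mul hA1
  have n4 : Nn (C*Q*A0) := (hC.mul hQ).mul hA0
  have n5 : Nn (A1*Q*C) := (hA1.mul hQ).mul hC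
  have n6 : Nn (A1*Q*A0) := (hA1.mul hQ).mul hA0
  have s1 := d0.add_sep d1 n0 n1 (by positivity) (by positivity)
  have s2 := s1.add_sep d2 (n0.add n1) n2 (by positivity) (by positivity)
  have s3 := s2.add_sep d3 ((n0.add n1).add n2) n3 (by positivity) (by positivity)
  have s4 := s3.add_sep d4 (((n0.add n1).add n2).add n3) n4 (by positivity) (by positivity)
  have s5 := s4.add_sep d5 ((((n0.add n1).add n2).add n3).add n4) n5 (by positivity) (by positivity)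
  have s6 := s5.add_sep d6 (((((n0.add n1).add n2).add n3).add n4).add n5) n6 (by positivity)
    (by positivity)
  have eF : C*(Y+Y')*C + C*Y*A1 + A0*Y*C + A0*Y*A1 + C*Y'*A0 + A1*Y'*C + A1*Y'*A0
      = L*Y*R' + R'*Y'*L := by
    rw [hL, hR]; noncomm_ring
  have eR : (2:ℝ) • (C*Q*C) + C*Q*A1 + A0*Q*C + A0*Q*A1 + C*Q*A0 + A1*Q*C + A1*Q*A0
      = L*Q*R' + R'*Q*L := by
    rw [hL, hR, two_smul]; noncomm_ring
  have ec : c0^2*nP/2 + c0*(1-c0)*n + (1-c0)*c0*n + (1-c0)*(1-c0)*n + c0*(1-c0)*n + (1-c0)*c0*n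
      + (1-c0)*(1-c0)*n = c0^2*nP/2 + 2*(1-c0^2)*n := by ring
  rw [eF, eR, ec] at s6
  exact s6

/-- the slip sums -/
noncomputable def Xs (U : Al M) (l : ℕ) (F : Al M) : ℕ → (ℤ → ℝ) → Al M
  | 0, c => c 0 • F
  | t+1, c => U^l * Xs U l F t c * U^(l+1) + U^(l+1) * Xs U l F t (fun n => c (n+1)) * U^l

lemma Xs_add (U : Al M) (l : ℕ) (F : Al M) (t : ℕ) (c c' : ℤ → ℝ) :
    Xs U l F t (fun n => c n + c' n) = Xs U l F t c + Xs U l F t c' := by
  induction t generalizing c c' with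
  | zero => simp only [Xs, add_smul]
  | succ t ih =>
    simp only [Xs]
    rw [ih c c', ih (fun n => c (n+1)) (fun n => c' (n+1))]
    noncomm_ring

/-- closed form of the slip sums -/
lemma Xs_closed (U : Al M) (l : ℕ) (F : Al M) (t : ℕ) (c : ℤ → ℝ) :
    Xs U l F t c = ∑ j ∈ range (t+1), ((t.choose j : ℝ) * c j) •
      (U^(t*l+j) * F * U^(t*l+(t-j))) := by
  induction t generalizing c with
  | zero => simp [Xs]
  | succ t ih =>
    simp only [Xs]
    rw [ih, ih]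
    rw [Finset.mul_sum, Finset.sum_mul, Finset.mul_sum, Finset.sum_mul]
    rw [Finset.sum_range_succ' (fun j => (((t+1).choose j : ℝ) * c j) •
      (U^((t+1)*l+j) * F * U^((t+1)*l+(t+1-j)))) (t+1)]
    have e1 : ∀ j ∈ range (t+1), (((t+1).choose (j+1) : ℝ) * c ((j+1 : ℕ):ℤ)) •
        (U^((t+1)*l+(j+1)) * F * U^((t+1)*l+(t+1-(j+1))))
        = U^(l+1) * ((t.choose j : ℝ) * c ((j:ℤ)+1)) • (U^(t*l+j) * F * U^(t*l+(t-j))) * U^l
          + ((t.choose (j+1) : ℝ) * c ((j+1 : ℕ):ℤ)) •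
            (U^((t+1)*l+(j+1)) * F * U^((t+1)*l+(t-j))) := by
      intro j hj
      rw [mem_range] at hj
      have h1 : U^(l+1) * ((t.choose j : ℝ) * c ((j:ℤ)+1)) • (U^(t*l+j) * F * U^(t*l+(t-j))) * U^l
          = ((t.choose j : ℝ) * c ((j:ℤ)+1)) • (U^((t+1)*l+(j+1)) * F * U^((t+1)*l+(t-j))) := by
        rw [mul_smul_comm, smul_mul_assoc]
        congr 1
        have : U^(l+1) * (U^(t*l+j) * F * U^(t*l+(t-j))) * U^l
            = (U^(l+1) * U^(t*l+j)) * F * (U^(t*l+(t-j)) * U^l) := by noncomm_ring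
        rw [this, ← pow_add, ← pow_add]
        congr 2
        · congr 1; ring
        · ring
      rw [h1]
      have e : t + 1 - (j+1) = t - j := by omega
      rw [e, Nat.choose_succ_succ]
      push_cast
      rw [add_mul, add_smul]
    rw [Finset.sum_congr rfl e1, Finset.sum_add_distrib]
    have e2 : ∑ j ∈ range (t+1), U^l * ((t.choose j : ℝ) * c j) • (U^(t*l+j) * F * U^(t*l+(t-j)))
          * U^(l+1)
        = ∑ j ∈ range (t+1), ((t.choose (j+1) : ℝ) * c ((j+1 : ℕ):ℤ)) •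
            (U^((t+1)*l+(j+1)) * F * U^((t+1)*l+(t-j)))
          + (((t+1).choose 0 : ℝ) * c ((0 : ℕ):ℤ)) • (U^((t+1)*l+0) * F * U^((t+1)*l+(t+1-0))) := by
      rw [Finset.sum_range_succ' (fun j => U^l * ((t.choose j : ℝ) * c j) •
        (U^(t*l+j) * F * U^(t*l+(t-j))) * U^(l+1)) t]
      rw [Finset.sum_range_succ (fun j => ((t.choose (j+1) : ℝ) * c ((j+1 : ℕ):ℤ)) •
            (U^((t+1)*l+(j+1)) * F * U^((t+1)*l+(t-j)))) t]
      rw [Nat.choose_eq_zero_of_lt (show t < t+1 by omega)]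
      have e3 : ∀ j ∈ range t, U^l * ((t.choose (j+1) : ℝ) * c ((j+1 : ℕ):ℤ)) •
          (U^(t*l+(j+1)) * F * U^(t*l+(t-(j+1)))) * U^(l+1)
          = ((t.choose (j+1) : ℝ) * c ((j+1 : ℕ):ℤ)) •
            (U^((t+1)*l+(j+1)) * F * U^((t+1)*l+(t-j))) := by
        intro j hj
        rw [mem_range] at hj
        rw [mul_smul_comm, smul_mul_assoc]
        congr 1
        have : U^l * (U^(t*l+(j+1)) * F * U^(t*l+(t-(j+1)))) * U^(l+1)
            = (U^l * U^(t*l+(j+1))) * F * (U^(t*l+(t-(j+1))) * U^(l+1)) := by noncomm_ring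
        rw [this, ← pow_add, ← pow_add]
        have e : t*l + (t-(j+1)) + (l+1) = (t+1)*l + (t-j) := by
          have : t - j = t - (j+1) + 1 := by omega
          rw [this]; ring
        have e' : l + (t*l+(j+1)) = (t+1)*l+(j+1) := by ring
        rw [e, e']
      rw [Finset.sum_congr rfl e3]
      have e4 : U^l * ((t.choose 0 : ℝ) * c ((0:ℕ):ℤ)) • (U^(t*l+0) * F * U^(t*l+(t-0))) * U^(l+1)
          = (((t+1).choose 0 : ℝ) * c ((0 : ℕ):ℤ)) • (U^((t+1)*l+0) * F * U^((t+1)*l+(t+1-0))) := by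
        rw [mul_smul_comm, smul_mul_assoc]
        simp only [Nat.choose_zero_right]
        congr 1
        have : U^l * (U^(t*l+0) * F * U^(t*l+(t-0))) * U^(l+1)
            = (U^l * U^(t*l+0)) * F * (U^(t*l+(t-0)) * U^(l+1)) := by noncomm_ring
        rw [this, ← pow_add, ← pow_add]
        have e : t*l + (t-0) + (l+1) = (t+1)*l + (t+1-0) := by
          simp only [Nat.sub_zero]; ring
        have e' : l + (t*l+0) = (t+1)*l+0 := by ring
        rw [e, e']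
      rw [e4]
      simp
    rw [e2]
    abel

lemma slip_bound {U C R F : Al M} {l : ℕ} {δ₀ cF : ℝ} (h : Ov U l δ₀ C) (hR : Nn R)
    (hcomm : Commute U R) (hF : Dom cF F R) (hcF : 0 ≤ cF) (t : ℕ) (c : ℤ → ℝ) (s : ℕ → ℝ)
    (hs0 : ∀ A, 0 ≤ s A) (hs : ∀ A n, ((Pc^[A] c) n)^2 ≤ s A) :
    Dom (cF * Wf (δ₀^2) (4*(1-δ₀^2)) t s) (Xs U l F t c) (U^(t*(2*l+1)) * R) := by
  have h0 := h.pos
  have h1 := h.le_one
  have hb : 0 ≤ 1 - δ₀^2 := by nlinarith
  induction t generalizing c s with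
  | zero =>
    simp only [Xs, Wf, zero_mul, pow_zero, one_mul]
    have := hF.smul (c 0)
    refine this.mono hR ?_
    have := hs 0 0
    simp only [Function.iterate_zero, id] at this
    rw [mul_comm cF]
    exact mul_le_mul_of_nonneg_right this hcF
  | succ t ih =>
    -- the pieces
    set Q := U^(t*(2*l+1)) * R with hQdef
    have hQ : Nn Q := (h.prU.nn.pow _).mul hR
    have hUQ : Commute U Q := ((Commute.refl U).pow_right _).mul_right hcomm
    set Y := Xs U l F t c with hY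
    set Y' := Xs U l F t (fun n => c (n+1)) with hY'
    have hPcA : ∀ A n, (Pc^[A] (Pc c)) n = (Pc^[A+1] c) n := by
      intro A n; rw [Function.iterate_succ_apply]
    have hshift : ∀ A n, (Pc^[A] (fun n => c (n+1))) n = (Pc^[A] c) (n+1) := by
      intro A
      induction A with
      | zero => intro n; rfl
      | succ A ih2 =>
        intro n
        rw [Function.iterate_succ_apply', Function.iterate_succ_apply']
        simp only [Pc, ih2]
    have dP := ih (Pc c) (fun A => s (A+1)) (fun A => hs0 _) (fun A n => by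
      rw [hPcA]; exact hs (A+1) n)
    have dY := ih c s hs0 hs
    have dY' := ih (fun n => c (n+1)) s hs0 (fun A n => by rw [hshift]; exact hs A (n+1))
    have eP : Xs U l F t (Pc c) = Y + Y' := by
      have : Pc c = fun n => c n + (fun n => c (n+1)) n := rfl
      rw [this, Xs_add]
    rw [eP] at dP
    have n1 : 0 ≤ cF * Wf (δ₀^2) (4*(1-δ₀^2)) t s :=
      mul_nonneg hcF (Wf_nonneg (by positivity) (by positivity) _ _ hs0)
    have n2 : 0 ≤ cF * Wf (δ₀^2) (4*(1-δ₀^2)) t (fun A => s (A+1)) :=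
      mul_nonneg hcF (Wf_nonneg (by positivity) (by positivity) _ _ (fun A => hs0 _))
    have hA0 : Nn (U^l - C) := h.le0.nn
    have hA1 : Nn (U^(l+1) - C) := h.le1.nn
    have mA0 : mass (U^l - C) = 1 - δ₀ := by rw [mass_sub, (h.prU.pow l).mass, h.mass]
    have mA1 : mass (U^(l+1) - C) = 1 - δ₀ := by rw [mass_sub, (h.prU.pow (l+1)).mass, h.mass]
    have key := slip_step (L := U^l) (R' := U^(l+1)) h.nn hA0 hA1 (by abel) (by abel) h.mass mA0 mA1
      h0.le h1 hQ n1 n2 dP dY dY'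
    have eQ : U^l * Q * U^(l+1) + U^(l+1) * Q * U^l = (2:ℝ) • (U^((t+1)*(2*l+1)) * R) := by
      have c1 : U^l * Q * U^(l+1) = U^(2*l+1) * Q := by
        rw [mul_assoc, ← (hUQ.pow_left (l+1)).eq, ← mul_assoc, ← pow_add]
        congr 2; ring
      have c2 : U^(l+1) * Q * U^l = U^(2*l+1) * Q := by
        rw [mul_assoc, ← (hUQ.pow_left l).eq, ← mul_assoc, ← pow_add]
        congr 2; ring
      rw [c1, c2, two_smul, hQdef, ← mul_assoc, ← pow_add]
      have : 2*l+1 + t*(2*l+1) = (t+1)*(2*l+1) := by ring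
      rw [this]
    rw [eQ] at key
    have key2 := key.scale_ref
    simp only [Xs, Wf]
    have ec : (δ₀^2*(cF * Wf (δ₀^2) (4*(1-δ₀^2)) t (fun A => s (A+1)))/2
        + 2*(1-δ₀^2)*(cF * Wf (δ₀^2) (4*(1-δ₀^2)) t s)) * 2
        = cF * (δ₀^2 * Wf (δ₀^2) (4*(1-δ₀^2)) t (fun A => s (A+1))
          + 4*(1-δ₀^2) * Wf (δ₀^2) (4*(1-δ₀^2)) t s) := by ring
    rw [ec] at key2
    exact key2

/-- the slip lemma -/
theorem slip {U C R F : Al M} {l : ℕ} {δ₀ cF : ℝ} (h : Ov U l δ₀ C) (hR : Nn R)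
    (hcomm : Commute U R) (hF : Dom cF F R) (hcF : 0 ≤ cF) (k : ℕ) :
    Dom (16 * cF / ((2*k+3) * δ₀^4))
      (U^((2*k+1)*l+k) * (F*U - U*F) * U^((2*k+1)*l+k)) (U^(2*((2*k+1)*l+k)+1) * R) := by
  have h0 := h.pos
  have h1 := h.le_one
  set s : ℕ → ℝ := fun A => (2^(A+1)/((A:ℝ)+1))^2 with hs
  have key := slip_bound h hR hcomm hF hcF (2*k+1) (c0 k) s (fun A => sq_nonneg _) (by
    intro A n
    rw [hs]
    rw [← sq_abs]
    exact pow_le_pow_left₀ (abs_nonneg _) (Pc_c0_bound k A n) 2)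
  rw [Xs_closed] at key
  -- only two terms survive
  have hsum : ∑ j ∈ range (2*k+1+1), (((2*k+1).choose j : ℝ) * c0 k j) •
      (U^((2*k+1)*l+j) * F * U^((2*k+1)*l+(2*k+1-j)))
      = (((2*k+1).choose k : ℝ)) • (U^((2*k+1)*l+k) * (F*U - U*F) * U^((2*k+1)*l+k)) := by
    have hz : ∀ j ∈ range (2*k+1+1), j ∉ ({k, k+1} : Finset ℕ) →
        (((2*k+1).choose j : ℝ) * c0 k j) • (U^((2*k+1)*l+j) * F * U^((2*k+1)*l+(2*k+1-j))) = 0 := by
      intro j _ hj
      simp only [Finset.mem_insert, Finset.mem_singleton, not_or] at hj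
      have : c0 k (j:ℤ) = 0 := by
        simp only [c0, cz]
        rw [if_neg (by omega), if_neg (by omega)]
        simp
      rw [this]; simp
    rw [← Finset.sum_subset (s₁ := ({k, k+1} : Finset ℕ)) (by
      intro j hj
      simp only [Finset.mem_insert, Finset.mem_singleton] at hj
      rw [mem_range]; omega) hz]
    rw [Finset.sum_pair (by omega)]
    have c1 : c0 k (k:ℤ) = 1 := by simp [c0, cz]
    have c2 : c0 k ((k+1 : ℕ):ℤ) = -1 := by simp [c0, cz]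
    have hch : (2*k+1).choose (k+1) = (2*k+1).choose k := by
      apply Nat.choose_symm_of_eq_add; omega
    rw [c1, c2, hch]
    have e1 : 2*k+1-k = k+1 := by omega
    have e2 : 2*k+1-(k+1) = k := by omega
    rw [e1, e2, mul_one, mul_neg_one, neg_smul, ← sub_eq_add_neg, ← smul_sub]
    congr 1
    have p1 : U^((2*k+1)*l+(k+1)) = U * U^((2*k+1)*l+k) := by
      rw [← pow_succ']; congr 1
    have p2 : U^((2*k+1)*l+(k+1)) = U^((2*k+1)*l+k) * U := by
      rw [← pow_succ]; congr 1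
    calc U^((2*k+1)*l+k) * F * U^((2*k+1)*l+(k+1)) - U^((2*k+1)*l+(k+1)) * F * U^((2*k+1)*l+k)
        = U^((2*k+1)*l+k) * F * (U * U^((2*k+1)*l+k))
          - (U^((2*k+1)*l+k) * U) * F * U^((2*k+1)*l+k) := by
          rw [← p1, ← p2]
      _ = _ := by noncomm_ring
  rw [hsum] at key
  -- divide
  set B : ℝ := ((2*k+1).choose k : ℝ) with hB
  have hBpos : 0 < B := by
    rw [hB]; exact_mod_cast Nat.choose_pos (by omega)
  have key2 := key.smul (B⁻¹)
  rw [smul_smul, inv_mul_cancel₀ hBpos.ne', one_smul] at key2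
  have eexp : (2*k+1)*(2*l+1) = 2*((2*k+1)*l+k)+1 := by ring
  rw [eexp] at key2
  refine key2.mono ((h.prU.nn.pow _).mul hR) ?_
  have hW := Wf_two (δ₀^2) (by positivity) (by nlinarith) (2*k+1)
  have hmid := choose_mid_sq k
  rw [← hB] at hmid
  have hWn : 0 ≤ Wf (δ₀^2) (4*(1-δ₀^2)) (2*k+1) s :=
    Wf_nonneg (by positivity) (by nlinarith) _ _ (fun A => sq_nonneg _)
  have hk : (0:ℝ) ≤ k := Nat.cast_nonneg k
  have e1 : (B⁻¹)^2 * (cF * Wf (δ₀^2) (4*(1-δ₀^2)) (2*k+1) s)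
      ≤ (B⁻¹)^2 * (cF * (8 * 4^(2*k+1) / ((((2*k+1 : ℕ):ℝ)+1)*(((2*k+1 : ℕ):ℝ)+2)*(δ₀^2)^2))) := by
    apply mul_le_mul_of_nonneg_left _ (by positivity)
    exact mul_le_mul_of_nonneg_left hW hcF
  refine e1.trans ?_
  have e2 : 4^(2*k+1) * (B⁻¹)^2 ≤ 2*(2*(k:ℝ)+2) := by
    rw [inv_pow, ← div_eq_mul_inv, div_le_iff₀ (by positivity)]
    exact hmid
  have e3 : (B⁻¹)^2 * (cF * (8 * 4^(2*k+1) / ((((2*k+1 : ℕ):ℝ)+1)*(((2*k+1 : ℕ):ℝ)+2)*(δ₀^2)^2)))
      = (4^(2*k+1) * (B⁻¹)^2) * (8 * cF / ((2*k+2)*(2*k+3)*δ₀^4)) := by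
    push_cast
    have a1 : (2*(k:ℝ)+1+1) = 2*k+2 := by ring
    have a2 : (2*(k:ℝ)+1+2) = 2*k+3 := by ring
    rw [a1, a2]
    ring
  rw [e3]
  calc (4^(2*k+1) * (B⁻¹)^2) * (8 * cF / ((2*k+2)*(2*k+3)*δ₀^4))
      ≤ (2*(2*(k:ℝ)+2)) * (8 * cF / ((2*k+2)*(2*k+3)*δ₀^4)) :=
        mul_le_mul_of_nonneg_right e2 (by positivity)
    _ = 16 * cF / ((2*k+3) * δ₀^4) := by
        field_simp
        ring

end Vale.Agent.P321S
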