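import Mathlib
import Vale.Agent.P321S.Slip

namespace Vale.Agent.P321S

open MonoidAlgebra Finset

variable {M : Type*} [Monoid M]

/-- Thue-Morse words -/
noncomputable def T : ℕ → Al M → Al M → Al M
  | 0, a, _ => a
  | k+1, a, b => T k a b * T k b a

noncomputable def mm (k : ℕ) (a b : Al M) : Al M := (1/2 : ℝ) • (T k a b + T k b a)
noncomputable def dd (k : ℕ) (a b : Al M) : Al M := (1/2 : ℝ) • (T k a b - T k b a)

lemma T_eq (k : ℕ) (a b : Al M) : T k a b = mm k a b + dd k a b := by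
  unfold mm dd
  rw [← smul_add]
  have : T k a b + T k b a + (T k a b - T k b a) = (2:ℝ) • T k a b := by rw [two_smul]; abel
  rw [this, smul_smul]; norm_num

lemma T_eq' (k : ℕ) (a b : Al M) : T k b a = mm k a b - dd k a b := by
  unfold mm dd
  rw [← smul_sub]
  have : T k a b + T k b a - (T k a b - T k b a) = (2:ℝ) • T k b a := by rw [two_smul]; abel
  rw [this, smul_smul]; norm_num

lemma mm_succ (k : ℕ) (a b : Al M) :
    mm (k+1) a b = mm k a b * mm k a b - dd k a b * dd k a b := by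
  have h : mm (k+1) a b = (1/2 : ℝ) • (T k a b * T k b a + T k b a * T k a b) := rfl
  rw [h, T_eq k a b, T_eq' k a b]
  have : (mm k a b + dd k a b) * (mm k a b - dd k a b) + (mm k a b - dd k a b) * (mm k a b + dd k a b)
      = (2:ℝ) • (mm k a b * mm k a b - dd k a b * dd k a b) := by rw [two_smul]; noncomm_ring
  rw [this, smul_smul]; norm_num

lemma dd_succ (k : ℕ) (a b : Al M) :
    dd (k+1) a b = dd k a b * mm k a b - mm k a b * dd k a b := by
  have h : dd (k+1) a b = (1/2 : ℝ) • (T k a b * T k b a - T k b a * T k a b) := rfl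
  rw [h, T_eq k a b, T_eq' k a b]
  have : (mm k a b + dd k a b) * (mm k a b - dd k a b) - (mm k a b - dd k a b) * (mm k a b + dd k a b)
      = (2:ℝ) • (dd k a b * mm k a b - mm k a b * dd k a b) := by rw [two_smul]; noncomm_ring
  rw [this, smul_smul]; norm_num

noncomputable def RR (u a b : Al M) (k : ℕ) : Al M := mm k a b - u^(2^k)

noncomputable def cc (u a b : Al M) : ℕ → Al M
  | 0 => dd 0 a b
  | k+1 => cc u a b k * u^(2^k) - u^(2^k) * cc u a b k

noncomputable def EE (u a b : Al M) (k : ℕ) : Al M := dd k a b - cc u a b k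

lemma mm_eq (u a b : Al M) (k : ℕ) : mm k a b = u^(2^k) + RR u a b k := by unfold RR; abel

lemma pow_two_succ (u : Al M) (k : ℕ) : u^(2^(k+1)) = u^(2^k) * u^(2^k) := by
  rw [← pow_add]; congr 1; ring

lemma RR_succ (u a b : Al M) (k : ℕ) : RR u a b (k+1)
    = (u^(2^k) * RR u a b k + RR u a b k * u^(2^k))
      + (RR u a b k * RR u a b k - dd k a b * dd k a b) := by
  have : RR u a b (k+1) = mm (k+1) a b - u^(2^(k+1)) := rfl
  rw [this, mm_succ, mm_eq u a b k, pow_two_succ]
  noncomm_ring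

lemma EE_zero (u a b : Al M) : EE u a b 0 = 0 := by unfold EE cc; abel

lemma EE_succ (u a b : Al M) (k : ℕ) : EE u a b (k+1)
    = (EE u a b k * u^(2^k) - u^(2^k) * EE u a b k)
      + (dd k a b * RR u a b k - RR u a b k * dd k a b) := by
  have : EE u a b (k+1) = dd (k+1) a b - (cc u a b k * u^(2^k) - u^(2^k) * cc u a b k) := rfl
  rw [this, dd_succ, mm_eq u a b k]
  unfold EE
  noncomm_ring

lemma Pr.T {a b : Al M} (ha : Pr a) (hb : Pr b) (k : ℕ) : Pr (T k a b) := by
  induction k generalizing a b with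
  | zero => exact ha
  | succ k ih => exact (ih ha hb).mul (ih hb ha)

/-- constants -/
noncomputable def cK : ℕ → ℝ
  | 0 => 1
  | k+1 => 24 * (cK k)^2

lemma cK_ge (k : ℕ) : 1 ≤ cK k := by
  induction k with
  | zero => simp [cK]
  | succ k ih => simp only [cK]; nlinarith

/-- bare bounds -/
theorem bare {u a b : Al M} {h th : ℝ} (hu : Pr u) (hh0 : 0 ≤ h) (hh1 : h ≤ 1) (ht0 : 0 ≤ th)
    (ht1 : th ≤ 1) (hd : Dom h (dd 0 a b) u) (ht : Dom th (RR u a b 0) u) (k : ℕ) :
    Dom (cK k * (th + h^2)) (RR u a b k) (u^(2^k)) ∧ Dom (cK k * h) (dd k a b) (u^(2^k)) ∧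
    Dom (cK k * (h * (th + h^2))) (EE u a b k) (u^(2^k)) := by
  set σ := th + h^2 with hσ
  have hσ0 : 0 ≤ σ := by positivity
  have hσ2 : σ ≤ 2 := by nlinarith
  induction k with
  | zero =>
    simp only [cK, one_mul, pow_zero, pow_one]
    refine ⟨ht.mono hu.nn (by nlinarith), hd, ?_⟩
    rw [EE_zero]
    exact Dom.zero (by positivity) hu.nn
  | succ k ih =>
    obtain ⟨i1, i2, i3⟩ := ih
    have hC := cK_ge k
    set C := cK k with hCdef
    have pu := hu.pow (2^k)
    have hU : Dom 1 (u^(2^k)) (u^(2^k)) := pu.dom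
    have n1 : 0 ≤ C * σ := by positivity
    have n2 : 0 ≤ C * h := by positivity
    have n3 : 0 ≤ C * (h*σ) := by positivity
    have hm : Dom (6*C) (mm k a b) (u^(2^k)) := by
      rw [mm_eq u a b k]
      refine (hU.add i1).mono pu.nn ?_
      nlinarith
    have e2 : u^(2^(k+1)) = u^(2^k) * u^(2^k) := pow_two_succ u k
    rw [e2]
    have nn2 : Nn (u^(2^k) * u^(2^k)) := pu.nn.mul pu.nn
    refine ⟨?_, ?_, ?_⟩
    · rw [RR_succ]
      have a1 := hU.mul i1 pu.nn zero_le_one
      have a2 := i1.mul hU pu.nn n1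
      have a3 := i1.mul i1 pu.nn n1
      have a4 := i2.mul i2 pu.nn n2
      refine ((a1.add a2).add (a3.sub a4)).mono nn2 ?_
      simp only [cK]
      have h1 : C*σ*(C*σ) ≤ 2*(C^2*σ) := by
        have : 0 ≤ C^2*σ := by positivity
        nlinarith
      have h2 : C*h*(C*h) ≤ C^2*σ := by
        have : h^2 ≤ σ := by rw [hσ]; linarith
        have hC2 : 0 ≤ C^2 := by positivity
        nlinarith
      have h3 : C*σ ≤ C^2*σ := by
        have : C ≤ C^2 := by nlinarith
        exact mul_le_mul_of_nonneg_right this hσ0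
      nlinarith
    · rw [dd_succ]
      have a1 := i2.mul hm pu.nn n2
      have a2 := hm.mul i2 pu.nn (by positivity)
      refine (a1.sub a2).mono nn2 ?_
      simp only [cK]
      nlinarith
    · rw [EE_succ]
      have a1 := i3.mul hU pu.nn n3
      have a2 := hU.mul i3 pu.nn zero_le_one
      have a3 := i2.mul i1 pu.nn n2
      have a4 := i1.mul i2 pu.nn n1
      refine ((a1.sub a2).add (a3.sub a4)).mono nn2 ?_
      simp only [cK]
      have h3 : C*(h*σ) ≤ C^2*(h*σ) := by
        have : C ≤ C^2 := by nlinarith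
        exact mul_le_mul_of_nonneg_right this (by positivity)
      nlinarith

/-- pointwise bounds -/
lemma PB.T {u a b : Al M} {K : ℝ} (hu : Pr u) (ha : PB K a u) (hb : PB K b u) (hK : 0 ≤ K)
    (k : ℕ) : PB (K^(2^k)) (T k a b) (u^(2^k)) := by
  induction k generalizing a b with
  | zero =>
    simp only [Vale.Agent.P321S.T, pow_zero, pow_one]
    exact ha
  | succ k ih =>
    rw [pow_two_succ]
    have e : K^(2^(k+1)) = K^(2^k) * K^(2^k) := by rw [← pow_add]; congr 1; ring
    rw [e]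
    exact (ih ha hb).mul (ih hb ha) (hu.pow _).nn (pow_nonneg hK _)

lemma PB.dd {u a b : Al M} {K : ℝ} (hu : Pr u) (ha : PB K a u) (hb : PB K b u) (hK : 0 ≤ K)
    (k : ℕ) : PB (K^(2^k)) (dd k a b) (u^(2^k)) := by
  unfold Vale.Agent.P321S.dd
  have := ((PB.T hu ha hb hK k).sub (PB.T hu hb ha hK k)).smul (1/2)
  have e : |(1/2:ℝ)| * (K^(2^k) + K^(2^k)) = K^(2^k) := by
    rw [abs_of_pos (by norm_num)]; ring
  rwa [e] at this

lemma PB.mm {u a b : Al M} {K : ℝ} (hu : Pr u) (ha : PB K a u) (hb : PB K b u) (hK : 0 ≤ K)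
    (k : ℕ) : PB (K^(2^k)) (mm k a b) (u^(2^k)) := by
  unfold Vale.Agent.P321S.mm
  have := ((PB.T hu ha hb hK k).add (PB.T hu hb ha hK k)).smul (1/2)
  have e : |(1/2:ℝ)| * (K^(2^k) + K^(2^k)) = K^(2^k) := by
    rw [abs_of_pos (by norm_num)]; ring
  rwa [e] at this

lemma PB.RR {u a b : Al M} {K : ℝ} (hu : Pr u) (ha : PB K a u) (hb : PB K b u) (hK : 0 ≤ K)
    (k : ℕ) : PB (K^(2^k) + 1) (RR u a b k) (u^(2^k)) := by
  unfold Vale.Agent.P321S.RR
  exact (PB.mm hu ha hb hK k).sub (PB.self (hu.pow _).nn)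

lemma PB.cc {u a b : Al M} {K : ℝ} (hu : Pr u) (ha : PB K a u) (hb : PB K b u) (hK : 0 ≤ K)
    (k : ℕ) : PB (2^k*K) (cc u a b k) (u^(2^k)) := by
  induction k with
  | zero =>
    simp only [Vale.Agent.P321S.cc, pow_zero, one_mul, pow_one]
    have := PB.dd hu ha hb hK 0
    simpa using this
  | succ k ih =>
    rw [pow_two_succ]
    simp only [Vale.Agent.P321S.cc]
    have pu := hu.pow (2^k)
    have a1 := ih.mul (PB.self pu.nn) pu.nn (by positivity)
    have a2 := (PB.self pu.nn).mul ih pu.nn zero_le_one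
    have := a1.sub a2
    have e : 2^k*K*1 + 1*(2^k*K) = 2^(k+1)*K := by ring
    rwa [e] at this

lemma PB.EE {u a b : Al M} {K : ℝ} (hu : Pr u) (ha : PB K a u) (hb : PB K b u) (hK : 0 ≤ K)
    (k : ℕ) : PB (K^(2^k) + 2^k*K) (EE u a b k) (u^(2^k)) :=
  (PB.dd hu ha hb hK k).sub (PB.cc hu ha hb hK k)

lemma mass_cc (u a b : Al M) (hab : mass a = mass b) (k : ℕ) : mass (cc u a b k) = 0 := by
  cases k with
  | zero =>
    simp only [cc, dd, T]
    rw [mass_smul, mass_sub, hab]; ring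
  | succ k =>
    simp only [cc]
    rw [mass_sub, mass_mul, mass_mul]; ring

lemma mass_dd {a b : Al M} (ha : Pr a) (hb : Pr b) (k : ℕ) : mass (dd k a b) = 0 := by
  unfold dd
  rw [mass_smul, mass_sub, (Pr.T ha hb k).mass, (Pr.T hb ha k).mass]; ring

lemma mass_EE {u a b : Al M} (ha : Pr a) (hb : Pr b) (k : ℕ) : mass (EE u a b k) = 0 := by
  unfold EE
  rw [mass_sub, mass_dd ha hb, mass_cc u a b (by rw [ha.mass, hb.mass])]; ring

/-- commutator with a power as a sum of unit commutators -/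
lemma comm_pow (F u : Al M) (n : ℕ) :
    F * u^n - u^n * F = ∑ i ∈ range n, u^i * (F*u - u*F) * u^(n-1-i) := by
  induction n with
  | zero => simp
  | succ n ih =>
    rw [Finset.sum_range_succ]
    have e : ∑ i ∈ range n, u^i * (F*u - u*F) * u^(n+1-1-i)
        = (∑ i ∈ range n, u^i * (F*u - u*F) * u^(n-1-i)) * u := by
      rw [Finset.sum_mul]
      apply Finset.sum_congr rfl
      intro i hi
      rw [mem_range] at hi
      have : n + 1 - 1 - i = (n-1-i) + 1 := by omega
      rw [this, pow_succ]; noncomm_ring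
    rw [e, ← ih]
    have : n + 1 - 1 - n = 0 := by omega
    rw [this, pow_zero, pow_succ]
    noncomm_ring

/-- nested slips -/
theorem nested {u a b C : Al M} {l : ℕ} {d h : ℝ} (hO : Ov u l d C) (hd0 : Dom h (dd 0 a b) u)
    (hh : 0 ≤ h) (J k' : ℕ) (β : ℕ) (hβ : β = (2*k'+1)*l+k') (k : ℕ) (hk : k ≤ J) :
    Dom ((4^J * (16 / ((2*k'+3) * d^4)))^k * h) (u^(k*β) * cc u a b k * u^(k*β))
      (u^(2*(k*β) + 2^k)) := by
  have hd := hO.pos
  set X : ℝ := 4^J * (16 / ((2*k'+3) * d^4)) with hX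
  have hX0 : 0 ≤ X := by rw [hX]; positivity
  induction k with
  | zero => simpa [cc] using hd0
  | succ k ih =>
    have ih' := ih (by omega)
    set F := u^(k*β) * cc u a b k * u^(k*β) with hF
    set c := X^k * h with hc
    have hc0 : 0 ≤ c := by rw [hc]; positivity
    have hs := slip hO (hO.prU.nn.pow (2*(k*β)+2^k)) ((Commute.refl u).pow_right _) ih' hc0 k'
    rw [← hβ] at hs
    set s : ℝ := 16 * c / ((2*k'+3)*d^4) with hsdef
    have hs0 : 0 ≤ s := by rw [hsdef]; positivity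
    have hstep : ∀ i ∈ range (2^k), Dom s (u^i * (u^β * (F*u - u*F) * u^β) * u^(2^k-1-i))
        (u^(2*((k+1)*β) + 2^(k+1))) := by
      intro i hi
      rw [mem_range] at hi
      have := hs.pr_sandwich ((hO.prU.nn.pow _).mul (hO.prU.nn.pow _)) hs0 (hO.prU.pow i)
        (hO.prU.pow (2^k-1-i))
      have e : u^i * (u^(2*β+1) * u^(2*(k*β)+2^k)) * u^(2^k-1-i) = u^(2*((k+1)*β) + 2^(k+1)) := by
        rw [← pow_add, ← pow_add, ← pow_add]
        congr 1
        have h1 : 2^(k+1) = 2^k + 2^k := by ring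
        have h2 : 2*((k+1)*β) = 2*(k*β) + 2*β := by ring
        omega
      rwa [e] at this
    have hsum := Dom.sum_same (range (2^k)) hstep
    have eF : ∑ i ∈ range (2^k), u^i * (u^β * (F*u - u*F) * u^β) * u^(2^k-1-i)
        = u^((k+1)*β) * cc u a b (k+1) * u^((k+1)*β) := by
      have e1 : ∑ i ∈ range (2^k), u^i * (u^β * (F*u - u*F) * u^β) * u^(2^k-1-i)
          = u^β * (∑ i ∈ range (2^k), u^i * (F*u - u*F) * u^(2^k-1-i)) * u^β := by
        rw [Finset.mul_sum, Finset.sum_mul]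
        apply Finset.sum_congr rfl
        intro i _
        have c1 : u^i * u^β = u^β * u^i := by rw [← pow_add, ← pow_add, add_comm]
        have c2 : u^β * u^(2^k-1-i) = u^(2^k-1-i) * u^β := by rw [← pow_add, ← pow_add, add_comm]
        calc u^i * (u^β * (F*u - u*F) * u^β) * u^(2^k-1-i)
            = (u^i * u^β) * (F*u - u*F) * (u^β * u^(2^k-1-i)) := by noncomm_ring
          _ = (u^β * u^i) * (F*u - u*F) * (u^(2^k-1-i) * u^β) := by rw [c1, c2]
          _ = _ := by noncomm_ring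
      rw [e1, ← comm_pow]
      simp only [cc, hF]
      have hkb : (k+1)*β = β + k*β := by ring
      have c3 : u^(k*β) * u^(2^k) = u^(2^k) * u^(k*β) := by rw [← pow_add, ← pow_add, add_comm]
      have hkb' : (k+1)*β = k*β + β := by ring
      calc u^β * (u^(k*β) * cc u a b k * u^(k*β) * u^(2^k)
            - u^(2^k) * (u^(k*β) * cc u a b k * u^(k*β))) * u^β
          = u^β * (u^(k*β) * cc u a b k * (u^(k*β) * u^(2^k))
            - (u^(2^k) * u^(k*β)) * cc u a b k * u^(k*β)) * u^β := by noncomm_ring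
        _ = u^β * (u^(k*β) * cc u a b k * (u^(2^k) * u^(k*β))
            - (u^(k*β) * u^(2^k)) * cc u a b k * u^(k*β)) * u^β := by rw [c3]
        _ = (u^β * u^(k*β)) * (cc u a b k * u^(2^k) - u^(2^k) * cc u a b k) * (u^(k*β) * u^β) := by
            noncomm_ring
        _ = _ := by rw [← pow_add, ← pow_add, ← hkb, ← hkb']
    rw [eF] at hsum
    refine hsum.mono (hO.prU.nn.pow _) ?_
    rw [card_range]
    have h4 : ((2^k : ℕ):ℝ)^2 ≤ 4^J := by
      push_cast
      rw [← pow_mul, mul_comm, pow_mul]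
      norm_num
      exact pow_le_pow_right₀ (by norm_num) (by omega)
    calc ((2^k : ℕ):ℝ)^2 * s ≤ 4^J * s := mul_le_mul_of_nonneg_right h4 hs0
      _ = X^(k+1) * h := by
          rw [hsdef, hc, hX]; ring

end Vale.Agent.P321S
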