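import Mathlib
import Vale.Agent.P321S.Slip

namespace Vale.Agent.P321S

open MonoidAlgebra Finset

variable {M : Type*} [Monoid M]

lemma orth_step {R K Y0 Z' S' : Al M} {a c y : ℝ} (hR : Pr R) (hK0 : mass K = 0)
    (hK : Dom c K R) (hY : Dom y Y0 S') (hZ : Dom a Z' S') (hS : Nn S') (ha : 0 ≤ a) (hc : 0 ≤ c)
    (hy : 0 ≤ y) : Dom (a + c*y) (K*Y0 + R*Z') (R*S') := by
  intro φ
  set ψ : M → ℝ := fun v => E R (fun u => φ (u*v)) with hψ
  have e1 : E (R*Z') φ = E Z' ψ := by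
    rw [E_mul, E_swap]
  have e2 : E (K*Y0) φ = E K (fun u => E Y0 (fun v => φ (u*v) - ψ v)) := by
    rw [E_mul]
    have : (fun u => E Y0 (fun v => φ (u*v) - ψ v)) = fun u => E Y0 (fun v => φ (u*v)) - E Y0 ψ := by
      funext u
      rw [E_sub_fun]
    rw [this, E_sub_fun, E_const, hK0]
    ring
  have b1 : (E Z' ψ)^2 ≤ a * E S' (fun v => ψ v ^ 2) := hZ ψ
  have b2 : (E (K*Y0) φ)^2 ≤ (c*y) * E S' (fun v => E R (fun u => (φ (u*v) - ψ v)^2)) := by
    rw [e2, E_swap S' R, mul_assoc]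
    refine (hK _).trans ?_
    apply mul_le_mul_of_nonneg_left _ hc
    rw [← E_smul_fun]
    exact E_mono hR.nn (fun u => hY _)
  have e3 : E (R*S') (fun w => φ w ^ 2)
      = E S' (fun v => ψ v ^ 2) + E S' (fun v => E R (fun u => (φ (u*v) - ψ v)^2)) := by
    rw [E_mul, E_swap, ← E_add_fun]
    congr 1
    funext v
    have : (fun u => (φ (u*v) - ψ v)^2) = fun u => (φ (u*v)^2 + (-(2*ψ v)) * φ (u*v)) + ψ v ^ 2 := by
      funext u; ring
    rw [this, E_add_fun, E_add_fun, E_smul_fun, E_const, hR.mass]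
    have : E R (fun u => φ (u*v)) = ψ v := rfl
    rw [this]; ring
  have p1 : 0 ≤ E S' (fun v => ψ v ^ 2) := E_nonneg hS (fun _ => sq_nonneg _)
  have p2 : 0 ≤ E S' (fun v => E R (fun u => (φ (u*v) - ψ v)^2)) :=
    E_nonneg hS (fun _ => E_nonneg hR.nn (fun _ => sq_nonneg _))
  rw [E_add, e1, e3, add_comm (E (K*Y0) φ)]
  exact sq_add_le_of b1 b2 ha (mul_nonneg hc hy) p1 p2

/-- orthogonality of the different positions of a mass-zero factor -/
theorem orth {R K S : Al M} {c y : ℝ} (hR : Pr R) (hK0 : mass K = 0) (hK : Dom c K R)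
    (hS : Nn S) (hc : 0 ≤ c) (hy : 0 ≤ y) (m : ℕ) (Y : ℕ → Al M)
    (hY : ∀ j, j < m → Dom y (Y j) (R^(m-1-j) * S)) :
    Dom (m * (c*y)) (∑ j ∈ range m, R^j * K * Y j) (R^m * S) := by
  induction m generalizing Y with
  | zero =>
    simp only [range_zero, sum_empty, Nat.cast_zero, zero_mul, pow_zero, one_mul]
    exact Dom.zero le_rfl hS
  | succ m ih =>
    have h1 := ih (fun j => Y (j+1)) (by
      intro j hj
      have := hY (j+1) (by omega)
      have e : m + 1 - 1 - (j+1) = m - 1 - j := by omega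
      rwa [e] at this)
    have h0 := hY 0 (by omega)
    have e0 : m + 1 - 1 - 0 = m := by omega
    rw [e0] at h0
    have key := orth_step hR hK0 hK h0 h1 ((hR.nn.pow m).mul hS) (by positivity) hc hy
    have eF : K * Y 0 + R * ∑ j ∈ range m, R^j * K * Y (j+1) = ∑ j ∈ range (m+1), R^j * K * Y j := by
      rw [Finset.sum_range_succ', Finset.mul_sum, add_comm]
      congr 1
      · apply Finset.sum_congr rfl
        intro j _
        rw [pow_succ']; noncomm_ring
      · rw [pow_zero, one_mul]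
    have eR : R * (R^m * S) = R^(m+1) * S := by rw [← mul_assoc, ← pow_succ']
    rw [eF, eR] at key
    have ec : (m:ℝ) * (c*y) + c*y = ((m+1 : ℕ):ℝ) * (c*y) := by push_cast; ring
    rwa [ec] at key

/-- the hidden location lemma -/
theorem hidden {u C K Y : Al M} {l : ℕ} {d κ y : ℝ} (h : Ov u l d C) {w v : ℕ}
    (hK0 : mass K = 0) (hK : Dom κ K (u^w)) (hκ : 0 ≤ κ) (hY : Dom y Y (u^v)) (hy : 0 ≤ y)
    (k m : ℕ) (hm : 1 ≤ m) (b : ℕ) (hb : b = (2*k+1)*l+k + w*m) :
    Dom (2 * (((w*m : ℕ):ℝ)^2 * (16 * (κ*y) / ((2*k+3) * d^4))) + 2 * (κ*y/m))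
      (u^b * K * Y * u^b) (u^(2*b+w+v)) := by
  set a := (2*k+1)*l+k with ha
  have hd := h.pos
  have hmR : (0:ℝ) < m := by exact_mod_cast hm
  have hF : Dom (κ*y) (K*Y) (u^(w+v)) := by
    rw [pow_add]; exact hK.mul hY (h.prU.nn.pow w) hκ
  have hκy : 0 ≤ κ*y := mul_nonneg hκ hy
  set s : ℝ := 16 * (κ*y) / ((2*k+3) * d^4) with hs
  have hs0 : 0 ≤ s := by rw [hs]; positivity
  have hslip := slip h (h.prU.nn.pow (w+v)) ((Commute.refl u).pow_right _) hF hκy k
  rw [← ha, ← hs] at hslip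
  set F := K*Y with hFdef
  set G : ℕ → Al M := fun i => u^(b-i) * F * u^(b+i) with hG
  -- one step
  have hstep : ∀ i, i < w*m → Dom s (G i - G (i+1)) (u^(2*b+w+v)) := by
    intro i hi
    obtain ⟨e, he⟩ : ∃ e, b - (i+1) = e + a := ⟨b - (i+1) - a, by omega⟩
    have he' : b - i = e + a + 1 := by omega
    have hbi : b + i = a + (w*m + i) := by omega
    have hbi' : b + (i+1) = a + (w*m + i) + 1 := by omega
    have key := hslip.pr_sandwich ((h.prU.nn.pow _).mul (h.prU.nn.pow _)) hs0 (h.prU.pow e)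
      (h.prU.pow (w*m+i))
    have eF : u^e * (u^a * (F*u - u*F) * u^a) * u^(w*m+i) = G (i+1) - G i := by
      simp only [hG]
      rw [he, he', hbi, hbi', pow_add u (e+a) 1, pow_one, pow_add u e a, pow_add u (a + (w*m+i)) 1,
        pow_one, pow_add u a (w*m+i)]
      have c1 : u^a * u^(w*m+i) * u = u * (u^a * u^(w*m+i)) := by
        rw [← pow_add, ← pow_succ, ← pow_succ']
      rw [c1]
      noncomm_ring
    have eR : u^e * (u^(2*a+1) * u^(w+v)) * u^(w*m+i) = u^(2*b+w+v) := by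
      rw [← pow_add, ← pow_add, ← pow_add]
      congr 1
      omega
    rw [eF, eR] at key
    have := key.neg
    rwa [neg_sub] at this
  -- many steps
  have hmany : ∀ n, n ≤ w*m → Dom (((w*m : ℕ):ℝ)^2 * s) (G 0 - G n) (u^(2*b+w+v)) := by
    intro n hn
    have e : G 0 - G n = ∑ i ∈ range n, (G i - G (i+1)) := (Finset.sum_range_sub' G n).symm
    rw [e]
    have := Dom.sum_same (range n) (F := fun i => G i - G (i+1)) (R := u^(2*b+w+v)) (c := s)
      (fun i hi => hstep i (by rw [mem_range] at hi; omega))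
    rw [card_range] at this
    refine this.mono (h.prU.nn.pow _) ?_
    apply mul_le_mul_of_nonneg_right _ hs0
    have : (n:ℝ) ≤ ((w*m:ℕ):ℝ) := by exact_mod_cast hn
    exact pow_le_pow_left₀ (Nat.cast_nonneg _) this 2
  -- the average of the differences
  have hA : Dom (((w*m : ℕ):ℝ)^2 * s) ((m:ℝ)⁻¹ • ∑ j ∈ range m, (G 0 - G (w*j))) (u^(2*b+w+v)) := by
    have h1 := (Dom.sum_same (range m) (F := fun j => G 0 - G (w*j)) (R := u^(2*b+w+v))
      (c := ((w*m : ℕ):ℝ)^2 * s) (fun j hj => hmany _ (by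
        rw [mem_range] at hj; exact Nat.mul_le_mul_left w hj.le))).smul ((m:ℝ)⁻¹)
    rw [card_range] at h1
    have e : ((m:ℝ)⁻¹)^2 * ((m:ℝ)^2 * (((w*m : ℕ):ℝ)^2 * s)) = ((w*m : ℕ):ℝ)^2 * s := by
      field_simp
    rwa [e] at h1
  -- the sum over positions
  have hB : Dom (m * (κ*y)) (∑ j ∈ range m, G (w*j)) (u^(2*b+w+v)) := by
    have h1 := orth (R := u^w) (K := K) (S := u^v) (h.prU.pow w) hK0 hK (h.prU.nn.pow v) hκ hy m
      (fun j => Y * u^(w*(m-1-j))) (by
        intro j _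
        have := hY.pr_right (h.prU.nn.pow v) hy (h.prU.pow (w*(m-1-j)))
        have e : u^v * u^(w*(m-1-j)) = (u^w)^(m-1-j) * u^v := by
          rw [← pow_mul, ← pow_add, ← pow_add, add_comm]
        rwa [e] at this)
    have h2 := h1.pr_sandwich (((h.prU.nn.pow w).pow m).mul (h.prU.nn.pow v)) (by positivity)
      (h.prU.pow (b - w*(m-1))) (h.prU.pow b)
    have eR : u^(b - w*(m-1)) * ((u^w)^m * u^v) * u^b = u^(2*b+w+v) := by
      rw [← pow_mul, ← pow_add, ← pow_add, ← pow_add]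
      congr 1
      have : w*(m-1) + w = w*m := by
        obtain ⟨m', rfl⟩ : ∃ m', m = m'+1 := ⟨m-1, by omega⟩
        simp; ring
      omega
    have eF : u^(b - w*(m-1)) * (∑ j ∈ range m, (u^w)^j * K * (Y * u^(w*(m-1-j)))) * u^b
        = ∑ j ∈ range m, G (w*j) := by
      rw [Finset.mul_sum, Finset.sum_mul, ← Finset.sum_range_reflect (fun j => G (w*j)) m]
      apply Finset.sum_congr rfl
      intro j hj
      rw [mem_range] at hj
      simp only [hG, hFdef]
      have hw1 : w*(m-1) = w*j + w*(m-1-j) := by rw [← Nat.mul_add]; congr 1; omega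
      have hw2 : w*(m-1) ≤ w*m := Nat.mul_le_mul_left w (by omega)
      have e1 : b - w*(m-1-j) = (b - w*(m-1)) + w*j := by omega
      have e2 : b + w*(m-1-j) = w*(m-1-j) + b := by omega
      rw [e1, e2, pow_add u (b - w*(m-1)) (w*j), pow_add u (w*(m-1-j)) b, pow_mul u w j]
      noncomm_ring
    rw [eR, eF] at h2
    exact h2
  have hB' : Dom (κ*y/m) ((m:ℝ)⁻¹ • ∑ j ∈ range m, G (w*j)) (u^(2*b+w+v)) := by
    have := hB.smul ((m:ℝ)⁻¹)
    have e : ((m:ℝ)⁻¹)^2 * (m * (κ*y)) = κ*y/m := by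
      field_simp
    rwa [e] at this
  have hfin := hA.add hB'
  have eG : (m:ℝ)⁻¹ • ∑ j ∈ range m, (G 0 - G (w*j)) + (m:ℝ)⁻¹ • ∑ j ∈ range m, G (w*j)
      = u^b * K * Y * u^b := by
    rw [← smul_add, ← Finset.sum_add_distrib]
    simp only [sub_add_cancel]
    rw [Finset.sum_const, card_range, ← Nat.cast_smul_eq_nsmul ℝ, smul_smul,
      inv_mul_cancel₀ hmR.ne', one_smul]
    simp only [hG, hFdef, Nat.sub_zero, Nat.add_zero]
    noncomm_ring
  rw [eG] at hfin
  exact hfin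

end Vale.Agent.P321S
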