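import Mathlib
import Vale.Agent.P321S.Dom

namespace Vale.Agent.P321S

open MonoidAlgebra Finset

variable {M : Type*} [Monoid M]

/-- Jensen / Hoelder for finite sums -/
lemma holder_sum {ι : Type*} (s : Finset ι) (a b c : ι → ℝ) (m : ℕ) (ha : ∀ i ∈ s, 0 ≤ a i)
    (hb : ∀ i ∈ s, 0 ≤ b i) (h : ∀ i ∈ s, a i ^ (m+1) ≤ b i ^ m * c i)
    (h0 : ∀ i ∈ s, b i = 0 → a i = 0) (hc : ∀ i ∈ s, 0 ≤ c i) :
    (∑ i ∈ s, a i)^(m+1) ≤ (∑ i ∈ s, b i)^m * ∑ i ∈ s, c i := by
  set B := ∑ i ∈ s, b i with hB
  have hB0 : 0 ≤ B := Finset.sum_nonneg hb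
  rcases eq_or_lt_of_le hB0 with hz | hpos
  · have hall : ∀ i ∈ s, b i = 0 := by
      rw [hB] at hz
      exact (Finset.sum_eq_zero_iff_of_nonneg hb).mp hz.symm
    have : ∑ i ∈ s, a i = 0 := Finset.sum_eq_zero (fun i hi => h0 i hi (hall i hi))
    rw [this, zero_pow (by omega)]
    exact mul_nonneg (pow_nonneg hB0 m) (Finset.sum_nonneg hc)
  · have hJ := Real.pow_arith_mean_le_arith_mean_pow s (fun i => b i / B) (fun i => a i / b i)
      (fun i hi => div_nonneg (hb i hi) hB0) (by
        rw [← Finset.sum_div, ← hB, div_self hpos.ne'])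
      (fun i hi => div_nonneg (ha i hi) (hb i hi)) (m+1)
    have e1 : ∑ i ∈ s, b i / B * (a i / b i) = (∑ i ∈ s, a i) / B := by
      rw [Finset.sum_div]
      apply Finset.sum_congr rfl
      intro i hi
      by_cases hbi : b i = 0
      · rw [h0 i hi hbi, hbi]; simp
      · field_simp
    rw [e1, div_pow] at hJ
    have e2 : ∑ i ∈ s, b i / B * (a i / b i)^(m+1) ≤ (∑ i ∈ s, c i) / B := by
      rw [Finset.sum_div]
      apply Finset.sum_le_sum
      intro i hi
      rcases eq_or_lt_of_le (hb i hi) with hbi | hbi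
      · rw [← hbi]; simp
        exact div_nonneg (hc i hi) hB0
      · rw [div_pow, div_mul_eq_mul_div]
        apply div_le_div_of_nonneg_right _ hB0
        rw [← mul_div_assoc, div_le_iff₀ (by positivity)]
        calc b i * a i^(m+1) ≤ b i * (b i ^ m * c i) := mul_le_mul_of_nonneg_left (h i hi) hbi.le
          _ = c i * b i^(m+1) := by ring
    have h3 := hJ.trans e2
    rw [div_le_div_iff₀ (by positivity) hpos] at h3
    have h4 : (∑ i ∈ s, a i)^(m+1) * B ≤ (B^m * ∑ i ∈ s, c i) * B := by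
      calc (∑ i ∈ s, a i)^(m+1) * B ≤ (∑ i ∈ s, c i) * B^(m+1) := h3
        _ = _ := by ring
    exact le_of_mul_le_mul_right h4 hpos

lemma coeff_mul_sum [DecidableEq M] (F G : Al M) (s t : Finset M) (hs : F.coeff.support ⊆ s)
    (ht : G.coeff.support ⊆ t) (w : M) :
    (F * G).coeff w = ∑ p ∈ (s ×ˢ t).filter (fun p => p.1 * p.2 = w), F.coeff p.1 * G.coeff p.2 := by
  rw [← E_indicator (F*G) w, E_mul, E_eq_sum F s hs, Finset.sum_filter, Finset.sum_product]
  apply Finset.sum_congr rfl
  intro u _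
  rw [E_eq_sum G t ht, Finset.mul_sum]
  apply Finset.sum_congr rfl
  intro v _
  split_ifs <;> ring

/-- `Q^(m+1) ≤ P^m H` coefficientwise -/
def Hol (m : ℕ) (Q P H : Al M) : Prop := ∀ w, Q.coeff w ^ (m+1) ≤ P.coeff w ^ m * H.coeff w

lemma Hol.zero {m : ℕ} {Q P H : Al M} (h : Hol (m+1) Q P H) (hQ : Nn Q) (w : M)
    (hw : P.coeff w = 0) : Q.coeff w = 0 := by
  have := h w
  rw [hw, zero_pow (by omega), zero_mul] at this
  have h2 : Q.coeff w ^ (m+1+1) = 0 := le_antisymm this (pow_nonneg (hQ w) _)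
  exact pow_eq_zero_iff (by omega) |>.mp h2

lemma Hol.mul {m : ℕ} {Q P H Q' P' H' : Al M} (h : Hol (m+1) Q P H) (h' : Hol (m+1) Q' P' H')
    (hQ : Nn Q) (hP : Nn P) (hH : Nn H) (hQ' : Nn Q') (hP' : Nn P') (hH' : Nn H') :
    Hol (m+1) (Q*Q') (P*P') (H*H') := by
  classical
  intro w
  set s := Q.coeff.support ∪ P.coeff.support ∪ H.coeff.support with hs
  set t := Q'.coeff.support ∪ P'.coeff.support ∪ H'.coeff.support with ht
  have s1 : Q.coeff.support ⊆ s := fun x hx => by simp [hs]; simp at hx; tauto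
  have s2 : P.coeff.support ⊆ s := fun x hx => by simp [hs]; simp at hx; tauto
  have s3 : H.coeff.support ⊆ s := fun x hx => by simp [hs]; simp at hx; tauto
  have t1 : Q'.coeff.support ⊆ t := fun x hx => by simp [ht]; simp at hx; tauto
  have t2 : P'.coeff.support ⊆ t := fun x hx => by simp [ht]; simp at hx; tauto
  have t3 : H'.coeff.support ⊆ t := fun x hx => by simp [ht]; simp at hx; tauto
  rw [coeff_mul_sum Q Q' s t s1 t1, coeff_mul_sum P P' s t s2 t2, coeff_mul_sum H H' s t s3 t3]
  apply holder_sum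
  · intro p _; exact mul_nonneg (hQ _) (hQ' _)
  · intro p _; exact mul_nonneg (hP _) (hP' _)
  · intro p _
    rw [mul_pow, mul_pow]
    calc Q.coeff p.1 ^ (m+1+1) * Q'.coeff p.2 ^ (m+1+1)
        ≤ (P.coeff p.1 ^ (m+1) * H.coeff p.1) * (P'.coeff p.2 ^ (m+1) * H'.coeff p.2) :=
          mul_le_mul (h _) (h' _) (pow_nonneg (hQ' _) _)
            (mul_nonneg (pow_nonneg (hP _) _) (hH _))
      _ = _ := by ring
  · intro p _ hz
    rcases mul_eq_zero.mp hz with h1 | h1
    · rw [h.zero hQ _ h1, zero_mul]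
    · rw [h'.zero hQ' _ h1, mul_zero]
  · intro p _; exact mul_nonneg (hH _) (hH' _)

lemma Hol.one (m : ℕ) : Hol m (1 : Al M) 1 1 := by
  intro w
  rw [pow_succ]

lemma Hol.pow {m : ℕ} {Q P H : Al M} (h : Hol (m+1) Q P H) (hQ : Nn Q) (hP : Nn P) (hH : Nn H)
    (n : ℕ) : Hol (m+1) (Q^n) (P^n) (H^n) := by
  induction n with
  | zero => rw [pow_zero, pow_zero, pow_zero]; exact Hol.one _
  | succ n ih =>
    rw [pow_succ, pow_succ, pow_succ]
    exact ih.mul h (hQ.pow n) (hP.pow n) (hH.pow n) hQ hP hH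

/-- change of reference measure -/
theorem refChange {Y Q P H : Al M} {c D T : ℝ} {m : ℕ} (hP : Nn P) (hQ : Nn Q) (hH : Nn H)
    (hol : Hol (m+1) Q P H) (mH : mass H ≤ 2) (hY : Dom c Y Q) (hB : PB D Y Q) (hc : 0 ≤ c)
    (hD : 0 ≤ D) (hT : 1 ≤ T) : Dom (2*(c*T) + 2*(2*D^2/T^m)) Y P := by
  classical
  intro φ
  have hT0 : 0 < T := by linarith
  set s := Y.coeff.support ∪ Q.coeff.support ∪ P.coeff.support ∪ H.coeff.support with hs
  have sY : Y.coeff.support ⊆ s := fun x hx => by simp [hs]; simp at hx; tauto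
  have sQ : Q.coeff.support ⊆ s := fun x hx => by simp [hs]; simp at hx; tauto
  have sP : P.coeff.support ⊆ s := fun x hx => by simp [hs]; simp at hx; tauto
  have sH : H.coeff.support ⊆ s := fun x hx => by simp [hs]; simp at hx; tauto
  let good : M → Prop := fun w => Q.coeff w ≤ T * P.coeff w
  set φg : M → ℝ := fun w => if good w then φ w else 0 with hφg
  set φb : M → ℝ := fun w => if good w then 0 else φ w with hφb
  have hsplit : E Y φ = E Y φg + E Y φb := by
    rw [← E_add_fun]; congr 1; funext w; simp only [hφg, hφb]; split_ifs <;> simp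
  have hV : 0 ≤ E P (fun w => φ w ^ 2) := E_sq_nonneg hP φ
  have b1 : (E Y φg)^2 ≤ (c*T) * E P (fun w => φ w ^ 2) := by
    refine (hY φg).trans ?_
    rw [mul_assoc]
    apply mul_le_mul_of_nonneg_left _ hc
    rw [E_eq_sum Q s sQ, E_eq_sum P s sP, Finset.mul_sum]
    apply Finset.sum_le_sum
    intro w _
    simp only [hφg]
    split_ifs with hg
    · have : Q.coeff w ≤ T * P.coeff w := hg
      calc Q.coeff w * φ w ^ 2 ≤ (T * P.coeff w) * φ w ^2 :=
            mul_le_mul_of_nonneg_right this (sq_nonneg _)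
        _ = T * (P.coeff w * φ w ^2) := by ring
    · simp
      exact mul_nonneg hT0.le (mul_nonneg (hP w) (sq_nonneg _))
  have b2 : (E Y φb)^2 ≤ (2*D^2/T^m) * E P (fun w => φ w ^ 2) := by
    -- on the bad set
    have hbad : ∀ w, ¬ good w → 0 < P.coeff w ∧ Q.coeff w ^2 / P.coeff w ≤ H.coeff w / T^m := by
      intro w hw
      have hw' : T * P.coeff w < Q.coeff w := not_le.mp hw
      have hPw : 0 < P.coeff w := by
        rcases eq_or_lt_of_le (hP w) with h0 | h0
        · have := hol.zero hQ w h0.symm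
          rw [this, ← h0] at hw'; simp at hw'
        · exact h0
      refine ⟨hPw, ?_⟩
      rw [div_le_div_iff₀ hPw (by positivity)]
      have h1 := hol w
      have h2 : (T * P.coeff w)^m ≤ Q.coeff w ^ m := pow_le_pow_left₀ (by positivity) hw'.le m
      rw [mul_pow] at h2
      have hPm : 0 < P.coeff w ^ m := by positivity
      have h3 : (Q.coeff w ^2 * T^m) * P.coeff w ^ m ≤ (H.coeff w * P.coeff w) * P.coeff w ^ m := by
        calc (Q.coeff w ^2 * T^m) * P.coeff w ^ m = Q.coeff w ^ 2 * (T^m * P.coeff w ^ m) := by ring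
          _ ≤ Q.coeff w ^ 2 * Q.coeff w ^ m := mul_le_mul_of_nonneg_left h2 (sq_nonneg _)
          _ = Q.coeff w ^ (m+1+1) := by ring
          _ ≤ P.coeff w ^ (m+1) * H.coeff w := h1
          _ = _ := by ring
      exact le_of_mul_le_mul_right h3 hPm
    have h1 := hB φb
    have h2 : E Q (fun w => |φb w|) = ∑ w ∈ s.filter (fun w => ¬ good w), Q.coeff w * |φ w| := by
      rw [E_eq_sum Q s sQ, Finset.sum_filter]
      apply Finset.sum_congr rfl
      intro w _
      simp only [hφb]
      split_ifs <;> simp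
    have h3 : (∑ w ∈ s.filter (fun w => ¬ good w), Q.coeff w * |φ w|)^2
        ≤ (2/T^m) * E P (fun w => φ w ^ 2) := by
      have hCS := Finset.sum_mul_sq_le_sq_mul_sq (s.filter (fun w => ¬ good w))
        (fun w => Q.coeff w / √(P.coeff w)) (fun w => √(P.coeff w) * |φ w|)
      have e1 : ∑ w ∈ s.filter (fun w => ¬ good w), Q.coeff w / √(P.coeff w) * (√(P.coeff w) * |φ w|)
          = ∑ w ∈ s.filter (fun w => ¬ good w), Q.coeff w * |φ w| := by
        apply Finset.sum_congr rfl
        intro w hw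
        rw [Finset.mem_filter] at hw
        have := Real.sqrt_pos.mpr (hbad w hw.2).1
        field_simp
      rw [e1] at hCS
      refine hCS.trans ?_
      have e2 : ∑ w ∈ s.filter (fun w => ¬ good w), (Q.coeff w / √(P.coeff w))^2 ≤ 2/T^m := by
        calc ∑ w ∈ s.filter (fun w => ¬ good w), (Q.coeff w / √(P.coeff w))^2
            ≤ ∑ w ∈ s.filter (fun w => ¬ good w), H.coeff w / T^m := by
              apply Finset.sum_le_sum
              intro w hw
              rw [Finset.mem_filter] at hw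
              rw [div_pow, Real.sq_sqrt (hP w)]
              exact (hbad w hw.2).2
          _ ≤ ∑ w ∈ s, H.coeff w / T^m := by
              apply Finset.sum_le_sum_of_subset_of_nonneg (Finset.filter_subset _ _)
              intro w _ _
              exact div_nonneg (hH w) (by positivity)
          _ = mass H / T^m := by
              unfold mass
              rw [E_eq_sum H s sH, Finset.sum_div]
              simp
          _ ≤ 2/T^m := div_le_div_of_nonneg_right mH (by positivity)
      have e3 : ∑ w ∈ s.filter (fun w => ¬ good w), (√(P.coeff w) * |φ w|)^2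
          ≤ E P (fun w => φ w ^ 2) := by
        rw [E_eq_sum P s sP]
        calc ∑ w ∈ s.filter (fun w => ¬ good w), (√(P.coeff w) * |φ w|)^2
            = ∑ w ∈ s.filter (fun w => ¬ good w), P.coeff w * φ w ^2 := by
              apply Finset.sum_congr rfl
              intro w _
              rw [mul_pow, Real.sq_sqrt (hP w), sq_abs]
          _ ≤ _ := by
              apply Finset.sum_le_sum_of_subset_of_nonneg (Finset.filter_subset _ _)
              intro w _ _
              exact mul_nonneg (hP w) (sq_nonneg _)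
      exact mul_le_mul e2 e3 (Finset.sum_nonneg (fun w _ => sq_nonneg _)) (by positivity)
    rw [h2] at h1
    calc (E Y φb)^2 = |E Y φb|^2 := (sq_abs _).symm
      _ ≤ (D * ∑ w ∈ s.filter (fun w => ¬ good w), Q.coeff w * |φ w|)^2 :=
          pow_le_pow_left₀ (abs_nonneg _) h1 2
      _ = D^2 * (∑ w ∈ s.filter (fun w => ¬ good w), Q.coeff w * |φ w|)^2 := by ring
      _ ≤ D^2 * ((2/T^m) * E P (fun w => φ w ^ 2)) := mul_le_mul_of_nonneg_left h3 (sq_nonneg D)
      _ = _ := by ring
  rw [hsplit]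
  have : (E Y φg + E Y φb)^2 ≤ 2*(E Y φg)^2 + 2*(E Y φb)^2 := by
    nlinarith [sq_nonneg (E Y φg - E Y φb)]
  calc (E Y φg + E Y φb)^2 ≤ 2*(E Y φg)^2 + 2*(E Y φb)^2 := this
    _ ≤ 2*((c*T) * E P (fun w => φ w ^ 2)) + 2*((2*D^2/T^m) * E P (fun w => φ w ^ 2)) := by
        linarith
    _ = _ := by ring

/-- Taylor constants -/
noncomputable def cmk (K : ℝ) : ℕ → ℝ
  | 0 => 0
  | n+1 => n + K * cmk K n

lemma cmk_nonneg {K : ℝ} (hK : 0 ≤ K) (n : ℕ) : 0 ≤ cmk K n := by
  induction n with
  | zero => simp [cmk]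
  | succ n ih => simp only [cmk]; positivity

lemma pow_le_taylor {K x : ℝ} (hx : 0 ≤ x) (hxK : x ≤ K) (n : ℕ) :
    x^n ≤ 1 + n*(x-1) + cmk K n * (x-1)^2 := by
  have hK : 0 ≤ K := hx.trans hxK
  induction n with
  | zero => simp [cmk]
  | succ n ih =>
    have h1 : x^(n+1) ≤ x * (1 + n*(x-1) + cmk K n * (x-1)^2) := by
      rw [pow_succ']; exact mul_le_mul_of_nonneg_left ih hx
    have h2 : x * (cmk K n * (x-1)^2) ≤ K * (cmk K n * (x-1)^2) :=
      mul_le_mul_of_nonneg_right hxK (mul_nonneg (cmk_nonneg hK n) (sq_nonneg _))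
    simp only [cmk]
    push_cast
    nlinarith

/-- the single block -/
theorem hol_single {r A : Al M} {K c : ℝ} (hr : Pr r) (hA : Pr A) (hK : Le r (K • A))
    (hc : Dom c (r - A) A) (m : ℕ) (hK0 : 0 ≤ K) :
    ∃ H : Al M, Nn H ∧ Hol (m+1) r A H ∧ mass H ≤ 1 + cmk K (m+2) * c := by
  classical
  set H : Al M := ofCoeff (Finsupp.onFinset A.coeff.support
    (fun w => if w ∈ A.coeff.support then r.coeff w ^ (m+2) / A.coeff w ^ (m+1) else 0) (by
      intro w hw
      by_contra hcon
      simp [hcon] at hw)) with hH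
  have hHc : ∀ w, H.coeff w = if w ∈ A.coeff.support then r.coeff w ^ (m+2) / A.coeff w ^ (m+1)
      else 0 := by
    intro w
    rw [hH, coeff_ofCoeff, Finsupp.onFinset_apply]
  have hrz : ∀ w, w ∉ A.coeff.support → r.coeff w = 0 := by
    intro w hw
    have h1 := hK w
    rw [Finsupp.notMem_support_iff] at hw
    rw [coeff_smul, Finsupp.smul_apply, hw, smul_zero] at h1
    exact le_antisymm h1 (hr.nn w)
  have hApos : ∀ w ∈ A.coeff.support, 0 < A.coeff w := by
    intro w hw
    rw [Finsupp.mem_support_iff] at hw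
    exact lt_of_le_of_ne (hA.nn w) (Ne.symm hw)
  refine ⟨H, ?_, ?_, ?_⟩
  · intro w
    rw [hHc]
    split_ifs with h
    · exact div_nonneg (pow_nonneg (hr.nn w) _) (pow_nonneg (hA.nn w) _)
    · exact le_rfl
  · intro w
    rw [hHc]
    split_ifs with h
    · have := hApos w h
      rw [mul_div_cancel₀ _ (by positivity)]
    · rw [hrz w h]; simp
  · -- mass
    have sH : H.coeff.support ⊆ A.coeff.support := by
      intro w hw
      rw [Finsupp.mem_support_iff, hHc] at hw
      by_contra hcon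
      simp [hcon] at hw
    have sr : r.coeff.support ⊆ A.coeff.support := by
      intro w hw
      by_contra hcon
      rw [Finsupp.mem_support_iff] at hw
      exact hw (hrz w hcon)
    set s := A.coeff.support with hs
    have sAr : (r - A).coeff.support ⊆ s := by
      intro w hw
      by_contra hcon
      rw [Finsupp.mem_support_iff, coeff_sub, Finsupp.sub_apply, hrz w hcon,
        Finsupp.notMem_support_iff.mp hcon] at hw
      simp at hw
    -- the chi-square sum
    set X := ∑ w ∈ s, (r.coeff w - A.coeff w)^2 / A.coeff w with hX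
    have hXc : X ≤ c := by
      have h1 := hc (fun w => (r.coeff w - A.coeff w) / A.coeff w)
      rw [E_eq_sum (r-A) s sAr, E_eq_sum A s (Finset.Subset.refl _)] at h1
      have e1 : ∑ w ∈ s, (r-A).coeff w * ((r.coeff w - A.coeff w) / A.coeff w) = X := by
        rw [hX]
        apply Finset.sum_congr rfl
        intro w _
        rw [coeff_sub, Finsupp.sub_apply]; ring
      have e2 : ∑ w ∈ s, A.coeff w * ((r.coeff w - A.coeff w) / A.coeff w)^2 = X := by
        rw [hX]
        apply Finset.sum_congr rfl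
        intro w hw
        have := hApos w hw
        field_simp
      rw [e1, e2] at h1
      have hX0 : 0 ≤ X := Finset.sum_nonneg (fun w hw => div_nonneg (sq_nonneg _) (hApos w hw).le)
      rcases eq_or_lt_of_le hX0 with h0 | h0
      · -- X = 0
        rw [← h0]
        by_contra hneg
        push Not at hneg
        have h2 := hc (fun _ => 1)
        have h3 : E A (fun _ => (1:ℝ)^2) = 1 := by
          have := hA.mass; unfold mass at this; simpa using this
        rw [h3] at h2
        nlinarith [sq_nonneg (E (r - A) (fun _ => (1:ℝ)))]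
      · rw [sq] at h1
        exact le_of_mul_le_mul_right h1 h0
    have key : mass H ≤ ∑ w ∈ s, (A.coeff w + (m+2 : ℕ) * (r.coeff w - A.coeff w)
        + cmk K (m+2) * ((r.coeff w - A.coeff w)^2 / A.coeff w)) := by
      unfold mass
      rw [E_eq_sum H s sH]
      apply Finset.sum_le_sum
      intro w hw
      rw [mul_one, hHc, if_pos hw]
      have hpos := hApos w hw
      have hx0 : 0 ≤ r.coeff w / A.coeff w := div_nonneg (hr.nn w) hpos.le
      have hxK : r.coeff w / A.coeff w ≤ K := by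
        rw [div_le_iff₀ hpos]
        have := hK w
        rwa [coeff_smul, Finsupp.smul_apply, smul_eq_mul] at this
      have ht := pow_le_taylor hx0 hxK (m+2)
      have e1 : r.coeff w ^ (m+2) / A.coeff w ^ (m+1) = A.coeff w * (r.coeff w / A.coeff w)^(m+2) := by
        rw [div_pow]; field_simp; ring
      rw [e1]
      refine (mul_le_mul_of_nonneg_left ht hpos.le).trans (le_of_eq ?_)
      field_simp
    refine key.trans ?_
    rw [Finset.sum_add_distrib, Finset.sum_add_distrib, ← Finset.mul_sum, ← Finset.mul_sum,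
      Finset.sum_sub_distrib]
    have mA : ∑ w ∈ s, A.coeff w = 1 := by
      have := hA.mass
      unfold mass at this
      rw [E_eq_sum A s (Finset.Subset.refl _)] at this
      simpa using this
    have mr : ∑ w ∈ s, r.coeff w = 1 := by
      have := hr.mass
      unfold mass at this
      rw [E_eq_sum r s sr] at this
      simpa using this
    rw [mA, mr]
    have := mul_le_mul_of_nonneg_left hXc (cmk_nonneg hK0 (m+2))
    rw [hX] at this
    linarith

/-- change of reference from powers of `r` to powers of `A` -/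
theorem refChange_pow {Y r A : Al M} {c K cρ D T : ℝ} {m n : ℕ} (hr : Pr r) (hA : Pr A)
    (hK0 : 0 ≤ K) (hK : Le r (K • A)) (hcρ : Dom cρ (r - A) A) (hcρ0 : 0 ≤ cρ)
    (hn : n * (cmk K (m+2) * cρ) ≤ 1/2) (hY : Dom c Y (r^n)) (hB : PB D Y (r^n)) (hc : 0 ≤ c)
    (hD : 0 ≤ D) (hT : 1 ≤ T) : Dom (2*(c*T) + 2*(2*D^2/T^m)) Y (A^n) := by
  obtain ⟨H, hH, hol, mH⟩ := hol_single hr hA hK hcρ m hK0
  have hx : 0 ≤ cmk K (m+2) * cρ := mul_nonneg (cmk_nonneg hK0 _) hcρ0
  refine refChange (hA.nn.pow n) (hr.nn.pow n) (hH.pow n) (hol.pow hr.nn hA.nn hH n) ?_ hY hB hc hD hT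
  rw [mass_pow]
  calc (mass H)^n ≤ (1 + cmk K (m+2) * cρ)^n := pow_le_pow_left₀ (mass_nonneg hH) mH n
    _ ≤ 1 + 2 * n * (cmk K (m+2) * cρ) := by
        have := pow_sub_one_le hx (by linarith : (n:ℝ) * (cmk K (m+2) * cρ) ≤ 1)
        linarith
    _ ≤ 2 := by nlinarith

end Vale.Agent.P321S
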