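import Mathlib
import Vale.Agent.P321S.Slip

namespace Vale.Agent.P321S

open MonoidAlgebra Finset

variable {M : Type*} [Monoid M]

/-- one-sided slip sums -/
noncomputable def Ys (U : Al M) (l : ℕ) : ℕ → (ℤ → ℝ) → Al M
  | 0, c => c 0 • (1 : Al M)
  | t+1, c => U^l * Ys U l t c + U^(l+1) * Ys U l t (fun n => c (n+1))

lemma Ys_add (U : Al M) (l : ℕ) (t : ℕ) (c c' : ℤ → ℝ) :
    Ys U l t (fun n => c n + c' n) = Ys U l t c + Ys U l t c' := by
  induction t generalizing c c' with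
  | zero => simp only [Ys, add_smul]
  | succ t ih =>
    simp only [Ys]
    rw [ih c c', ih (fun n => c (n+1)) (fun n => c' (n+1))]
    noncomm_ring

lemma Ys_closed (U : Al M) (l : ℕ) (t : ℕ) (c : ℤ → ℝ) :
    Ys U l t c = ∑ j ∈ range (t+1), ((t.choose j : ℝ) * c j) • U^(t*l+j) := by
  induction t generalizing c with
  | zero => simp [Ys]
  | succ t ih =>
    simp only [Ys]
    rw [ih, ih]
    rw [Finset.mul_sum, Finset.mul_sum]
    rw [Finset.sum_range_succ' (fun j => (((t+1).choose j : ℝ) * c j) • U^((t+1)*l+j)) (t+1)]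
    have e1 : ∀ j ∈ range (t+1), (((t+1).choose (j+1) : ℝ) * c ((j+1 : ℕ):ℤ)) • U^((t+1)*l+(j+1))
        = U^(l+1) * ((t.choose j : ℝ) * c ((j:ℤ)+1)) • U^(t*l+j)
          + ((t.choose (j+1) : ℝ) * c ((j+1 : ℕ):ℤ)) • U^((t+1)*l+(j+1)) := by
      intro j _
      have h1 : U^(l+1) * ((t.choose j : ℝ) * c ((j:ℤ)+1)) • U^(t*l+j)
          = ((t.choose j : ℝ) * c ((j:ℤ)+1)) • U^((t+1)*l+(j+1)) := by
        rw [mul_smul_comm, ← pow_add]
        congr 2; ring
      rw [h1, Nat.choose_succ_succ]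
      push_cast
      rw [add_mul, add_smul]
    rw [Finset.sum_congr rfl e1, Finset.sum_add_distrib]
    have e2 : ∑ j ∈ range (t+1), U^l * ((t.choose j : ℝ) * c j) • U^(t*l+j)
        = ∑ j ∈ range (t+1), ((t.choose (j+1) : ℝ) * c ((j+1 : ℕ):ℤ)) • U^((t+1)*l+(j+1))
          + (((t+1).choose 0 : ℝ) * c ((0 : ℕ):ℤ)) • U^((t+1)*l+0) := by
      rw [Finset.sum_range_succ' (fun j => U^l * ((t.choose j : ℝ) * c j) • U^(t*l+j)) t]
      rw [Finset.sum_range_succ (fun j => ((t.choose (j+1) : ℝ) * c ((j+1 : ℕ):ℤ)) •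
            U^((t+1)*l+(j+1))) t]
      rw [Nat.choose_eq_zero_of_lt (show t < t+1 by omega)]
      have e3 : ∀ j ∈ range t, U^l * ((t.choose (j+1) : ℝ) * c ((j+1 : ℕ):ℤ)) • U^(t*l+(j+1))
          = ((t.choose (j+1) : ℝ) * c ((j+1 : ℕ):ℤ)) • U^((t+1)*l+(j+1)) := by
        intro j _
        rw [mul_smul_comm, ← pow_add]
        congr 2; ring
      rw [Finset.sum_congr rfl e3]
      have e4 : U^l * ((t.choose 0 : ℝ) * c ((0:ℕ):ℤ)) • U^(t*l+0)
          = (((t+1).choose 0 : ℝ) * c ((0 : ℕ):ℤ)) • U^((t+1)*l+0) := by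
        rw [mul_smul_comm, ← pow_add]
        simp only [Nat.choose_zero_right]
        congr 2; ring
      rw [e4]
      simp
    rw [e2]
    abel

lemma shift_bound {U C : Al M} {l : ℕ} {δ₀ : ℝ} (h : Ov U l δ₀ C) (t : ℕ) (c : ℤ → ℝ) (s : ℕ → ℝ)
    (hs : ∀ A n, |(Pc^[A] c) n| ≤ s A) :
    l1 (Ys U l t c) ≤ Wf δ₀ (2*(1-δ₀)) t s := by
  have h0 := h.pos
  have h1 := h.le_one
  induction t generalizing c s with
  | zero =>
    simp only [Ys, Wf]
    rw [l1_smul, Pr.one.l1, mul_one]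
    exact hs 0 0
  | succ t ih =>
    set Y := Ys U l t c with hY
    set Y' := Ys U l t (fun n => c (n+1)) with hY'
    have hPcA : ∀ A n, (Pc^[A] (Pc c)) n = (Pc^[A+1] c) n := by
      intro A n; rw [Function.iterate_succ_apply]
    have hshift : ∀ A n, (Pc^[A] (fun n => c (n+1))) n = (Pc^[A] c) (n+1) := by
      intro A
      induction A with
      | zero => intro n; rfl
      | succ A ih2 =>
        intro n
        rw [Function.iterate_succ_apply', Function.iterate_succ_apply']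
        simp only [Pc, ih2]
    have dP := ih (Pc c) (fun A => s (A+1)) (fun A n => by rw [hPcA]; exact hs (A+1) n)
    have dY := ih c s hs
    have dY' := ih (fun n => c (n+1)) s (fun A n => by rw [hshift]; exact hs A (n+1))
    have eP : Ys U l t (Pc c) = Y + Y' := by
      have : Pc c = fun n => c n + (fun n => c (n+1)) n := rfl
      rw [this, Ys_add]
    rw [eP] at dP
    have hA0 : Nn (U^l - C) := h.le0.nn
    have hA1 : Nn (U^(l+1) - C) := h.le1.nn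
    have mA0 : l1 (U^l - C) = 1 - δ₀ := by
      rw [l1_of_nn hA0, mass_sub, (h.prU.pow l).mass, h.mass]
    have mA1 : l1 (U^(l+1) - C) = 1 - δ₀ := by
      rw [l1_of_nn hA1, mass_sub, (h.prU.pow (l+1)).mass, h.mass]
    have mC : l1 C = δ₀ := by rw [l1_of_nn h.nn, h.mass]
    simp only [Ys, Wf]
    have e : U^l * Y + U^(l+1) * Y' = C * (Y + Y') + ((U^l - C) * Y + (U^(l+1) - C) * Y') := by
      noncomm_ring
    rw [← hY, ← hY', e]
    have b1 : l1 (C * (Y+Y')) ≤ δ₀ * Wf δ₀ (2*(1-δ₀)) t (fun A => s (A+1)) := by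
      refine (l1_mul_le _ _).trans ?_
      rw [mC]; exact mul_le_mul_of_nonneg_left dP h0.le
    have b2 : l1 ((U^l - C) * Y) ≤ (1-δ₀) * Wf δ₀ (2*(1-δ₀)) t s := by
      refine (l1_mul_le _ _).trans ?_
      rw [mA0]; exact mul_le_mul_of_nonneg_left dY (by linarith)
    have b3 : l1 ((U^(l+1) - C) * Y') ≤ (1-δ₀) * Wf δ₀ (2*(1-δ₀)) t s := by
      refine (l1_mul_le _ _).trans ?_
      rw [mA1]; exact mul_le_mul_of_nonneg_left dY' (by linarith)
    have b4 := l1_add_le (C * (Y + Y')) ((U^l - C) * Y + (U^(l+1) - C) * Y')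
    have b5 := l1_add_le ((U^l - C) * Y) ((U^(l+1) - C) * Y')
    linarith

theorem shift_l1 {U C : Al M} {l : ℕ} {δ₀ : ℝ} (h : Ov U l δ₀ C) (k : ℕ) :
    l1 (U^((2*k+1)*l+k) - U^((2*k+1)*l+k+1)) ≤ 2 / (δ₀ * √(k+1)) := by
  have h0 := h.pos
  have h1 := h.le_one
  set s : ℕ → ℝ := fun A => 2^(A+1)/((A:ℝ)+1) with hs
  have key := shift_bound h (2*k+1) (c0 k) s (fun A n => Pc_c0_bound k A n)
  rw [Ys_closed] at key
  have hsum : ∑ j ∈ range (2*k+1+1), (((2*k+1).choose j : ℝ) * c0 k j) • U^((2*k+1)*l+j)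
      = (((2*k+1).choose k : ℝ)) • (U^((2*k+1)*l+k) - U^((2*k+1)*l+k+1)) := by
    have hz : ∀ j ∈ range (2*k+1+1), j ∉ ({k, k+1} : Finset ℕ) →
        (((2*k+1).choose j : ℝ) * c0 k j) • U^((2*k+1)*l+j) = 0 := by
      intro j _ hj
      simp only [Finset.mem_insert, Finset.mem_singleton, not_or] at hj
      have : c0 k (j:ℤ) = 0 := by
        simp only [c0, cz]
        rw [if_neg (by omega), if_neg (by omega)]
        simp
      rw [this]; simp
    rw [← Finset.sum_subset (s₁ := ({k, k+1} : Finset ℕ)) (by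
      intro j hj
      simp only [Finset.mem_insert, Finset.mem_singleton] at hj
      rw [mem_range]; omega) hz]
    rw [Finset.sum_pair (by omega)]
    have c1 : c0 k (k:ℤ) = 1 := by simp [c0, cz]
    have c2 : c0 k ((k+1 : ℕ):ℤ) = -1 := by simp [c0, cz]
    have hch : (2*k+1).choose (k+1) = (2*k+1).choose k := by
      apply Nat.choose_symm_of_eq_add; omega
    rw [c1, c2, hch, mul_one, mul_neg_one, neg_smul, ← sub_eq_add_neg, ← smul_sub]
    rfl
  rw [hsum, l1_smul] at key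
  set B : ℝ := ((2*k+1).choose k : ℝ) with hB
  have hBpos : 0 < B := by
    rw [hB]; exact_mod_cast Nat.choose_pos (by omega)
  rw [abs_of_pos hBpos] at key
  have hW := Wf_one δ₀ h0 h1 (2*k+1)
  have hmid := choose_mid_sq k
  rw [← hB] at hmid
  have hk : (0:ℝ) ≤ k := Nat.cast_nonneg k
  set x := l1 (U^((2*k+1)*l+k) - U^((2*k+1)*l+k+1)) with hx
  have hx0 : 0 ≤ x := l1_nonneg _
  have k1 : B * x ≤ 2 * 2^(2*k+1) / ((((2*k+1:ℕ):ℝ)+1)*δ₀) := key.trans hW
  have hsq : √((k:ℝ)+1)^2 = k+1 := Real.sq_sqrt (by linarith)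
  have hspos : 0 < √((k:ℝ)+1) := Real.sqrt_pos.mpr (by linarith)
  rw [le_div_iff₀ (by positivity)]
  push_cast at k1
  rw [le_div_iff₀ (by positivity)] at k1
  -- k1 : B * x * ((2k+1+1)*δ₀) ≤ 2*2^(2k+1)
  have k2 : (2:ℝ)^(2*k+1) ≤ 2 * √((k:ℝ)+1) * B := by
    apply le_of_sq_le_sq _ (by positivity) |>.trans' (le_refl _)
    calc ((2:ℝ)^(2*k+1))^2 = 4^(2*k+1) := by
          rw [← pow_mul, mul_comm, pow_mul]; norm_num
      _ ≤ 2 * (2*k+2) * B^2 := hmid
      _ = (2 * √((k:ℝ)+1) * B)^2 := by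
          rw [mul_pow, mul_pow, hsq]; ring
  have k3 : B * x * ((2*k+1+1)*δ₀) ≤ 2 * (2 * √((k:ℝ)+1) * B) := by linarith
  have k4 : x * ((2*k+1+1)*δ₀) ≤ 4 * √((k:ℝ)+1) := by
    have : B * (x * ((2*k+1+1)*δ₀)) ≤ B * (4 * √((k:ℝ)+1)) := by linarith
    exact le_of_mul_le_mul_left this hBpos
  have e : x * ((2*(k:ℝ)+1+1)*δ₀) = (x * (δ₀ * √((k:ℝ)+1))) * (2 * √((k:ℝ)+1)) := by
    have : (2*(k:ℝ)+1+1) = 2 * √((k:ℝ)+1)^2 := by rw [hsq]; ring
    rw [this]; ring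
  rw [e] at k4
  have k5 : (x * (δ₀ * √((k:ℝ)+1))) * (2 * √((k:ℝ)+1)) ≤ 2 * (2 * √((k:ℝ)+1)) := by linarith
  exact le_of_mul_le_mul_right k5 (by positivity)

end Vale.Agent.P321S
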