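import Mathlib
import Vale.Agent.P321S.Morse
import Vale.Agent.P321S.Orth
import Vale.Agent.P321S.RefChange
import Vale.Agent.P321S.Shift

namespace Vale.Agent.P321S

open MonoidAlgebra Finset Filter

variable {M : Type*} [Monoid M]

/-- chi-square domination with a power saving, for families -/
def DO (k : ℕ) (F R : ℕ → Al M) : Prop :=
  ∃ C : ℝ, 0 ≤ C ∧ ∀ᶠ t : ℕ in atTop, Dom (C / (t:ℝ)^k) (F t) (R t)

/-- pointwise domination for families -/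
def PBO (F R : ℕ → Al M) : Prop :=
  ∃ C : ℝ, 0 ≤ C ∧ ∀ᶠ t : ℕ in atTop, PB C (F t) (R t)

def LeO (F R : ℕ → Al M) : Prop :=
  ∃ C : ℝ, 1 ≤ C ∧ ∀ᶠ t : ℕ in atTop, Le (F t) (C • R t)

def NnO (F : ℕ → Al M) : Prop := ∀ᶠ t : ℕ in atTop, Nn (F t)
def PrO (F : ℕ → Al M) : Prop := ∀ᶠ t : ℕ in atTop, Pr (F t)

/-- growth of integer sequences -/
def NO (n : ℕ → ℕ) (j : ℕ) : Prop := ∃ C : ℝ, 0 ≤ C ∧ ∀ᶠ t : ℕ in atTop, (n t : ℝ) ≤ C * (t:ℝ)^j

lemma ev_one_le : ∀ᶠ t : ℕ in atTop, (1:ℝ) ≤ (t:ℝ) := by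
  filter_upwards [eventually_ge_atTop 1] with t ht
  exact_mod_cast ht

lemma ev_small (C : ℝ) {ε : ℝ} (hε : 0 < ε) {k : ℕ} (hk : 1 ≤ k) :
    ∀ᶠ t : ℕ in atTop, C / (t:ℝ)^k ≤ ε := by
  have h : Tendsto (fun t : ℕ => C / (t:ℝ)^k) atTop (nhds 0) := by
    apply Tendsto.div_atTop tendsto_const_nhds
    exact (tendsto_pow_atTop (by omega)).comp tendsto_natCast_atTop_atTop
  exact (h.eventually (gt_mem_nhds hε)).mono (fun t ht => ht.le)

lemma div_pow_mono {C t : ℝ} (hC : 0 ≤ C) (ht : 1 ≤ t) {k k' : ℕ} (h : k' ≤ k) :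
    C / t^k ≤ C / t^k' := by
  apply div_le_div_of_nonneg_left hC (by positivity) (pow_le_pow_right₀ ht h)

lemma PrO.nn {F : ℕ → Al M} (h : PrO F) : NnO F := by
  filter_upwards [h] with t ht using ht.nn

lemma PrO.mul {F G : ℕ → Al M} (h : PrO F) (h' : PrO G) : PrO (fun t => F t * G t) := by
  filter_upwards [h, h'] with t a b using a.mul b

lemma PrO.pow {F : ℕ → Al M} (h : PrO F) (n : ℕ → ℕ) : PrO (fun t => F t ^ (n t)) := by
  filter_upwards [h] with t a using a.pow _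

lemma PrO.one : PrO (fun _ => (1 : Al M)) := Eventually.of_forall (fun _ => Pr.one)

lemma NnO.mul {F G : ℕ → Al M} (h : NnO F) (h' : NnO G) : NnO (fun t => F t * G t) := by
  filter_upwards [h, h'] with t a b using a.mul b

lemma DO.congr {k : ℕ} {F F' R R' : ℕ → Al M} (h : DO k F R)
    (e : ∀ᶠ t in atTop, F t = F' t) (e' : ∀ᶠ t in atTop, R t = R' t) : DO k F' R' := by
  obtain ⟨C, hC, h⟩ := h
  refine ⟨C, hC, ?_⟩
  filter_upwards [h, e, e'] with t a b c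
  rw [← b, ← c]; exact a

lemma DO.congr' {k : ℕ} {F F' R R' : ℕ → Al M} (h : DO k F R)
    (e : ∀ t, F t = F' t) (e' : ∀ t, R t = R' t) : DO k F' R' :=
  h.congr (Eventually.of_forall e) (Eventually.of_forall e')

lemma DO.mono {k k' : ℕ} {F R : ℕ → Al M} (h : DO k F R) (hR : NnO R) (hk : k' ≤ k) :
    DO k' F R := by
  obtain ⟨C, hC, h⟩ := h
  refine ⟨C, hC, ?_⟩
  filter_upwards [h, hR, ev_one_le] with t a b c
  exact a.mono b (div_pow_mono hC c hk)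

lemma DO.mul {k k' : ℕ} {F R G S : ℕ → Al M} (h : DO k F R) (h' : DO k' G S) (hR : NnO R) :
    DO (k+k') (fun t => F t * G t) (fun t => R t * S t) := by
  obtain ⟨C, hC, h⟩ := h
  obtain ⟨C', hC', h'⟩ := h'
  refine ⟨C * C', by positivity, ?_⟩
  filter_upwards [h, h', hR] with t a b c
  have := a.mul b c (by positivity)
  have e : C / (t:ℝ)^k * (C' / (t:ℝ)^k') = C * C' / (t:ℝ)^(k+k') := by
    rw [pow_add, div_mul_div_comm]
  rwa [e] at this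

lemma DO.add {k : ℕ} {F G R : ℕ → Al M} (h : DO k F R) (h' : DO k G R) :
    DO k (fun t => F t + G t) R := by
  obtain ⟨C, hC, h⟩ := h
  obtain ⟨C', hC', h'⟩ := h'
  refine ⟨2*C + 2*C', by positivity, ?_⟩
  filter_upwards [h, h'] with t a b
  have := a.add b
  have e : 2 * (C / (t:ℝ)^k) + 2 * (C' / (t:ℝ)^k) = (2*C + 2*C') / (t:ℝ)^k := by ring
  rwa [e] at this

lemma DO.neg {k : ℕ} {F R : ℕ → Al M} (h : DO k F R) : DO k (fun t => - F t) R := by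
  obtain ⟨C, hC, h⟩ := h
  refine ⟨C, hC, ?_⟩
  filter_upwards [h] with t a using a.neg

lemma DO.sub {k : ℕ} {F G R : ℕ → Al M} (h : DO k F R) (h' : DO k G R) :
    DO k (fun t => F t - G t) R := by
  obtain ⟨C, hC, h⟩ := h
  obtain ⟨C', hC', h'⟩ := h'
  refine ⟨2*C + 2*C', by positivity, ?_⟩
  filter_upwards [h, h'] with t a b
  have := a.sub b
  have e : 2 * (C / (t:ℝ)^k) + 2 * (C' / (t:ℝ)^k) = (2*C + 2*C') / (t:ℝ)^k := by ring
  rwa [e] at this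

lemma DO.smul {k : ℕ} {F R : ℕ → Al M} (h : DO k F R) (a : ℝ) : DO k (fun t => a • F t) R := by
  obtain ⟨C, hC, h⟩ := h
  refine ⟨a^2*C, by positivity, ?_⟩
  filter_upwards [h] with t b
  have := b.smul a
  rwa [← mul_div_assoc] at this

lemma DO.zero (k : ℕ) {R : ℕ → Al M} (hR : NnO R) : DO k (fun _ => (0 : Al M)) R := by
  refine ⟨0, le_rfl, ?_⟩
  filter_upwards [hR] with t a
  exact Dom.zero (by positivity) a

lemma DO.self {R : ℕ → Al M} (hR : PrO R) : DO 0 R R := by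
  refine ⟨1, zero_le_one, ?_⟩
  filter_upwards [hR] with t a
  simpa using a.dom

lemma DO.ref {k : ℕ} {F R R' : ℕ → Al M} (h : DO k F R) (h' : LeO R R') : DO k F R' := by
  obtain ⟨C, hC, h⟩ := h
  obtain ⟨K, hK, h'⟩ := h'
  refine ⟨C*K, by positivity, ?_⟩
  filter_upwards [h, h'] with t a b
  have := a.ref_le (by positivity) b
  have e : C / (t:ℝ)^k * K = C * K / (t:ℝ)^k := by ring
  rwa [e] at this

lemma DO.pr_left {k : ℕ} {F R A : ℕ → Al M} (h : DO k F R) (hA : PrO A) :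
    DO k (fun t => A t * F t) (fun t => A t * R t) := by
  have := (DO.self hA).mul h hA.nn
  rwa [zero_add] at this

lemma DO.pr_right {k : ℕ} {F R B : ℕ → Al M} (h : DO k F R) (hR : NnO R) (hB : PrO B) :
    DO k (fun t => F t * B t) (fun t => R t * B t) := by
  have := h.mul (DO.self hB) hR
  rwa [add_zero] at this

lemma DO.pr_sandwich {k : ℕ} {F R A B : ℕ → Al M} (h : DO k F R) (hR : NnO R) (hA : PrO A)
    (hB : PrO B) : DO k (fun t => A t * F t * B t) (fun t => A t * R t * B t) :=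
  (h.pr_left hA).pr_right (hA.nn.mul hR) hB

lemma PBO.congr {F F' R R' : ℕ → Al M} (h : PBO F R)
    (e : ∀ᶠ t in atTop, F t = F' t) (e' : ∀ᶠ t in atTop, R t = R' t) : PBO F' R' := by
  obtain ⟨C, hC, h⟩ := h
  refine ⟨C, hC, ?_⟩
  filter_upwards [h, e, e'] with t a b c
  rw [← b, ← c]; exact a

lemma PBO.congr' {F F' R R' : ℕ → Al M} (h : PBO F R)
    (e : ∀ t, F t = F' t) (e' : ∀ t, R t = R' t) : PBO F' R' :=
  h.congr (Eventually.of_forall e) (Eventually.of_forall e')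

lemma PBO.mul {F R G S : ℕ → Al M} (h : PBO F R) (h' : PBO G S) (hR : NnO R) :
    PBO (fun t => F t * G t) (fun t => R t * S t) := by
  obtain ⟨C, hC, h⟩ := h
  obtain ⟨C', hC', h'⟩ := h'
  refine ⟨C * C', by positivity, ?_⟩
  filter_upwards [h, h', hR] with t a b c
  exact a.mul b c hC

lemma PBO.add {F G R : ℕ → Al M} (h : PBO F R) (h' : PBO G R) : PBO (fun t => F t + G t) R := by
  obtain ⟨C, hC, h⟩ := h
  obtain ⟨C', hC', h'⟩ := h'
  refine ⟨C + C', by positivity, ?_⟩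
  filter_upwards [h, h'] with t a b using a.add b

lemma PBO.sub {F G R : ℕ → Al M} (h : PBO F R) (h' : PBO G R) : PBO (fun t => F t - G t) R := by
  obtain ⟨C, hC, h⟩ := h
  obtain ⟨C', hC', h'⟩ := h'
  refine ⟨C + C', by positivity, ?_⟩
  filter_upwards [h, h'] with t a b using a.sub b

lemma PBO.smul {F R : ℕ → Al M} (h : PBO F R) (r : ℝ) : PBO (fun t => r • F t) R := by
  obtain ⟨C, hC, h⟩ := h
  refine ⟨|r| * C, by positivity, ?_⟩
  filter_upwards [h] with t a using a.smul r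

lemma PBO.self {R : ℕ → Al M} (hR : NnO R) : PBO R R := by
  refine ⟨1, zero_le_one, ?_⟩
  filter_upwards [hR] with t a using PB.self a

lemma PBO.ref {F R R' : ℕ → Al M} (h : PBO F R) (h' : LeO R R') : PBO F R' := by
  obtain ⟨C, hC, h⟩ := h
  obtain ⟨K, hK, h'⟩ := h'
  refine ⟨C*K, by positivity, ?_⟩
  filter_upwards [h, h'] with t a b using a.ref_le hC b

lemma PBO.of_le {F R : ℕ → Al M} (hF : NnO F) (h' : LeO F R) : PBO F R := by
  obtain ⟨K, hK, h'⟩ := h'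
  refine ⟨K, by positivity, ?_⟩
  filter_upwards [hF, h'] with t a b using PB.of_le a b

lemma PBO.sandwich {F R A B : ℕ → Al M} (h : PBO F R) (hR : NnO R) (hA : NnO A)
    (hB : NnO B) : PBO (fun t => A t * F t * B t) (fun t => A t * R t * B t) :=
  ((PBO.self hA).mul h hA).mul (PBO.self hB) (hA.mul hR)

lemma LeO.refl (F : ℕ → Al M) : LeO F F :=
  ⟨1, le_rfl, Eventually.of_forall (fun t => by rw [one_smul]; exact Le.refl _)⟩

lemma LeO.trans {F G H : ℕ → Al M} (h : LeO F G) (h' : LeO G H) : LeO F H := by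
  obtain ⟨C, hC, h⟩ := h
  obtain ⟨C', hC', h'⟩ := h'
  refine ⟨C * C', one_le_mul_of_one_le_of_one_le hC hC', ?_⟩
  filter_upwards [h, h'] with t a b
  refine a.trans ?_
  rw [← smul_smul]
  exact b.smul (by linarith)

lemma LeO.mul {F G F' G' : ℕ → Al M} (h : LeO F G) (h' : LeO F' G') (hF' : NnO F') (hG : NnO G) :
    LeO (fun t => F t * F' t) (fun t => G t * G' t) := by
  obtain ⟨C, hC, h⟩ := h
  obtain ⟨C', hC', h'⟩ := h'
  refine ⟨C * C', one_le_mul_of_one_le_of_one_le hC hC', ?_⟩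
  filter_upwards [h, h', hF', hG] with t a b c d
  have := a.mul b c (d.smul (by linarith))
  have e : (C • G t) * (C' • G' t) = (C*C') • (G t * G' t) := by
    rw [smul_mul_assoc, mul_smul_comm, smul_smul]
  rwa [e] at this

lemma LeO.pow {F G : ℕ → Al M} (h : LeO F G) (hF : NnO F) (hG : NnO G) (v : ℕ) :
    LeO (fun t => F t ^ v) (fun t => G t ^ v) := by
  induction v with
  | zero => simp only [pow_zero]; exact LeO.refl _
  | succ v ih =>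
    simp only [pow_succ]
    refine ih.mul h hF ?_
    filter_upwards [hG] with t a using a.pow v

lemma LeO.congr {F F' R R' : ℕ → Al M} (h : LeO F R)
    (e : ∀ᶠ t in atTop, F t = F' t) (e' : ∀ᶠ t in atTop, R t = R' t) : LeO F' R' := by
  obtain ⟨C, hC, h⟩ := h
  refine ⟨C, hC, ?_⟩
  filter_upwards [h, e, e'] with t a b c
  rw [← b, ← c]; exact a

lemma NO.mono {n : ℕ → ℕ} {j j' : ℕ} (h : NO n j) (hj : j ≤ j') : NO n j' := by
  obtain ⟨C, hC, h⟩ := h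
  refine ⟨C, hC, ?_⟩
  filter_upwards [h, ev_one_le] with t a b
  exact a.trans (mul_le_mul_of_nonneg_left (pow_le_pow_right₀ b hj) hC)

lemma NO.add {n n' : ℕ → ℕ} {j : ℕ} (h : NO n j) (h' : NO n' j) : NO (fun t => n t + n' t) j := by
  obtain ⟨C, hC, h⟩ := h
  obtain ⟨C', hC', h'⟩ := h'
  refine ⟨C + C', by positivity, ?_⟩
  filter_upwards [h, h'] with t a b
  push_cast
  rw [add_mul]; exact add_le_add a b

lemma NO.mul {n n' : ℕ → ℕ} {j j' : ℕ} (h : NO n j) (h' : NO n' j') :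
    NO (fun t => n t * n' t) (j+j') := by
  obtain ⟨C, hC, h⟩ := h
  obtain ⟨C', hC', h'⟩ := h'
  refine ⟨C * C', by positivity, ?_⟩
  filter_upwards [h, h'] with t a b
  push_cast
  have : C * C' * (t:ℝ)^(j+j') = (C * (t:ℝ)^j) * (C' * (t:ℝ)^j') := by rw [pow_add]; ring
  rw [this]
  exact mul_le_mul a b (Nat.cast_nonneg _) (by positivity)

lemma NO.const (c : ℕ) : NO (fun _ => c) 0 :=
  ⟨c, Nat.cast_nonneg _, Eventually.of_forall (fun t => by simp)⟩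

lemma NO.tpow (j : ℕ) : NO (fun t => t^j) j :=
  ⟨1, zero_le_one, Eventually.of_forall (fun t => by simp)⟩

lemma NO.of_le {n n' : ℕ → ℕ} {j : ℕ} (h : NO n j) (hle : ∀ᶠ t in atTop, n' t ≤ n t) :
    NO n' j := by
  obtain ⟨C, hC, h⟩ := h
  refine ⟨C, hC, ?_⟩
  filter_upwards [h, hle] with t a b
  have : (n' t : ℝ) ≤ n t := by exact_mod_cast b
  exact this.trans a

/-- powers stay close, for families -/
lemma powSubO {P Q : ℕ → Al M} {cx j : ℕ} {n : ℕ → ℕ} (hP : PrO P) (hQ : PrO Q)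
    (h : DO cx (fun t => P t - Q t) Q) (hn : NO n j) (hj : j < cx) :
    DO (cx - j) (fun t => P t ^ (n t) - Q t ^ (n t)) (fun t => Q t ^ (n t)) := by
  obtain ⟨C, hC, h⟩ := h
  obtain ⟨C', hC', hn⟩ := hn
  refine ⟨2 * (C' * C), by positivity, ?_⟩
  filter_upwards [hP, hQ, h, hn, ev_one_le, ev_small (C' * C) zero_lt_one (k := cx - j) (by omega)]
    with t p q a b c d
  have ht : (0:ℝ) < t := by linarith
  have hsplit : (t:ℝ)^cx = (t:ℝ)^j * (t:ℝ)^(cx-j) := by rw [← pow_add]; congr 1; omega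
  have hx : (n t : ℝ) * (C / (t:ℝ)^cx) ≤ C' * C / (t:ℝ)^(cx-j) := by
    calc (n t : ℝ) * (C / (t:ℝ)^cx) ≤ (C' * (t:ℝ)^j) * (C / (t:ℝ)^cx) :=
          mul_le_mul_of_nonneg_right b (by positivity)
      _ = C' * C / (t:ℝ)^(cx-j) := by rw [hsplit]; field_simp
  have := a.pow_sub' p q (by positivity) (n := n t) (hx.trans d)
  refine this.mono (q.pow _).nn ?_
  calc 2 * (n t : ℝ) * (C / (t:ℝ)^cx) = 2 * ((n t : ℝ) * (C / (t:ℝ)^cx)) := by ring
    _ ≤ 2 * (C' * C / (t:ℝ)^(cx-j)) := by linarith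
    _ = 2 * (C' * C) / (t:ℝ)^(cx-j) := by ring

lemma powRefO {P Q : ℕ → Al M} {cx j : ℕ} {n : ℕ → ℕ} (hP : PrO P) (hQ : PrO Q)
    (h : DO cx (fun t => P t - Q t) Q) (hn : NO n j) (hj : j < cx) :
    DO 0 (fun t => P t ^ (n t)) (fun t => Q t ^ (n t)) := by
  have h1 := (powSubO hP hQ h hn hj).mono (hQ.pow n).nn (Nat.zero_le _)
  have h2 := h1.add (DO.self (hQ.pow n))
  exact h2.congr' (fun t => by abel) (fun t => rfl)

/-- overlap for families -/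
def OvO (u : ℕ → Al M) (l : ℕ → ℕ) : Prop :=
  ∃ d : ℝ, 0 < d ∧ ∀ᶠ t : ℕ in atTop, ∃ (d' : ℝ) (C : Al M), d ≤ d' ∧ Ov (u t) (l t) d' C

lemma OvO.pr {u : ℕ → Al M} {l : ℕ → ℕ} (h : OvO u l) : PrO u := by
  obtain ⟨d, hd, h⟩ := h
  filter_upwards [h] with t ht
  obtain ⟨d', C, _, ho⟩ := ht
  exact ho.prU

def MzO (K : ℕ → Al M) : Prop := ∀ᶠ t : ℕ in atTop, mass (K t) = 0

/-- hidden location, for families -/
theorem hiddenO {u K Y : ℕ → Al M} {l v : ℕ → ℕ} {w kx yk G : ℕ} (hO : OvO u l) (hK0 : MzO K)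
    (hK : DO kx K (fun t => u t ^ w)) (hY : DO yk Y (fun t => u t ^ (v t))) (b b' : ℕ → ℕ)
    (hb : ∀ᶠ t in atTop, (w+4) * t^(3*G) * (l t + 1) ≤ b t)
    (hb' : ∀ᶠ t in atTop, (w+4) * t^(3*G) * (l t + 1) ≤ b' t) :
    DO (kx + yk + G) (fun t => u t ^ (b t) * (K t * Y t) * u t ^ (b' t))
      (fun t => u t ^ (b t + (w + v t) + b' t)) := by
  obtain ⟨d, hd, hO⟩ := hO
  obtain ⟨C, hC, hK⟩ := hK
  obtain ⟨C', hC', hY⟩ := hY
  refine ⟨16 * w^2 * (C * C') / d^4 + 2 * (C * C'), by positivity, ?_⟩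
  filter_upwards [hO, hK0, hK, hY, hb, hb', eventually_ge_atTop 1] with t ho hm hk hy hbt hbt' ht
  obtain ⟨d', Cu, hdd, ho⟩ := ho
  have htR : (1:ℝ) ≤ (t:ℝ) := by exact_mod_cast ht
  have ht0 : (0:ℝ) < t := by linarith
  have hM : 1 ≤ t^G := Nat.one_le_pow _ _ ht
  have key := hidden ho hm hk (by positivity) hy (by positivity) (t^(3*G)) (t^G) hM _ rfl
  set b0 := (2*t^(3*G)+1)*(l t)+t^(3*G) + w*t^G with hb0
  have hMG : t^G ≤ t^(3*G) := Nat.pow_le_pow_right ht (by omega)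
  have hG1 : 1 ≤ t^(3*G) := Nat.one_le_pow _ _ ht
  have hb0le : b0 ≤ (w+4) * t^(3*G) * (l t + 1) := by
    rw [hb0]
    have h1 : w * t^G ≤ w * t^(3*G) := Nat.mul_le_mul_left w hMG
    have h2 : l t ≤ t^(3*G) * l t := Nat.le_mul_of_pos_left _ (by omega)
    nlinarith [Nat.zero_le (w * t^(3*G) * l t), Nat.zero_le (t^(3*G) * l t)]
  have hbb : b0 ≤ b t := hb0le.trans hbt
  have hbb' : b0 ≤ b' t := hb0le.trans hbt'
  have hk0 : 0 ≤ 2 * (((w*t^G : ℕ):ℝ)^2 * (16 * (C / (t:ℝ)^kx * (C' / (t:ℝ)^yk)) /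
      ((2*((t^(3*G) : ℕ):ℝ)+3) * d'^4))) + 2 * (C / (t:ℝ)^kx * (C' / (t:ℝ)^yk)/((t^G : ℕ):ℝ)) := by
    have : 0 < d' := ho.pos
    positivity
  have key2 := key.pr_sandwich (ho.prU.nn.pow _) hk0 (ho.prU.pow (b t - b0)) (ho.prU.pow (b' t - b0))
  have eF : u t ^ (b t - b0) * (u t ^ b0 * K t * Y t * u t ^ b0) * u t ^ (b' t - b0)
      = u t ^ (b t) * (K t * Y t) * u t ^ (b' t) := by
    have e1 : u t ^ (b t) = u t ^ (b t - b0) * u t ^ b0 := by rw [← pow_add]; congr 1; omega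
    have e2 : u t ^ (b' t) = u t ^ b0 * u t ^ (b' t - b0) := by rw [← pow_add]; congr 1; omega
    rw [e1, e2]; noncomm_ring
  have eR : u t ^ (b t - b0) * u t ^ (2*b0 + w + v t) * u t ^ (b' t - b0)
      = u t ^ (b t + (w + v t) + b' t) := by
    rw [← pow_add, ← pow_add]; congr 1; omega
  rw [eF, eR] at key2
  refine key2.mono (ho.prU.nn.pow _) ?_
  have hd'1 : 0 < d' := ho.pos
  have hd4 : d^4 ≤ d'^4 := pow_le_pow_left₀ hd.le hdd 4
  have e1 : (t:ℝ)^(kx+yk+G) = (t:ℝ)^kx * (t:ℝ)^yk * (t:ℝ)^G := by rw [pow_add, pow_add]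
  push_cast
  have p1 : (16 * (C / (t:ℝ)^kx * (C' / (t:ℝ)^yk))) / ((2*(t:ℝ)^(3*G)+3) * d'^4)
      ≤ (16 * (C / (t:ℝ)^kx * (C' / (t:ℝ)^yk))) / ((2*(t:ℝ)^(3*G)) * d^4) := by
    apply div_le_div_of_nonneg_left (by positivity) (by positivity)
    apply mul_le_mul (by linarith) hd4 (by positivity) (by positivity)
  have p2 : 2 * (((w:ℝ)*(t:ℝ)^G)^2 * ((16 * (C / (t:ℝ)^kx * (C' / (t:ℝ)^yk))) / ((2*(t:ℝ)^(3*G)) * d^4)))
      = (16 * w^2 * (C * C') / d^4) / (t:ℝ)^(kx+yk+G) := by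
    have e3 : (t:ℝ)^(3*G) = (t:ℝ)^G * (t:ℝ)^G * (t:ℝ)^G := by
      rw [← pow_add, ← pow_add]; congr 1; ring
    rw [e1, e3]
    field_simp
  have p3 : 2 * (C / (t:ℝ)^kx * (C' / (t:ℝ)^yk)/(t:ℝ)^G) = (2 * (C * C')) / (t:ℝ)^(kx+yk+G) := by
    rw [e1]; field_simp
  calc 2 * (((w:ℝ)*(t:ℝ)^G)^2 * (16 * (C / (t:ℝ)^kx * (C' / (t:ℝ)^yk)) / ((2*(t:ℝ)^(3*G)+3) * d'^4)))
        + 2 * (C / (t:ℝ)^kx * (C' / (t:ℝ)^yk)/(t:ℝ)^G)
      ≤ 2 * (((w:ℝ)*(t:ℝ)^G)^2 * ((16 * (C / (t:ℝ)^kx * (C' / (t:ℝ)^yk))) / ((2*(t:ℝ)^(3*G)) * d^4)))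
        + 2 * (C / (t:ℝ)^kx * (C' / (t:ℝ)^yk)/(t:ℝ)^G) := by
        have := mul_le_mul_of_nonneg_left p1 (sq_nonneg ((w:ℝ)*(t:ℝ)^G))
        linarith
    _ = (16 * w^2 * (C * C') / d^4 + 2 * (C * C')) / (t:ℝ)^(kx+yk+G) := by
        rw [p2, p3, add_div]

/-- change of reference, for families -/
theorem refChangeO {Y r A : ℕ → Al M} {cx j c : ℕ} {n : ℕ → ℕ} (hr : PrO r) (hA : PrO A)
    (hle : LeO r A) (h : DO cx (fun t => r t - A t) A) (hn : NO n j) (hj : j < cx) (hc : 1 ≤ c)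
    (hY : DO c Y (fun t => r t ^ (n t))) (hB : PBO Y (fun t => r t ^ (n t))) :
    DO (c-1) Y (fun t => A t ^ (n t)) := by
  obtain ⟨K, hK, hle⟩ := hle
  obtain ⟨C, hC, h⟩ := h
  obtain ⟨C', hC', hn⟩ := hn
  obtain ⟨C2, hC2, hY⟩ := hY
  obtain ⟨D, hD, hB⟩ := hB
  have hcm := cmk_nonneg (by linarith : (0:ℝ) ≤ K) (c + 2)
  refine ⟨2 * C2 + 4 * D^2, by positivity, ?_⟩
  filter_upwards [hr, hA, hle, h, hn, hY, hB, ev_one_le,
    ev_small (C' * (cmk K (c+2) * C)) (by norm_num : (0:ℝ) < 1/2) (k := cx - j) (by omega)]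
    with t a1 a2 a3 a4 a5 a6 a7 a8 a9
  have ht : (0:ℝ) < t := by linarith
  have hsplit : (t:ℝ)^cx = (t:ℝ)^j * (t:ℝ)^(cx-j) := by rw [← pow_add]; congr 1; omega
  have hx : (n t : ℝ) * (cmk K (c+2) * (C / (t:ℝ)^cx)) ≤ 1/2 := by
    refine le_trans ?_ a9
    calc (n t : ℝ) * (cmk K (c+2) * (C / (t:ℝ)^cx))
        ≤ (C' * (t:ℝ)^j) * (cmk K (c+2) * (C / (t:ℝ)^cx)) :=
          mul_le_mul_of_nonneg_right a5 (by positivity)
      _ = C' * (cmk K (c+2) * C) / (t:ℝ)^(cx-j) := by rw [hsplit]; field_simp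
  have := refChange_pow a1 a2 (by linarith) a3 a4 (by positivity) hx a6 a7 (by positivity) hD a8
  refine this.mono (a2.pow _).nn ?_
  have e1 : C2 / (t:ℝ)^c * t = C2 / (t:ℝ)^(c-1) := by
    have : (t:ℝ)^c = (t:ℝ)^(c-1) * t := by rw [← pow_succ]; congr 1; omega
    rw [this]; field_simp
  have e2 : 2 * D^2 / (t:ℝ)^c ≤ 2 * D^2 / (t:ℝ)^(c-1) := div_pow_mono (by positivity) a8 (by omega)
  rw [e1]
  calc 2 * (C2 / (t:ℝ)^(c-1)) + 2 * (2*D^2 / (t:ℝ)^c)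
      ≤ 2 * (C2 / (t:ℝ)^(c-1)) + 2 * (2*D^2 / (t:ℝ)^(c-1)) := by linarith
    _ = (2*C2 + 4*D^2) / (t:ℝ)^(c-1) := by ring

end Vale.Agent.P321S
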