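import Mathlib
import Vale.Agent.P321S.Asym

namespace Vale.Agent.P321S

open MonoidAlgebra Finset Filter

variable {M : Type*} [Monoid M]

/-- coefficientwise minimum -/
noncomputable def cmin (F G : Al M) : Al M := by
  classical
  exact ofCoeff (Finsupp.onFinset (F.coeff.support ∪ G.coeff.support)
    (fun w => min (F.coeff w) (G.coeff w)) (by
      intro w hw
      by_contra hcon
      rw [Finset.mem_union, not_or, Finsupp.notMem_support_iff, Finsupp.notMem_support_iff] at hcon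
      simp [hcon.1, hcon.2] at hw))

lemma cmin_coeff (F G : Al M) (w : M) : (cmin F G).coeff w = min (F.coeff w) (G.coeff w) := by
  unfold cmin
  rw [coeff_ofCoeff, Finsupp.onFinset_apply]

lemma cmin_nn {F G : Al M} (hF : Nn F) (hG : Nn G) : Nn (cmin F G) := by
  intro w
  rw [cmin_coeff]; exact le_min (hF w) (hG w)

lemma cmin_le_left (F G : Al M) : Le (cmin F G) F := by
  intro w; rw [cmin_coeff]; exact min_le_left _ _

lemma cmin_le_right (F G : Al M) : Le (cmin F G) G := by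
  intro w; rw [cmin_coeff]; exact min_le_right _ _

lemma mass_cmin (F G : Al M) : 2 * mass (cmin F G) = mass F + mass G - l1 (F - G) := by
  classical
  set s := F.coeff.support ∪ G.coeff.support with hs
  have hF : F.coeff.support ⊆ s := Finset.subset_union_left
  have hG : G.coeff.support ⊆ s := Finset.subset_union_right
  have hm : (cmin F G).coeff.support ⊆ s := by
    intro w hw
    by_contra hcon
    rw [hs, Finset.mem_union, not_or, Finsupp.notMem_support_iff, Finsupp.notMem_support_iff] at hcon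
    rw [Finsupp.mem_support_iff, cmin_coeff, hcon.1, hcon.2] at hw
    simp at hw
  have hd : (F - G).coeff.support ⊆ s := by
    intro w hw
    by_contra hcon
    rw [hs, Finset.mem_union, not_or, Finsupp.notMem_support_iff, Finsupp.notMem_support_iff] at hcon
    rw [Finsupp.mem_support_iff, coeff_sub, Finsupp.sub_apply, hcon.1, hcon.2] at hw
    simp at hw
  unfold mass
  rw [E_eq_sum _ s hm, E_eq_sum _ s hF, E_eq_sum _ s hG, l1_eq_sum _ s hd, Finset.mul_sum,
    ← Finset.sum_add_distrib, ← Finset.sum_sub_distrib]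
  apply Finset.sum_congr rfl
  intro w _
  rw [cmin_coeff, coeff_sub, Finsupp.sub_apply]
  rcases le_total (F.coeff w) (G.coeff w) with h | h
  · rw [min_eq_left h, abs_of_nonpos (by linarith)]; ring
  · rw [min_eq_right h, abs_of_nonneg (by linarith)]; ring

/-- overlap from an `l1` bound -/
lemma ov_of_l1 {U : Al M} {l : ℕ} {δ : ℝ} (hU : Pr U) (hδ : 0 < δ)
    (h : l1 (U^l - U^(l+1)) ≤ 2 - 2*δ) : ∃ (d' : ℝ) (C : Al M), δ ≤ d' ∧ Ov U l d' C := by
  have hm := mass_cmin (U^l) (U^(l+1))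
  rw [(hU.pow l).mass, (hU.pow (l+1)).mass] at hm
  have hge : δ ≤ mass (cmin (U^l) (U^(l+1))) := by linarith
  exact ⟨_, cmin (U^l) (U^(l+1)), hge, ⟨hU, cmin_nn (hU.pow _).nn (hU.pow _).nn,
    cmin_le_left _ _, cmin_le_right _ _, rfl, by linarith⟩⟩

/-- shifting by several units -/
lemma shift_many {u C : Al M} {l : ℕ} {d : ℝ} (h : Ov u l d C) (k n L : ℕ)
    (hn : (2*k+1)*l+k ≤ n) : l1 (u^n - u^(n+L)) ≤ L * (2 / (d * √(k+1))) := by
  induction L with
  | zero => simp [l1_zero]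
  | succ L ih =>
    have h1 : l1 (u^(n+L) - u^(n+(L+1))) ≤ 2 / (d * √(k+1)) := by
      have e : u^(n+L) - u^(n+(L+1)) = u^(n+L-((2*k+1)*l+k)) *
          (u^((2*k+1)*l+k) - u^((2*k+1)*l+k+1)) := by
        rw [mul_sub, ← pow_add, ← pow_add]
        congr 2 <;> omega
      rw [e]
      refine (l1_mul_le _ _).trans ?_
      rw [(h.prU.pow _).l1, one_mul]
      exact shift_l1 h k
    have h2 := l1_triangle (u^n) (u^(n+L)) (u^(n+(L+1)))
    push_cast
    linarith

/-- overlap passes to the next level -/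
theorem ovNext {u A : ℕ → Al M} {l L : ℕ → ℕ} {Λ cx : ℕ} (hO : OvO u l) (hl : NO l Λ)
    (hL : NO L (Λ+1)) (hA : PrO A) (h : DO cx (fun t => A t - u t ^ (L t)) (fun t => u t ^ (L t)))
    (hcx : 2*Λ+2 ≤ cx) (hL1 : ∀ᶠ t in atTop, 1 ≤ L t) :
    ∃ l' : ℕ → ℕ, OvO A l' ∧ NO l' (2*Λ+1) := by
  have hu := hO.pr
  obtain ⟨d, hd, hO⟩ := hO
  obtain ⟨K0, hK0⟩ := exists_nat_ge (64 / d^2)
  have hK0d : 64 ≤ K0 * d^2 := by rwa [div_le_iff₀ (by positivity)] at hK0
  set l' : ℕ → ℕ := fun t => (2*K0+1) * (L t * l t) + K0 * L t with hl'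
  have hNl' : NO l' (2*Λ+1) := by
    have h1 : NO (fun t => (2*K0+1) * (L t * l t)) (0 + ((Λ+1) + Λ)) :=
      (NO.const (2*K0+1)).mul (hL.mul hl)
    have h2 : NO (fun t => K0 * L t) (0 + (Λ+1)) := (NO.const K0).mul hL
    exact (h1.mono (by omega)).add (h2.mono (by omega))
  refine ⟨l', ?_, hNl'⟩
  refine ⟨1/2, by norm_num, ?_⟩
  -- closeness of powers
  have hN1 : NO (fun t => l' t + 1) (2*Λ+1) := hNl'.add ((NO.const 1).mono (by omega))
  obtain ⟨C, hC, h⟩ := h
  obtain ⟨C', hC', hN1⟩ := hN1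
  filter_upwards [hO, hu, hA, h, hN1, hL1, ev_one_le,
    ev_small (C' * C) (by norm_num : (0:ℝ) < 1/32) (k := cx - (2*Λ+1)) (by omega)]
    with t ho pu pA hd1 hn1 hLt ht1 hsm
  obtain ⟨d', Cu, hdd, ho⟩ := ho
  have ht : (0:ℝ) < t := by linarith
  set r := u t ^ (L t) with hr
  have pr : Pr r := pu.pow _
  apply ov_of_l1 pA (by norm_num)
  have hclose : ∀ n : ℕ, n ≤ l' t + 1 → l1 (A t ^ n - r ^ n) ≤ 1/4 := by
    intro n hn
    have hnn : (n:ℝ) ≤ ((l' t + 1 : ℕ) : ℝ) := by exact_mod_cast hn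
    have hsplit : (t:ℝ)^cx = (t:ℝ)^(2*Λ+1) * (t:ℝ)^(cx-(2*Λ+1)) := by
      rw [← pow_add]; congr 1; omega
    have hx : (n:ℝ) * (C / (t:ℝ)^cx) ≤ 1/32 := by
      refine le_trans ?_ hsm
      calc (n:ℝ) * (C / (t:ℝ)^cx) ≤ (C' * (t:ℝ)^(2*Λ+1)) * (C / (t:ℝ)^cx) :=
            mul_le_mul_of_nonneg_right (hnn.trans hn1) (by positivity)
        _ = C' * C / (t:ℝ)^(cx-(2*Λ+1)) := by rw [hsplit]; field_simp
    have := hd1.pow_sub' pA pr (by positivity) (n := n) (by linarith)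
    have hl1 := this.l1_le (pr.pow n) (by positivity)
    refine hl1.trans ?_
    rw [Real.sqrt_le_left (by norm_num)]
    nlinarith
  -- shift
  have hshift : l1 (r ^ (l' t) - r ^ (l' t + 1)) ≤ 1/4 + 1/4 := by
    have e1 : r ^ (l' t) = u t ^ (L t * l' t) := by rw [hr, ← pow_mul]
    have e2 : r ^ (l' t + 1) = u t ^ (L t * l' t + L t) := by rw [hr, ← pow_mul]; congr 1
    rw [e1, e2]
    have hn : (2*(K0 * (L t)^2)+1) * (l t) + K0 * (L t)^2 ≤ L t * l' t := by
      rw [hl']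
      have h1 : l t ≤ (L t)^2 * l t := Nat.le_mul_of_pos_left _ (by positivity)
      nlinarith
    refine (shift_many ho (K0 * (L t)^2) (L t * l' t) (L t) hn).trans ?_
    have hLp : (0:ℝ) < L t := by exact_mod_cast hLt
    have hdp : 0 < d' := ho.pos
    have hs : 8 * (L t : ℝ) / d' ≤ √(((K0 * (L t)^2 : ℕ) : ℝ) + 1) := by
      apply Real.le_sqrt_of_sq_le
      push_cast
      rw [div_pow, div_le_iff₀ (by positivity)]
      have h3 : d^2 ≤ d'^2 := pow_le_pow_left₀ hd.le hdd 2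
      have h4 : 64 ≤ K0 * d'^2 := hK0d.trans (mul_le_mul_of_nonneg_left h3 (Nat.cast_nonneg _))
      nlinarith [mul_le_mul_of_nonneg_right h4 (sq_nonneg (L t : ℝ)), sq_nonneg d']
    have hs0 : 0 < √(((K0 * (L t)^2 : ℕ) : ℝ) + 1) := by positivity
    rw [← mul_div_assoc, div_le_iff₀ (by positivity)]
    rw [div_le_iff₀ hdp] at hs
    nlinarith
  calc l1 (A t ^ (l' t) - A t ^ (l' t + 1))
      ≤ l1 (A t ^ (l' t) - r ^ (l' t)) + l1 (r ^ (l' t) - A t ^ (l' t + 1)) := l1_triangle _ _ _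
    _ ≤ l1 (A t ^ (l' t) - r ^ (l' t)) + (l1 (r ^ (l' t) - r ^ (l' t + 1))
        + l1 (r ^ (l' t + 1) - A t ^ (l' t + 1))) := by
        have := l1_triangle (r ^ (l' t)) (r ^ (l' t + 1)) (A t ^ (l' t + 1))
        linarith
    _ ≤ 1/4 + ((1/4 + 1/4) + 1/4) := by
        have a1 := hclose (l' t) (by omega)
        have a2 := hclose (l' t + 1) le_rfl
        rw [l1_sub_comm] at a2
        linarith
    _ ≤ 2 - 2 * (1/2) := by norm_num

end Vale.Agent.P321S
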