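import Mathlib
import Vale.Agent.P321S.OvNext

namespace Vale.Agent.P321S

open MonoidAlgebra Finset Filter

variable {M : Type*} [Monoid M]

lemma PrO.T {a b : ℕ → Al M} (ha : PrO a) (hb : PrO b) (k : ℕ) : PrO (fun t => T k (a t) (b t)) := by
  filter_upwards [ha, hb] with t h1 h2 using Pr.T h1 h2 k

/-- bare bounds for families -/
theorem bareO {u a b : ℕ → Al M} {hx tx : ℕ} (hu : PrO u) (hd : DO hx (fun t => dd 0 (a t) (b t)) u)
    (ht : DO tx (fun t => RR (u t) (a t) (b t) 0) u) (htx : tx ≤ 2*hx) (k : ℕ) :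
    DO tx (fun t => RR (u t) (a t) (b t) k) (fun t => u t ^ (2^k)) ∧
    DO hx (fun t => dd k (a t) (b t)) (fun t => u t ^ (2^k)) ∧
    DO (hx+tx) (fun t => EE (u t) (a t) (b t) k) (fun t => u t ^ (2^k)) := by
  induction k with
  | zero =>
    have e : ∀ t, u t = u t ^ (2^0) := fun t => by simp
    refine ⟨ht.congr' (fun t => rfl) e, hd.congr' (fun t => rfl) e, ?_⟩
    exact (DO.zero _ hu.nn).congr' (fun t => (EE_zero _ _ _).symm) e
  | succ k ih =>
    obtain ⟨i1, i2, i3⟩ := ih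
    have pu : PrO (fun t => u t ^ (2^k)) := hu.pow (fun _ => 2^k)
    have hU := DO.self pu
    have hRe : ∀ t, u t ^ (2^k) * u t ^ (2^k) = u t ^ (2^(k+1)) := fun t => (pow_two_succ _ _).symm
    have nn2 : NnO (fun t => u t ^ (2^k) * u t ^ (2^k)) := pu.nn.mul pu.nn
    have hm : DO 0 (fun t => mm k (a t) (b t)) (fun t => u t ^ (2^k)) :=
      (hU.add (i1.mono pu.nn (Nat.zero_le _))).congr' (fun t => (mm_eq _ _ _ _).symm) (fun t => rfl)
    refine ⟨?_, ?_, ?_⟩
    · have a1 := (hU.mul i1 pu.nn).mono nn2 (show tx ≤ 0 + tx by omega)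
      have a2 := (i1.mul hU pu.nn).mono nn2 (show tx ≤ tx + 0 by omega)
      have a3 := (i1.mul i1 pu.nn).mono nn2 (show tx ≤ tx + tx by omega)
      have a4 := (i2.mul i2 pu.nn).mono nn2 (show tx ≤ hx + hx by omega)
      exact ((a1.add a2).add (a3.sub a4)).congr' (fun t => (RR_succ _ _ _ _).symm) hRe
    · have a1 := (i2.mul hm pu.nn).mono nn2 (show hx ≤ hx + 0 by omega)
      have a2 := (hm.mul i2 pu.nn).mono nn2 (show hx ≤ 0 + hx by omega)
      exact (a1.sub a2).congr' (fun t => (dd_succ _ _ _).symm) hRe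
    · have a1 := (i3.mul hU pu.nn).mono nn2 (show hx+tx ≤ hx+tx + 0 by omega)
      have a2 := (hU.mul i3 pu.nn).mono nn2 (show hx+tx ≤ 0 + (hx+tx) by omega)
      have a3 := (i2.mul i1 pu.nn).mono nn2 (show hx+tx ≤ hx+tx by omega)
      have a4 := (i1.mul i2 pu.nn).mono nn2 (show hx+tx ≤ tx+hx by omega)
      exact ((a1.sub a2).add (a3.sub a4)).congr' (fun t => (EE_succ _ _ _ _).symm) hRe

/-- pointwise bounds for families -/
theorem pboO {u a b : ℕ → Al M} (hu : PrO u) (ha : PBO a u) (hb : PBO b u) (k : ℕ) :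
    PBO (fun t => T k (a t) (b t)) (fun t => u t ^ (2^k)) ∧
    PBO (fun t => dd k (a t) (b t)) (fun t => u t ^ (2^k)) ∧
    PBO (fun t => RR (u t) (a t) (b t) k) (fun t => u t ^ (2^k)) ∧
    PBO (fun t => cc (u t) (a t) (b t) k) (fun t => u t ^ (2^k)) ∧
    PBO (fun t => EE (u t) (a t) (b t) k) (fun t => u t ^ (2^k)) := by
  obtain ⟨C, hC, ha⟩ := ha
  obtain ⟨C', hC', hb⟩ := hb
  set K := max C C' with hK
  have hK0 : 0 ≤ K := le_max_of_le_left hC
  have key : ∀ᶠ t in atTop, Pr (u t) ∧ PB K (a t) (u t) ∧ PB K (b t) (u t) := by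
    filter_upwards [hu, ha, hb] with t h1 h2 h3
    exact ⟨h1, h2.mono h1.nn (le_max_left _ _), h3.mono h1.nn (le_max_right _ _)⟩
  refine ⟨⟨K^(2^k), by positivity, ?_⟩, ⟨K^(2^k), by positivity, ?_⟩,
    ⟨K^(2^k)+1, by positivity, ?_⟩, ⟨2^k*K, by positivity, ?_⟩,
    ⟨K^(2^k)+2^k*K, by positivity, ?_⟩⟩
  · filter_upwards [key] with t h using PB.T h.1 h.2.1 h.2.2 hK0 k
  · filter_upwards [key] with t h using PB.dd h.1 h.2.1 h.2.2 hK0 k
  · filter_upwards [key] with t h using PB.RR h.1 h.2.1 h.2.2 hK0 k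
  · filter_upwards [key] with t h using PB.cc h.1 h.2.1 h.2.2 hK0 k
  · filter_upwards [key] with t h using PB.EE h.1 h.2.1 h.2.2 hK0 k

/-- two sided comparison of the words with the medium -/
lemma T_leO {u a b : ℕ → Al M} (hu : PrO u) (ha : PrO a) (hb : PrO b) (h1 : LeO a u) (h2 : LeO b u)
    (k : ℕ) : LeO (fun t => T k (a t) (b t)) (fun t => u t ^ (2^k)) := by
  induction k generalizing a b with
  | zero => exact h1.congr (Eventually.of_forall (fun t => rfl)) (Eventually.of_forall (fun t => by simp))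
  | succ k ih =>
    refine ((ih ha hb h1 h2).mul (ih hb ha h2 h1) (PrO.T hb ha k).nn (hu.pow (fun _ => 2^k)).nn).congr
      (Eventually.of_forall (fun t => rfl)) (Eventually.of_forall (fun t => (pow_two_succ _ _).symm))

lemma T_geO {u a b : ℕ → Al M} (hu : PrO u) (ha : PrO a) (hb : PrO b) (h1 : LeO u a) (h2 : LeO u b)
    (k : ℕ) : LeO (fun t => u t ^ (2^k)) (fun t => T k (a t) (b t)) := by
  induction k generalizing a b with
  | zero => exact h1.congr (Eventually.of_forall (fun t => by simp)) (Eventually.of_forall (fun t => rfl))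
  | succ k ih =>
    refine ((ih ha hb h1 h2).mul (ih hb ha h2 h1) (hu.pow (fun _ => 2^k)).nn (PrO.T ha hb k).nn).congr
      (Eventually.of_forall (fun t => (pow_two_succ _ _).symm)) (Eventually.of_forall (fun t => rfl))

/-- nested slips for families -/
theorem nestedO {u a b : ℕ → Al M} {l : ℕ → ℕ} {hx : ℕ} (hO : OvO u l)
    (hd0 : DO hx (fun t => dd 0 (a t) (b t)) u) (J : ℕ) (α : ℕ → ℕ)
    (hα : ∀ᶠ t in atTop, J * ((2*t+1) * l t + t) ≤ α t) :
    DO (hx + J) (fun t => u t ^ (α t) * cc (u t) (a t) (b t) J * u t ^ (α t))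
      (fun t => u t ^ (2 * α t + 2^J)) := by
  obtain ⟨d, hd, hO⟩ := hO
  obtain ⟨C, hC, hd0⟩ := hd0
  refine ⟨(4^J * 16 / d^4)^J * C, by positivity, ?_⟩
  filter_upwards [hO, hd0, hα, ev_one_le] with t ho h0 ha ht1
  obtain ⟨d', Cu, hdd, ho⟩ := ho
  have ht : (0:ℝ) < t := by linarith
  have hdp : 0 < d' := ho.pos
  have key := nested ho h0 (by positivity) J t _ rfl J le_rfl
  set β := (2*t+1)*(l t)+t with hβ
  have hx0 : 0 ≤ (4^J * (16 / ((2*(t:ℝ)+3) * d'^4)))^J * (C / (t:ℝ)^hx) := by positivity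
  have key2 := key.pr_sandwich (ho.prU.nn.pow _) hx0 (ho.prU.pow (α t - J*β)) (ho.prU.pow (α t - J*β))
  have eF : u t ^ (α t - J*β) * (u t ^ (J*β) * cc (u t) (a t) (b t) J * u t ^ (J*β))
      * u t ^ (α t - J*β) = u t ^ (α t) * cc (u t) (a t) (b t) J * u t ^ (α t) := by
    have e1 : u t ^ (α t) = u t ^ (α t - J*β) * u t ^ (J*β) := by rw [← pow_add]; congr 1; omega
    have e2 : u t ^ (α t) = u t ^ (J*β) * u t ^ (α t - J*β) := by rw [← pow_add]; congr 1; omega
    calc _ = (u t ^ (α t - J*β) * u t ^ (J*β)) * cc (u t) (a t) (b t) J *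
          (u t ^ (J*β) * u t ^ (α t - J*β)) := by noncomm_ring
      _ = _ := by rw [← e1, ← e2]
  have eR : u t ^ (α t - J*β) * u t ^ (2*(J*β) + 2^J) * u t ^ (α t - J*β)
      = u t ^ (2 * α t + 2^J) := by
    rw [← pow_add, ← pow_add]; congr 1; omega
  rw [eF, eR] at key2
  refine key2.mono (ho.prU.nn.pow _) ?_
  have hd4 : d^4 ≤ d'^4 := pow_le_pow_left₀ hd.le hdd 4
  have p1 : 4^J * (16 / ((2*(t:ℝ)+3) * d'^4)) ≤ (4^J * 16 / d^4) / t := by
    have : 16 / ((2*(t:ℝ)+3) * d'^4) ≤ 16 / (t * d^4) := by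
      apply div_le_div_of_nonneg_left (by norm_num) (by positivity)
      apply mul_le_mul (by linarith) hd4 (by positivity) (by positivity)
    calc 4^J * (16 / ((2*(t:ℝ)+3) * d'^4)) ≤ 4^J * (16 / (t * d^4)) :=
          mul_le_mul_of_nonneg_left this (by positivity)
      _ = (4^J * 16 / d^4) / t := by field_simp
  have p2 : (4^J * (16 / ((2*(t:ℝ)+3) * d'^4)))^J ≤ ((4^J * 16 / d^4) / t)^J :=
    pow_le_pow_left₀ (by positivity) p1 J
  calc (4^J * (16 / ((2*(t:ℝ)+3) * d'^4)))^J * (C / (t:ℝ)^hx)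
      ≤ ((4^J * 16 / d^4) / t)^J * (C / (t:ℝ)^hx) := mul_le_mul_of_nonneg_right p2 (by positivity)
    _ = (4^J * 16 / d^4)^J * C / (t:ℝ)^(hx+J) := by
        rw [div_pow, pow_add]; field_simp

end Vale.Agent.P321S
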