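import Mathlib
import Vale.Agent.P321S.MorseO

namespace Vale.Agent.P321S

open MonoidAlgebra Finset Filter

variable {M : Type*} [Monoid M]

/-- data of one level of the construction -/
structure LevO (J N Λ cx kx hx : ℕ) (u A B : ℕ → Al M) (l α : ℕ → ℕ) (K δ₁ : ℕ → Al M) : Prop where
  ov : OvO u l
  hl : NO l Λ
  hα : NO α (Λ+1)
  lα : ∀ᶠ t in atTop, l t ≤ α t
  prA : PrO A
  prB : PrO B
  leA : LeO A (fun t => u t ^ (2 * α t + 2^J))
  geA : LeO (fun t => u t ^ (2 * α t + 2^J)) A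
  AB : LeO A B
  BA : LeO B A
  rho : DO cx (fun t => A t - u t ^ (2 * α t + 2^J)) (fun t => u t ^ (2 * α t + 2^J))
  del : ∀ t, (1/2:ℝ) • (A t - B t) = δ₁ t + u t ^ α t * K t * u t ^ α t
  neg : DO N δ₁ (fun t => u t ^ (2 * α t + 2^J))
  mK : MzO K
  kap : DO kx K (fun t => u t ^ (2^J))
  pbK : PBO K (fun t => u t ^ (2^J))
  hh : DO hx (fun t => (1/2:ℝ) • (A t - B t)) (fun t => u t ^ (2 * α t + 2^J))

/-- hidden boundedness: `F` is small when flanked by long powers of `A` on both sides, even when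
followed by another cluster -/
def HBO (A : ℕ → Al M) (p₀ : ℕ → ℕ) (N k w : ℕ) (F : ℕ → Al M) : Prop :=
  ∀ (p p' : ℕ → ℕ) (v yk : ℕ) (Y : ℕ → Al M), (∀ᶠ t in atTop, p₀ t ≤ p t) →
    (∀ᶠ t in atTop, p₀ t ≤ p' t) → DO yk Y (fun t => A t ^ v) → PBO Y (fun t => A t ^ v) →
    DO (min (k+yk) N) (fun t => A t ^ (p t) * (F t * Y t) * A t ^ (p' t))
      (fun t => A t ^ (p t + (w+v) + p' t))

/-- the key lemma -/
theorem keyO {J N Λ cx kx hx : ℕ} {u A B : ℕ → Al M} {l α : ℕ → ℕ} {K δ₁ : ℕ → Al M}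
    (h : LevO J N Λ cx kx hx u A B l α K δ₁) (G : ℕ) (hG : 2 ≤ G) (hcx : 4*G ≤ cx+1)
    (hN : kx ≤ N) :
    HBO A (fun t => (2^J+4) * t^(3*G)) N (kx+G-1) 1 (fun t => (1/2:ℝ) • (A t - B t)) := by
  intro p p' v yk Y hp hp' hY hB
  have pu := h.ov.pr
  set r : ℕ → Al M := fun t => u t ^ (2 * α t + 2^J) with hr
  have prr : PrO r := pu.pow _
  have prA := h.prA
  set δ : ℕ → Al M := fun t => (1/2:ℝ) • (A t - B t) with hδ
  set δ₂ : ℕ → Al M := fun t => u t ^ α t * K t * u t ^ α t with hδ₂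
  set n : ℕ → ℕ := fun t => (2^J+4) * t^(3*G) with hn
  have hNn : NO n (3*G) := by
    have := (NO.const (2^J+4)).mul (NO.tpow (3*G))
    rwa [zero_add] at this
  have hGc : 3*G < cx := by omega
  -- r - A relative to A
  have hrA : DO cx (fun t => r t - A t) A := by
    have := (h.rho.neg).ref h.geA
    exact this.congr' (fun t => by simp [hr]) (fun t => rfl)
  have hd2r : DO kx δ₂ r := by
    have := h.kap.pr_sandwich (pu.pow _).nn (pu.pow α) (pu.pow α)
    refine this.congr' (fun t => rfl) (fun t => ?_)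
    rw [hr, ← pow_add, ← pow_add]; congr 1; ring
  have hd2A : DO kx δ₂ A := hd2r.ref h.geA
  have hd1A : DO N δ₁ A := h.neg.ref h.geA
  have hdA : DO kx δ A := by
    have := (hd1A.mono prA.nn hN).add hd2A
    exact this.congr' (fun t => (h.del t).symm) (fun t => rfl)
  have prAn : PrO (fun t => A t ^ (n t)) := prA.pow n
  have prrn : PrO (fun t => r t ^ (n t)) := prr.pow n
  have prAv : PrO (fun t => A t ^ v) := prA.pow (fun _ => v)
  have prAA : PrO (fun t => A t * A t ^ v) := prA.mul prAv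
  -- the reference
  have hRef : ∀ t, A t ^ (n t) * (A t * A t ^ v) * A t ^ (n t) = A t ^ (n t + (1+v) + n t) := by
    intro t
    rw [pow_add, pow_add, pow_add, pow_one]
  have nnRef : NnO (fun t => A t ^ (n t) * (A t * A t ^ v) * A t ^ (n t)) :=
    ((prAn.mul prAA).mul prAn).nn
  have powS := powSubO prr prA hrA hNn hGc
  have powR := powRefO prr prA hrA hNn hGc
  -- term 1
  have t1 : DO (min (kx+G-1+yk) N)
      (fun t => -(r t ^ (n t) - A t ^ (n t)) * (δ t * Y t) * A t ^ (n t))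
      (fun t => A t ^ (n t + (1+v) + n t)) := by
    have a := ((powS.neg).mul (hdA.mul hY prA.nn) prAn.nn).mul (DO.self prAn) (prAn.mul prAA).nn
    exact (a.mono nnRef (by omega)).congr' (fun t => rfl) hRef
  have t2 : DO (min (kx+G-1+yk) N)
      (fun t => r t ^ (n t) * (δ₁ t * Y t) * A t ^ (n t))
      (fun t => A t ^ (n t + (1+v) + n t)) := by
    have a := (powR.mul (hd1A.mul hY prA.nn) prAn.nn).mul (DO.self prAn) (prAn.mul prAA).nn
    exact (a.mono nnRef (by omega)).congr' (fun t => rfl) hRef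
  have t3 : DO (min (kx+G-1+yk) N)
      (fun t => r t ^ (n t) * (δ₂ t * Y t) * (-(r t ^ (n t) - A t ^ (n t))))
      (fun t => A t ^ (n t + (1+v) + n t)) := by
    have a := (powR.mul (hd2A.mul hY prA.nn) prAn.nn).mul powS.neg (prAn.mul prAA).nn
    exact (a.mono nnRef (by omega)).congr' (fun t => rfl) hRef
  have t4 : DO (min (kx+G-1+yk) N)
      (fun t => r t ^ (n t) * (δ₂ t * Y t) * r t ^ (n t))
      (fun t => A t ^ (n t + (1+v) + n t)) := by
    have leAv : LeO (fun t => A t ^ v) (fun t => r t ^ v) := h.leA.pow prA.nn prr.nn v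
    have hYr := hY.ref leAv
    have hBr := hB.ref leAv
    -- Y' = u^α Y
    have hY' : DO yk (fun t => u t ^ (α t) * Y t) (fun t => u t ^ (α t + (2 * α t + 2^J) * v)) := by
      have := hYr.pr_left (pu.pow α)
      refine this.congr' (fun t => rfl) (fun t => ?_)
      rw [hr, ← pow_mul, ← pow_add]
    have hb1 : ∀ᶠ t in atTop, (2^J+4) * t^(3*G) * (l t + 1) ≤ (2 * α t + 2^J) * n t + α t := by
      filter_upwards [h.lα] with t ht
      have hJ : 1 ≤ 2^J := Nat.one_le_two_pow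
      have : l t + 1 ≤ 2 * α t + 2^J := by omega
      calc (2^J+4) * t^(3*G) * (l t + 1) = (l t + 1) * n t := by rw [hn]; ring
        _ ≤ (2 * α t + 2^J) * n t := Nat.mul_le_mul_right _ this
        _ ≤ _ := Nat.le_add_right _ _
    have hb2 : ∀ᶠ t in atTop, (2^J+4) * t^(3*G) * (l t + 1) ≤ (2 * α t + 2^J) * n t := by
      filter_upwards [h.lα] with t ht
      have hJ : 1 ≤ 2^J := Nat.one_le_two_pow
      have : l t + 1 ≤ 2 * α t + 2^J := by omega
      calc (2^J+4) * t^(3*G) * (l t + 1) = (l t + 1) * n t := by rw [hn]; ring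
        _ ≤ (2 * α t + 2^J) * n t := Nat.mul_le_mul_right _ this
    have hid := hiddenO (G := G) h.ov h.mK h.kap hY' (fun t => (2 * α t + 2^J) * n t + α t)
      (fun t => (2 * α t + 2^J) * n t) hb1 hb2
    have hid2 : DO (kx+yk+G) (fun t => r t ^ (n t) * (δ₂ t * Y t) * r t ^ (n t))
        (fun t => r t ^ (n t + (1+v) + n t)) := by
      refine hid.congr' (fun t => ?_) (fun t => ?_)
      · have e1 : u t ^ ((2 * α t + 2^J) * n t + α t) = r t ^ (n t) * u t ^ (α t) := by
          rw [hr, pow_add, pow_mul]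
        have e2 : u t ^ ((2 * α t + 2^J) * n t) = r t ^ (n t) := by rw [hr, pow_mul]
        rw [e1, e2, hδ₂]; noncomm_ring
      · rw [hr, ← pow_mul]; congr 1; ring
    have hpb : PBO (fun t => r t ^ (n t) * (δ₂ t * Y t) * r t ^ (n t))
        (fun t => r t ^ (n t + (1+v) + n t)) := by
      have b1 : PBO δ₂ r := by
        have := h.pbK.sandwich (pu.pow _).nn (pu.pow α).nn (pu.pow α).nn
        refine this.congr' (fun t => rfl) (fun t => ?_)
        rw [hr, ← pow_add, ← pow_add]; congr 1; ring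
      have b2 := (b1.mul hBr prr.nn).sandwich (prr.mul (prr.pow (fun _ => v))).nn prrn.nn prrn.nn
      refine b2.congr' (fun t => rfl) (fun t => ?_)
      rw [pow_add, pow_add, pow_add, pow_one]
    have hN2 : NO (fun t => n t + (1+v) + n t) (3*G) :=
      (hNn.add ((NO.const (1+v)).mono (by omega))).add hNn
    have := refChangeO prr prA h.geA hrA hN2 hGc (by omega : 1 ≤ kx+yk+G) hid2 hpb
    exact this.mono (prA.pow _).nn (by omega)
  have tot := ((t1.add t2).add t3).add t4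
  have core : DO (min (kx+G-1+yk) N) (fun t => A t ^ (n t) * (δ t * Y t) * A t ^ (n t))
      (fun t => A t ^ (n t + (1+v) + n t)) := by
    refine tot.congr' (fun t => ?_) (fun t => rfl)
    have e : δ t = δ₁ t + δ₂ t := h.del t
    rw [e]; noncomm_ring
  -- extend
  have ext := core.pr_sandwich (prA.pow _).nn (prA.pow (fun t => p t - n t))
    (prA.pow (fun t => p' t - n t))
  refine ext.congr ?_ ?_
  · filter_upwards [hp, hp'] with t h1 h2
    have e1 : A t ^ (p t) = A t ^ (p t - n t) * A t ^ (n t) := by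
      rw [← pow_add]; congr 1; exact (Nat.sub_add_cancel h1).symm
    have e2 : A t ^ (p' t) = A t ^ (n t) * A t ^ (p' t - n t) := by
      rw [← pow_add]; congr 1; exact (Nat.add_sub_cancel' h2).symm
    rw [e1, e2]; noncomm_ring
  · filter_upwards [hp, hp'] with t h1 h2
    rw [← pow_add, ← pow_add]; congr 1
    have h1' : n t ≤ p t := h1
    have h2' : n t ≤ p' t := h2
    omega

lemma HBO.congr {A : ℕ → Al M} {p₀ : ℕ → ℕ} {N k w : ℕ} {F F' : ℕ → Al M} (h : HBO A p₀ N k w F)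
    (e : ∀ t, F t = F' t) : HBO A p₀ N k w F' := by
  have : F = F' := funext e
  rwa [← this]

lemma HBO.mono {A : ℕ → Al M} {p₀ : ℕ → ℕ} {N k k' w : ℕ} {F : ℕ → Al M} (hA : PrO A)
    (h : HBO A p₀ N k w F) (hk : k' ≤ k) : HBO A p₀ N k' w F := by
  intro p p' v yk Y hp hp' hY hB
  exact (h p p' v yk Y hp hp' hY hB).mono (hA.pow _).nn (by omega)

lemma HBO.zero {A : ℕ → Al M} {p₀ : ℕ → ℕ} {N k w : ℕ} (hA : PrO A) :
    HBO A p₀ N k w (fun _ => (0 : Al M)) := by
  intro p p' v yk Y hp hp' hY hB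
  exact (DO.zero _ (hA.pow _).nn).congr' (fun t => by simp) (fun t => rfl)

lemma HBO.add {A : ℕ → Al M} {p₀ : ℕ → ℕ} {N k w : ℕ} {F G : ℕ → Al M}
    (h : HBO A p₀ N k w F) (h' : HBO A p₀ N k w G) : HBO A p₀ N k w (fun t => F t + G t) := by
  intro p p' v yk Y hp hp' hY hB
  exact ((h p p' v yk Y hp hp' hY hB).add (h' p p' v yk Y hp hp' hY hB)).congr'
    (fun t => by noncomm_ring) (fun t => rfl)

lemma HBO.sub {A : ℕ → Al M} {p₀ : ℕ → ℕ} {N k w : ℕ} {F G : ℕ → Al M}
    (h : HBO A p₀ N k w F) (h' : HBO A p₀ N k w G) : HBO A p₀ N k w (fun t => F t - G t) := by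
  intro p p' v yk Y hp hp' hY hB
  exact ((h p p' v yk Y hp hp' hY hB).sub (h' p p' v yk Y hp hp' hY hB)).congr'
    (fun t => by noncomm_ring) (fun t => rfl)

lemma HBO.neg {A : ℕ → Al M} {p₀ : ℕ → ℕ} {N k w : ℕ} {F : ℕ → Al M}
    (h : HBO A p₀ N k w F) : HBO A p₀ N k w (fun t => - F t) := by
  intro p p' v yk Y hp hp' hY hB
  exact ((h p p' v yk Y hp hp' hY hB).neg).congr' (fun t => by noncomm_ring) (fun t => rfl)

/-- multiply on the right by a bounded cluster -/
lemma HBO.mul_right {A : ℕ → Al M} {p₀ : ℕ → ℕ} {N k w w' g : ℕ} {F G : ℕ → Al M} (hA : PrO A)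
    (h : HBO A p₀ N k w F) (hG : DO g G (fun t => A t ^ w')) (hG' : PBO G (fun t => A t ^ w')) :
    HBO A p₀ N (k+g) (w+w') (fun t => F t * G t) := by
  intro p p' v yk Y hp hp' hY hB
  have h1 : DO (g+yk) (fun t => G t * Y t) (fun t => A t ^ (w'+v)) :=
    (hG.mul hY (hA.pow _).nn).congr' (fun t => rfl) (fun t => (pow_add _ _ _).symm)
  have h2 : PBO (fun t => G t * Y t) (fun t => A t ^ (w'+v)) :=
    (hG'.mul hB (hA.pow _).nn).congr' (fun t => rfl) (fun t => (pow_add _ _ _).symm)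
  have := h p p' (w'+v) (g+yk) _ hp hp' h1 h2
  have e : k + (g+yk) = k+g+yk := by ring
  rw [e] at this
  refine this.congr' (fun t => by noncomm_ring) (fun t => ?_)
  congr 1; ring

/-- multiply on the left by a fixed power -/
lemma HBO.mul_left {A : ℕ → Al M} {p₀ : ℕ → ℕ} {N k w : ℕ} {F : ℕ → Al M}
    (h : HBO A p₀ N k w F) (c : ℕ) : HBO A p₀ N k (c+w) (fun t => A t ^ c * F t) := by
  intro p p' v yk Y hp hp' hY hB
  have := h (fun t => p t + c) p' v yk Y (hp.mono (fun t ht => ht.trans (Nat.le_add_right _ _)))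
    hp' hY hB
  refine this.congr' (fun t => ?_) (fun t => ?_)
  · rw [pow_add]; noncomm_ring
  · congr 1; ring

/-- hidden boundedness of all the Morse clusters -/
theorem hboMorse {A B : ℕ → Al M} {p₀ : ℕ → ℕ} {N kb hx : ℕ} (hA : PrO A)
    (BA : LeO B A) (hB : PrO B)
    (hd : DO hx (fun t => (1/2:ℝ) • (A t - B t)) A)
    (hH : HBO A p₀ N kb 1 (fun t => (1/2:ℝ) • (A t - B t))) (k : ℕ) :
    HBO A p₀ N kb (2^k) (fun t => RR (A t) (A t) (B t) k) ∧
    HBO A p₀ N kb (2^k) (fun t => dd k (A t) (B t)) ∧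
    HBO A p₀ N (kb+hx) (2^k) (fun t => EE (A t) (A t) (B t) k) := by
  have hdd0 : ∀ t, dd 0 (A t) (B t) = (1/2:ℝ) • (A t - B t) := fun t => rfl
  have hRR0 : ∀ t, RR (A t) (A t) (B t) 0 = -((1/2:ℝ) • (A t - B t)) := by
    intro t
    unfold RR mm T
    rw [pow_zero, pow_one]
    have : A t = (1/2:ℝ) • (A t + A t) := by rw [← two_smul ℝ, smul_smul]; norm_num
    calc (1/2:ℝ) • (A t + B t) - A t = (1/2:ℝ) • (A t + B t) - (1/2:ℝ) • (A t + A t) := by
          rw [← this]
      _ = -((1/2:ℝ) • (A t - B t)) := by rw [← smul_sub, ← smul_neg]; congr 1; abel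
  have hbare := bareO hA (hd.congr' (fun t => (hdd0 t).symm) (fun t => rfl))
    ((hd.neg).congr' (fun t => (hRR0 t).symm) (fun t => rfl)) (by omega : hx ≤ 2*hx)
  have hpb := pboO hA (PBO.self hA.nn) (PBO.of_le hB.nn BA)
  induction k with
  | zero =>
    refine ⟨?_, ?_, ?_⟩
    · exact hH.neg.congr (fun t => (hRR0 t).symm)
    · exact hH.congr (fun t => (hdd0 t).symm)
    · exact (HBO.zero hA).congr (fun t => (EE_zero _ _ _).symm)
  | succ k ih =>
    obtain ⟨i1, i2, i3⟩ := ih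
    obtain ⟨b1, b2, b3⟩ := hbare k
    obtain ⟨_, q2, q1, _, q3⟩ := hpb k
    have e2 : 2^(k+1) = 2^k + 2^k := by ring
    rw [e2]
    have pu : PrO (fun t => A t ^ (2^k)) := hA.pow (fun _ => 2^k)
    have hU := DO.self pu
    have qU := PBO.self pu.nn
    refine ⟨?_, ?_, ?_⟩
    · have a1 := i1.mul_left (2^k)
      have a2 := i1.mul_right hA hU qU
      have a3 := (i1.mul_right hA b1 q1).mono hA (show kb ≤ kb + hx by omega)
      have a4 := (i2.mul_right hA b2 q2).mono hA (show kb ≤ kb + hx by omega)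
      exact ((a1.add a2).add (a3.sub a4)).congr (fun t => (RR_succ _ _ _ _).symm)
    · -- dd mm - mm dd with mm = u^{2^k} + RR
      have a1 := i2.mul_right hA hU qU
      have a2 := (i2.mul_right hA b1 q1).mono hA (show kb ≤ kb + hx by omega)
      have a3 := i2.mul_left (2^k)
      have a4 := (i1.mul_right hA b2 q2).mono hA (show kb ≤ kb + hx by omega)
      refine ((a1.add a2).sub (a3.add a4)).congr (fun t => ?_)
      rw [dd_succ, mm_eq (A t) (A t) (B t) k]; noncomm_ring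
    · have a1 := i3.mul_right hA hU qU
      have a2 := i3.mul_left (2^k)
      have a3 := i2.mul_right hA b1 q1
      have a4 := i1.mul_right hA b2 q2
      exact ((a1.sub a2).add (a3.sub a4)).congr (fun t => (EE_succ _ _ _ _).symm)

end Vale.Agent.P321S
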