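import Mathlib
import Vale.Agent.P321S.LevelStep

namespace Vale.Agent.P321S

open MonoidAlgebra Finset Filter

variable {M : Type*} [Monoid M]

/-- assembling the data of a level -/
theorem mkLevel {J N Λ cx kx hx h0 : ℕ} {u a b : ℕ → Al M} {l α : ℕ → ℕ}
    (hO : OvO u l) (hl : NO l Λ) (hα : NO α (Λ+1)) (lα : ∀ᶠ t in atTop, l t ≤ α t)
    (hαJ : ∀ᶠ t in atTop, J * ((2*t+1) * l t + t) ≤ α t)
    (ha : PrO a) (hb : PrO b) (au : LeO a u) (bu : LeO b u) (ua : LeO u a) (ub : LeO u b)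
    (hd0 : DO h0 (fun t => dd 0 (a t) (b t)) u) (hN : N ≤ h0 + J) (hhN : hx ≤ N)
    (hc : DO cx (fun t => u t ^ (α t) * (RR (u t) (a t) (b t) J + dd J (a t) (b t)) * u t ^ (α t))
      (fun t => u t ^ (2 * α t + 2^J)))
    (hk : DO kx (fun t => EE (u t) (a t) (b t) J) (fun t => u t ^ (2^J)))
    (hh : DO hx (fun t => u t ^ (α t) * EE (u t) (a t) (b t) J * u t ^ (α t))
      (fun t => u t ^ (2 * α t + 2^J))) :
    LevO J N Λ cx kx hx u (fun t => u t ^ (α t) * T J (a t) (b t) * u t ^ (α t))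
      (fun t => u t ^ (α t) * T J (b t) (a t) * u t ^ (α t)) l α
      (fun t => EE (u t) (a t) (b t) J)
      (fun t => u t ^ (α t) * cc (u t) (a t) (b t) J * u t ^ (α t)) := by
  have pu := hO.pr
  have puα : PrO (fun t => u t ^ (α t)) := pu.pow α
  have hRe : ∀ t, u t ^ (α t) * u t ^ (2^J) * u t ^ (α t) = u t ^ (2 * α t + 2^J) := by
    intro t; rw [← pow_add, ← pow_add]; congr 1; ring
  have pT := PrO.T ha hb J
  have pT' := PrO.T hb ha J
  have pJ : PrO (fun t => u t ^ (2^J)) := pu.pow (fun _ => 2^J)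
  have sand : ∀ {F R : ℕ → Al M}, NnO F → NnO R → LeO F R →
      LeO (fun t => u t ^ (α t) * F t * u t ^ (α t)) (fun t => u t ^ (α t) * R t * u t ^ (α t)) := by
    intro F R hF hR h
    exact ((LeO.refl _).mul h hF puα.nn).mul (LeO.refl _) puα.nn (puα.nn.mul hR)
  have hdel : ∀ t, (1/2:ℝ) • (u t ^ (α t) * T J (a t) (b t) * u t ^ (α t)
      - u t ^ (α t) * T J (b t) (a t) * u t ^ (α t))
      = u t ^ (α t) * cc (u t) (a t) (b t) J * u t ^ (α t)
        + u t ^ (α t) * EE (u t) (a t) (b t) J * u t ^ (α t) := by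
    intro t
    have e1 : u t ^ (α t) * T J (a t) (b t) * u t ^ (α t)
      - u t ^ (α t) * T J (b t) (a t) * u t ^ (α t)
      = u t ^ (α t) * (T J (a t) (b t) - T J (b t) (a t)) * u t ^ (α t) := by noncomm_ring
    rw [e1, ← smul_mul_assoc, ← mul_smul_comm]
    have e2 : (1/2:ℝ) • (T J (a t) (b t) - T J (b t) (a t)) = dd J (a t) (b t) := rfl
    have e3 : dd J (a t) (b t) = cc (u t) (a t) (b t) J + EE (u t) (a t) (b t) J := by
      unfold EE; abel
    rw [e2, e3]; noncomm_ring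
  have hneg : DO N (fun t => u t ^ (α t) * cc (u t) (a t) (b t) J * u t ^ (α t))
      (fun t => u t ^ (2 * α t + 2^J)) :=
    (nestedO hO hd0 J α hαJ).mono (pu.pow _).nn hN
  constructor
  · exact hO
  · exact hl
  · exact hα
  · exact lα
  · exact (puα.mul pT).mul puα
  · exact (puα.mul pT').mul puα
  · exact (sand pT.nn pJ.nn (T_leO pu ha hb au bu J)).congr (Eventually.of_forall (fun t => rfl))
      (Eventually.of_forall hRe)
  · exact (sand pJ.nn pT.nn (T_geO pu ha hb ua ub J)).congr (Eventually.of_forall hRe)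
      (Eventually.of_forall (fun t => rfl))
  · exact sand pT.nn pT'.nn ((T_leO pu ha hb au bu J).trans (T_geO pu hb ha ub ua J))
  · exact sand pT'.nn pT.nn ((T_leO pu hb ha bu au J).trans (T_geO pu ha hb ua ub J))
  · refine hc.congr' (fun t => ?_) (fun t => rfl)
    have e : T J (a t) (b t) = u t ^ (2^J) + (RR (u t) (a t) (b t) J + dd J (a t) (b t)) := by
      rw [T_eq, mm_eq (u t) (a t) (b t) J]; abel
    rw [e, ← hRe t]; noncomm_ring
  · exact hdel
  · exact hneg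
  · filter_upwards [ha, hb] with t h1 h2 using mass_EE h1 h2 J
  · exact hk
  · exact (pboO pu (PBO.of_le ha.nn au) (PBO.of_le hb.nn bu) J).2.2.2.2
  · have := (hneg.mono (pu.pow _).nn hhN).add hh
    exact this.congr' (fun t => (hdel t).symm) (fun t => rfl)

/-- the general step -/
theorem stepO {J N Λ cx kx hx : ℕ} {u A B : ℕ → Al M} {l α : ℕ → ℕ} {K δ₁ : ℕ → Al M}
    (h : LevO J N Λ cx kx hx u A B l α K δ₁) (G : ℕ) (hG : 2 ≤ G) (hcG : 4*G ≤ cx+1)
    (hΛ : 2*Λ+2 ≤ cx) (hΛG : 3*G ≤ 2*Λ+2) (hN : hx + (kx+G-1) ≤ N) (hNJ : N ≤ J) (hJ : 1 ≤ J) :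
    ∃ (l' α' : ℕ → ℕ) (K' δ₁' : ℕ → Al M),
      LevO J N (2*Λ+1) (kx+G-1) (2*hx) (hx+(kx+G-1)) A
        (fun t => A t ^ (α' t) * T J (A t) (B t) * A t ^ (α' t))
        (fun t => A t ^ (α' t) * T J (B t) (A t) * A t ^ (α' t)) l' α' K' δ₁' := by
  have prA := h.prA
  have hJ1 : 1 ≤ 2^J := Nat.one_le_two_pow
  obtain ⟨l', hO', hNl'⟩ := ovNext (L := fun t => 2 * α t + 2^J) h.ov h.hl
    (by
      have h1 : NO (fun t => 2 * α t) (0 + (Λ+1)) := (NO.const 2).mul h.hα
      exact (h1.mono (by omega)).add ((NO.const (2^J)).mono (by omega))) prA h.rho hΛ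
    (Eventually.of_forall (fun t => by omega))
  set p₀ : ℕ → ℕ := fun t => (2^J+4) * t^(3*G) with hp₀
  set α' : ℕ → ℕ := fun t => J * ((2*t+1) * l' t + t) + p₀ t with hα'
  have hkey := keyO h G hG hcG (by omega)
  have hdA : DO hx (fun t => (1/2:ℝ) • (A t - B t)) A := h.hh.ref h.geA
  have hM := hboMorse prA h.BA h.prB hdA hkey J
  have hdd0 : ∀ t, dd 0 (A t) (B t) = (1/2:ℝ) • (A t - B t) := fun t => rfl
  have hRR0 : ∀ t, RR (A t) (A t) (B t) 0 = -((1/2:ℝ) • (A t - B t)) := by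
    intro t
    unfold RR mm T
    rw [pow_zero, pow_one]
    have : A t = (1/2:ℝ) • (A t + A t) := by rw [← two_smul ℝ, smul_smul]; norm_num
    calc (1/2:ℝ) • (A t + B t) - A t = (1/2:ℝ) • (A t + B t) - (1/2:ℝ) • (A t + A t) := by
          rw [← this]
      _ = -((1/2:ℝ) • (A t - B t)) := by rw [← smul_sub, ← smul_neg]; congr 1; abel
  have hbare := bareO prA (hdA.congr' (fun t => (hdd0 t).symm) (fun t => rfl))
    ((hdA.neg).congr' (fun t => (hRR0 t).symm) (fun t => rfl)) (by omega : hx ≤ 2*hx) J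
  have hNα : NO α' (2*Λ+1+1) := by
    have n1 : NO (fun t => 2*t+1) 1 := by
      have h1 : NO (fun t => 2*t^1) (0+1) := (NO.const 2).mul (NO.tpow 1)
      have h2 := (h1.mono (by omega : 0+1 ≤ 1)).add ((NO.const 1).mono (by omega : 0 ≤ 1))
      refine h2.of_le (Eventually.of_forall (fun t => ?_))
      simp
    have n2 : NO (fun t => (2*t+1) * l' t) (2*Λ+1+1) := (n1.mul hNl').mono (by omega)
    have n3 : NO (fun t => t) (2*Λ+1+1) := by
      have := (NO.tpow 1).mono (by omega : 1 ≤ 2*Λ+1+1)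
      exact this.of_le (Eventually.of_forall (fun t => by simp))
    have n4 : NO (fun t => J * ((2*t+1) * l' t + t)) (2*Λ+1+1) :=
      ((NO.const J).mul (n2.add n3)).mono (by omega)
    have n5 : NO p₀ (2*Λ+1+1) := by
      have := (NO.const (2^J+4)).mul (NO.tpow (3*G))
      exact this.mono (by omega)
    exact n4.add n5
  have lα' : ∀ᶠ t in atTop, l' t ≤ α' t := by
    refine Eventually.of_forall (fun t => ?_)
    have h1 : l' t ≤ (2*t+1) * l' t := Nat.le_mul_of_pos_left _ (by omega)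
    have h2 : (2*t+1) * l' t + t ≤ J * ((2*t+1) * l' t + t) := Nat.le_mul_of_pos_left _ (by omega)
    simp only [hα']
    omega
  have hpα : ∀ᶠ t in atTop, p₀ t ≤ α' t :=
    Eventually.of_forall (fun t => Nat.le_add_left _ _)
  -- unit cluster
  have y1 : DO 0 (fun _ => (1 : Al M)) (fun t => A t ^ 0) :=
    (DO.self PrO.one).congr' (fun t => rfl) (fun t => by simp)
  have y2 : PBO (fun _ => (1 : Al M)) (fun t => A t ^ 0) :=
    (PBO.self PrO.one.nn).congr' (fun t => rfl) (fun t => by simp)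
  have nnA : NnO (fun t => A t ^ (2 * α' t + 2^J)) := (prA.pow _).nn
  have conv : ∀ {k : ℕ} {F : ℕ → Al M}, HBO A p₀ N k (2^J) F → k ≤ N →
      DO k (fun t => A t ^ (α' t) * F t * A t ^ (α' t)) (fun t => A t ^ (2 * α' t + 2^J)) := by
    intro k F hF hk
    have e := hF α' α' 0 0 _ hpα hpα y1 y2
    refine (e.congr' (fun t => ?_) (fun t => ?_)).mono nnA (show k ≤ min (k+0) N by omega)
    · rw [mul_one]
    · congr 1; ring
  refine ⟨l', α', _, _, mkLevel (h0 := hx) hO' hNl' hNα lα' ?_ prA h.prB (LeO.refl _) h.BA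
    (LeO.refl _) h.AB (hdA.congr' (fun t => (hdd0 t).symm) (fun t => rfl)) (by omega) hN ?_ ?_ ?_⟩
  · exact Eventually.of_forall (fun t => Nat.le_add_right _ _)
  · have a1 := conv hM.1 (by omega)
    have a2 := conv hM.2.1 (by omega)
    exact (a1.add a2).congr' (fun t => by noncomm_ring) (fun t => rfl)
  · exact hbare.2.2.congr' (fun t => rfl) (fun t => rfl) |>.mono (prA.pow (fun _ => 2^J)).nn (by omega)
  · exact (conv (hM.2.2.mono prA (show hx + (kx+G-1) ≤ kx+G-1+hx by omega)) hN)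

end Vale.Agent.P321S
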