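import Mathlib
import Vale.Agent.P321S.Dom
import Vale.Agent.P321S.BaseDefs

namespace Vale.Agent.P321S

open MonoidAlgebra Finset
open Vale.Agent.P321 (Letter)

/-- length of a word -/
def len (w : Wo) : ℕ := FreeMonoid.length w

@[simp] lemma len_one : len 1 = 0 := rfl
@[simp] lemma len_of (x : Letter) : len (FreeMonoid.of x) = 1 := rfl
@[simp] lemma len_mul (a b : Wo) : len (a*b) = len a + len b := FreeMonoid.length_mul a b

/-- restriction to words of length at most `m` -/
noncomputable def trn (m : ℕ) (F : Al Wo) : Al Wo :=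
  ofCoeff (F.coeff.filter (fun w => len w ≤ m))

lemma trn_coeff (m : ℕ) (F : Al Wo) (w : Wo) :
    (trn m F).coeff w = if len w ≤ m then F.coeff w else 0 := by
  unfold trn
  rw [coeff_ofCoeff, Finsupp.filter_apply]

lemma E_trn (m : ℕ) (F : Al Wo) (φ : Wo → ℝ) :
    E (trn m F) φ = E F (fun w => if len w ≤ m then φ w else 0) := by
  classical
  have h1 : (trn m F).coeff.support ⊆ F.coeff.support := by
    intro w hw
    rw [Finsupp.mem_support_iff, trn_coeff] at hw
    rw [Finsupp.mem_support_iff]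
    intro h0
    apply hw
    rw [h0]; simp
  rw [E_eq_sum _ _ h1, E_eq_sum _ _ (Finset.Subset.refl _)]
  apply Finset.sum_congr rfl
  intro w _
  rw [trn_coeff]
  split_ifs <;> simp

lemma E_trn' (m : ℕ) (F : Al Wo) (φ : Wo → ℝ) :
    E (trn m F) φ = E F (fun w => (if len w ≤ m then 1 else 0) * φ w) := by
  rw [E_trn]
  congr 1
  funext w
  split_ifs <;> simp

lemma trn_add (m : ℕ) (F G : Al Wo) : trn m (F + G) = trn m F + trn m G := by
  apply MonoidAlgebra.ext; apply Finsupp.ext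
  intro w
  rw [coeff_add, Finsupp.add_apply, trn_coeff, trn_coeff, trn_coeff, coeff_add, Finsupp.add_apply]
  split_ifs <;> simp

lemma trn_sub (m : ℕ) (F G : Al Wo) : trn m (F - G) = trn m F - trn m G := by
  apply MonoidAlgebra.ext; apply Finsupp.ext
  intro w
  rw [coeff_sub, Finsupp.sub_apply, trn_coeff, trn_coeff, trn_coeff, coeff_sub, Finsupp.sub_apply]
  split_ifs <;> simp

lemma trn_smul (m : ℕ) (r : ℝ) (F : Al Wo) : trn m (r • F) = r • trn m F := by
  apply MonoidAlgebra.ext; apply Finsupp.ext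
  intro w
  rw [coeff_smul, Finsupp.smul_apply, trn_coeff, trn_coeff, coeff_smul, Finsupp.smul_apply]
  split_ifs <;> simp

lemma Nn.trn {F : Al Wo} (h : Nn F) (m : ℕ) : Nn (trn m F) := by
  intro w
  rw [trn_coeff]
  split_ifs
  · exact h w
  · exact le_rfl

lemma Le.trn {F G : Al Wo} (h : Le F G) (m : ℕ) : Le (trn m F) (trn m G) := by
  intro w
  rw [trn_coeff, trn_coeff]
  split_ifs
  · exact h w
  · exact le_rfl

lemma trn_le {F : Al Wo} (h : Nn F) (m : ℕ) : Le (trn m F) F := by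
  intro w
  rw [trn_coeff]
  split_ifs
  · exact le_rfl
  · exact h w

lemma Dom.trn {c : ℝ} {F R : Al Wo} (h : Dom c F R) (m : ℕ) : Dom c (trn m F) (trn m R) := by
  intro φ
  rw [E_trn, E_trn]
  have := h (fun w => if len w ≤ m then φ w else 0)
  have e : (fun w => (if len w ≤ m then φ w else 0)^2) = fun w => if len w ≤ m then φ w ^ 2 else 0 := by
    funext w; split_ifs <;> simp
  rwa [e] at this

lemma Le_of_E {M : Type*} [Monoid M] {F G : Al M}
    (h : ∀ φ : M → ℝ, (∀ w, 0 ≤ φ w) → E F φ ≤ E G φ) : Le F G := by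
  apply Nn.le
  apply Nn_of_E
  intro φ hφ
  rw [E_sub]
  linarith [h φ hφ]

/-- homogeneous elements -/
def Hg (k : ℕ) (F : Al Wo) : Prop :=
  ∀ φ ψ : Wo → ℝ, (∀ w, len w = k → φ w = ψ w) → E F φ = E F ψ

lemma Hg.mul {k j : ℕ} {F G : Al Wo} (h : Hg k F) (h' : Hg j G) : Hg (k+j) (F*G) := by
  intro φ ψ hφ
  rw [E_mul, E_mul]
  apply h
  intro u hu
  apply h'
  intro v hv
  apply hφ
  rw [len_mul, hu, hv]

lemma Hg.one : Hg 0 (1 : Al Wo) := by
  intro φ ψ h
  rw [E_one, E_one]
  exact h 1 rfl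

lemma Hg.pow {F : Al Wo} (h : Hg 1 F) (k : ℕ) : Hg k (F^k) := by
  induction k with
  | zero => rw [pow_zero]; exact Hg.one
  | succ k ih => rw [pow_succ]; exact ih.mul h

lemma Hg.lt (x : Letter) : Hg 1 (lt x) := by
  intro φ ψ h
  unfold Vale.Agent.P321S.lt
  rw [E_single, E_single, h _ rfl]

lemma Hg.add {k : ℕ} {F G : Al Wo} (h : Hg k F) (h' : Hg k G) : Hg k (F+G) := by
  intro φ ψ hφ
  rw [E_add, E_add, h φ ψ hφ, h' φ ψ hφ]

lemma Hg.smul {k : ℕ} {F : Al Wo} (h : Hg k F) (r : ℝ) : Hg k (r • F) := by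
  intro φ ψ hφ
  rw [E_smul, E_smul, h φ ψ hφ]

/-- the letter part of the block `01` -/
noncomputable def nuP (q : ℝ) : Al Wo :=
  (q*(1-q)) • lt .a + (q*(1-q)) • lt .b + ((1-q)^2) • lt .c

lemma eN_split (q : ℝ) : eN q = (q^2) • (1 : Al Wo) + nuP q := by unfold eN nuP; abel

lemma nuP_hg (q : ℝ) : Hg 1 (nuP q) :=
  (((Hg.lt _).smul _).add ((Hg.lt _).smul _)).add ((Hg.lt _).smul _)

lemma nn_lt (x : Letter) : Nn (lt x) := Nn_single _ zero_le_one

lemma nuP_nn {q : ℝ} (h0 : 0 ≤ q) (h1 : q ≤ 1) : Nn (nuP q) := by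
  have : 0 ≤ 1 - q := by linarith
  exact (((nn_lt _).smul (by positivity)).add ((nn_lt _).smul (by positivity))).add
    ((nn_lt _).smul (by positivity))

lemma mass_lt (x : Letter) : mass (lt x) = 1 := by
  unfold mass lt; rw [E_single]; ring

lemma eN_pr {q : ℝ} (h0 : 0 ≤ q) (h1 : q ≤ 1) : Pr (eN q) := by
  have hp : 0 ≤ 1 - q := by linarith
  refine ⟨?_, ?_⟩
  · rw [eN_split]
    exact (Nn_one.smul (by positivity)).add (nuP_nn h0 h1)
  · unfold eN
    rw [mass_add, mass_add, mass_add, mass_smul, mass_smul, mass_smul, mass_smul, mass_one,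
      mass_lt, mass_lt, mass_lt]
    ring

lemma eX_pr {q : ℝ} (h0 : 0 ≤ q) (h1 : q ≤ 1) : Pr (eX q) := by
  have hp : 0 ≤ 1 - q := by linarith
  refine ⟨?_, ?_⟩
  · unfold eX
    exact (Nn_one.smul h0).add ((nn_lt _).smul hp)
  · unfold eX
    rw [mass_add, mass_smul, mass_smul, mass_one, mass_lt]
    ring

lemma eX_ge {q : ℝ} (h1 : q ≤ 1) : Le (q • (1 : Al Wo)) (eX q) := by
  have hp : 0 ≤ 1 - q := by linarith
  apply Nn.le
  unfold eX
  rw [add_sub_cancel_left]
  exact (nn_lt _).smul hp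

lemma eX_le {q : ℝ} (h0 : 0 < q) (h1 : q < 1) : Le (eX q) ((1/q) • eN q) := by
  have hp : 0 < 1 - q := by linarith
  apply Nn.le
  have e : (1/q) • eN q - eX q = (1-q) • lt .b + ((1-q)^2/q) • lt .c := by
    unfold eN eX
    rw [smul_add, smul_add, smul_add, smul_smul, smul_smul, smul_smul, smul_smul]
    have e1 : 1/q * q^2 = q := by field_simp
    have e2 : 1/q * (q*(1-q)) = 1-q := by field_simp
    have e3 : 1/q * (1-q)^2 = (1-q)^2/q := by ring
    rw [e1, e2, e3]; abel
  rw [e]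
  exact ((nn_lt _).smul hp.le).add ((nn_lt _).smul (by positivity))

/-- binomial expansion of the pairing -/
lemma E_eN_pow (q : ℝ) (n : ℕ) (φ : Wo → ℝ) :
    E (eN q ^ n) φ = ∑ k ∈ range (n+1), (n.choose k : ℝ) * (q^2)^(n-k) * E (nuP q ^ k) φ := by
  have hc : Commute (nuP q) ((q^2) • (1 : Al Wo)) := by
    unfold Commute SemiconjBy
    rw [mul_smul_comm, smul_mul_assoc, mul_one, one_mul]
  have e : eN q = nuP q + (q^2) • (1 : Al Wo) := by rw [eN_split]; abel
  rw [e, hc.add_pow, E_sum]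
  apply Finset.sum_congr rfl
  intro k _
  rw [smul_pow, one_pow, mul_smul_comm, mul_one]
  have : ((q^2)^(n-k) • nuP q ^ k) * ((n.choose k : ℕ) : Al Wo)
      = ((n.choose k : ℝ) * (q^2)^(n-k)) • nuP q ^ k := by
    rw [← nsmul_eq_mul', mul_smul, ← Nat.cast_smul_eq_nsmul ℝ]
  rw [this, E_smul]

/-- powers of the block are comparable on words that are not too long -/
lemma eN_pow_le {q : ℝ} (h0 : 0 ≤ q) (h1 : q ≤ 1) {n m R : ℕ} (hm : m ≤ n)
    (hR : n + 1 ≤ R * (n + 1 - m)) : Le (trn m (eN q ^ (n+1))) ((R:ℝ) • trn m (eN q ^ n)) := by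
  apply Le_of_E
  intro φ hφ
  rw [E_smul, E_trn, E_trn, E_eN_pow, E_eN_pow, Finset.mul_sum]
  set ψ : Wo → ℝ := fun w => if len w ≤ m then φ w else 0 with hψ
  have hψ0 : ∀ w, 0 ≤ ψ w := by intro w; rw [hψ]; simp only; split_ifs; exacts [hφ w, le_rfl]
  have hz : ∀ k, m < k → E (nuP q ^ k) ψ = 0 := by
    intro k hk
    have := (nuP_hg q).pow k ψ (fun _ => 0) (by
      intro w hw
      rw [hψ]; simp only
      rw [if_neg (by omega)])
    rw [this, E_zero_fun]
  rw [Finset.sum_range_succ, hz (n+1) (by omega), mul_zero, add_zero]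
  apply Finset.sum_le_sum
  intro k hk
  rw [Finset.mem_range] at hk
  by_cases hkm : m < k
  · rw [hz k hkm]; simp
  · push Not at hkm
    have hE : 0 ≤ E (nuP q ^ k) ψ := E_nonneg ((nuP_nn h0 h1).pow k) hψ0
    have hkn : k ≤ n := by omega
    -- binomial ratio
    have hch : ((n+1).choose k : ℝ) ≤ R * (n.choose k : ℝ) := by
      have h2 : (n+1).choose k * (n + 1 - k) = (n+1) * n.choose k := by
        have := Nat.add_one_mul_choose_eq n (n-k)
        have e1 : n.choose (n-k) = n.choose k := Nat.choose_symm hkn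
        have e2 : (n+1).choose (n-k+1) = (n+1).choose k := by
          have : n - k + 1 = n + 1 - k := by omega
          rw [this]; exact Nat.choose_symm (by omega)
        rw [e1, e2] at this
        have e3 : n - k + 1 = n + 1 - k := by omega
        rw [e3] at this
        exact this.symm
      have h3 : (n+1).choose k * (n+1-m) ≤ (n+1) * n.choose k := by
        rw [← h2]; exact Nat.mul_le_mul_left _ (by omega)
      have h4 : (n+1) * n.choose k ≤ (R * n.choose k) * (n+1-m) := by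
        calc (n+1) * n.choose k ≤ (R * (n+1-m)) * n.choose k := Nat.mul_le_mul_right _ hR
          _ = _ := by ring
      have h5 : (n+1).choose k ≤ R * n.choose k :=
        Nat.le_of_mul_le_mul_right (h3.trans h4) (by omega)
      exact_mod_cast h5
    have hq : (q^2)^(n+1-k) ≤ (q^2)^(n-k) := by
      apply pow_le_pow_of_le_one (by positivity) (pow_le_one₀ h0 h1)
      omega
    calc ((n+1).choose k : ℝ) * (q^2)^(n+1-k) * E (nuP q ^ k) ψ
        ≤ (R * (n.choose k : ℝ)) * (q^2)^(n-k) * E (nuP q ^ k) ψ := by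
          apply mul_le_mul_of_nonneg_right _ hE
          exact mul_le_mul hch hq (by positivity) (by positivity)
      _ = _ := by ring

/-- length generating function -/
lemma E_two_mul (F G : Al Wo) : E (F*G) (fun w => (2:ℝ)^(len w))
    = E F (fun w => (2:ℝ)^(len w)) * E G (fun w => (2:ℝ)^(len w)) := by
  rw [E_mul]
  have : ∀ u, E G (fun v => (2:ℝ)^(len (u*v))) = (2:ℝ)^(len u) * E G (fun w => (2:ℝ)^(len w)) := by
    intro u
    rw [← E_smul_fun]
    congr 1
    funext v
    rw [len_mul, pow_add]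
  simp_rw [this]
  have e : (fun u => (2:ℝ)^(len u) * E G (fun w => (2:ℝ)^(len w)))
      = fun u => E G (fun w => (2:ℝ)^(len w)) * (2:ℝ)^(len u) := by funext u; ring
  rw [e, E_smul_fun]; ring

lemma E_two_pow (F : Al Wo) (n : ℕ) : E (F^n) (fun w => (2:ℝ)^(len w))
    = (E F (fun w => (2:ℝ)^(len w)))^n := by
  induction n with
  | zero => simp
  | succ n ih => rw [pow_succ, E_two_mul, ih, pow_succ]

lemma E_two_eN (q : ℝ) : E (eN q) (fun w => (2:ℝ)^(len w)) = 2 - q^2 := by
  unfold eN lt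
  rw [E_add, E_add, E_add, E_smul, E_smul, E_smul, E_smul, E_one, E_single, E_single, E_single]
  simp only [len_one, len_of]
  ring

lemma E_two_eX (q : ℝ) : E (eX q) (fun w => (2:ℝ)^(len w)) = 2 - q := by
  unfold eX lt
  rw [E_add, E_smul, E_smul, E_one, E_single]
  simp only [len_one, len_of]
  ring

/-- tail bound -/
lemma tail_le {F : Al Wo} (hF : Nn F) (m : ℕ) :
    mass F - mass (trn m F) ≤ E F (fun w => (2:ℝ)^(len w)) / 2^m := by
  have e : mass F - mass (trn m F) = E F (fun w => 1 - if len w ≤ m then (1:ℝ) else 0) := by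
    unfold mass
    rw [E_trn, E_sub_fun]
  rw [e]
  have e2 : E F (fun w => (2:ℝ)^(len w)) / 2^m = E F (fun w => (1/2^m) * (2:ℝ)^(len w)) := by
    rw [E_smul_fun]; ring
  rw [e2]
  apply E_mono hF
  intro w
  split_ifs with h
  · simp
  · push Not at h
    rw [sub_zero, one_div_mul_eq_div, le_div_iff₀ (by positivity), one_mul]
    exact pow_le_pow_right₀ (by norm_num) h.le

/-- the mass of the truncation does not depend on the order of the factors -/
lemma mass_trn_comm (m : ℕ) (F G : Al Wo) : mass (trn m (F*G)) = mass (trn m (G*F)) := by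
  unfold mass
  rw [E_trn, E_trn, E_mul, E_mul, E_swap]
  congr 1
  funext v
  congr 1
  funext u
  rw [len_mul, len_mul, add_comm]

end Vale.Agent.P321S
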