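import Mathlib
import Vale.Agent.P321S.Trunc
import Vale.Agent.P321S.Step

namespace Vale.Agent.P321S

open MonoidAlgebra Finset Filter
open Vale.Agent.P321 (Letter)

/-- overlap of powers of the block `01` -/
lemma ov_eN {q : ℝ} (h0 : 0 < q) (h1 : q < 1) : Ov (eN q) 0 (q^2) ((q^2) • (1 : Al Wo)) := by
  have hp : 0 ≤ 1 - q := by linarith
  refine ⟨eN_pr h0.le h1.le, Nn_one.smul (by positivity), ?_, ?_, ?_, by positivity⟩
  · rw [pow_zero]
    apply Nn.le
    have : (1 : Al Wo) - (q^2) • (1 : Al Wo) = (1 - q^2) • (1 : Al Wo) := by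
      rw [sub_smul, one_smul]
    rw [this]
    exact Nn_one.smul (by nlinarith)
  · rw [zero_add, pow_one, eN_split]
    apply Nn.le
    rw [add_sub_cancel_left]
    exact nuP_nn h0.le h1.le
  · rw [mass_smul, mass_one, mul_one]

/-- the difference `X - N` -/
noncomputable def ze (q : ℝ) : Al Wo := eX q - eN q

lemma mass_ze {q : ℝ} (h0 : 0 < q) (h1 : q < 1) : mass (ze q) = 0 := by
  unfold ze
  rw [mass_sub, (eX_pr h0.le h1.le).mass, (eN_pr h0.le h1.le).mass]; ring

lemma dom_ze {q : ℝ} (h0 : 0 < q) (h1 : q < 1) : ∃ C : ℝ, 0 ≤ C ∧ Dom C (ze q) (eN q) := by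
  have pN := eN_pr h0.le h1.le
  have pX := eX_pr h0.le h1.le
  have a : Dom (1 * (1/q)) (eX q) (eN q) := pX.dom.ref_le zero_le_one (eX_le h0 h1)
  exact ⟨_, by positivity, a.sub pN.dom⟩

/-- slip for families in the `N`-medium -/
lemma slipN {q : ℝ} (h0 : 0 < q) (h1 : q < 1) {k : ℕ} {F : ℕ → Al Wo} {n : ℕ → ℕ}
    (hF : DO k F (fun t => eN q ^ (n t))) (j : ℕ) (s : ℕ → ℕ) (hs : ∀ᶠ t in atTop, s t = t^j) :
    DO (k+j) (fun t => eN q ^ (s t) * (F t * eN q - eN q * F t) * eN q ^ (s t))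
      (fun t => eN q ^ (2 * s t + 1 + n t)) := by
  obtain ⟨C, hC, hF⟩ := hF
  refine ⟨16 * C / (q^2)^4, by positivity, ?_⟩
  filter_upwards [hF, hs, ev_one_le] with t hF hs ht1
  have ht : (0:ℝ) < t := by linarith
  have pN := eN_pr h0.le h1.le
  have := slip (ov_eN h0 h1) (pN.pow (n t)).nn ((Commute.refl _).pow_right _) hF (by positivity) (s t)
  rw [mul_zero, zero_add, ← pow_add] at this
  refine this.mono (pN.pow _).nn ?_
  rw [hs]
  push_cast
  have : 16 * (C / (t:ℝ)^k) / ((2*(t:ℝ)^j+3) * (q^2)^4) ≤ 16 * (C / (t:ℝ)^k) / ((t:ℝ)^j * (q^2)^4) := by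
    apply div_le_div_of_nonneg_left (by positivity) (by positivity)
    apply mul_le_mul_of_nonneg_right _ (by positivity)
    have : 0 < (t:ℝ)^j := by positivity
    linarith
  refine this.trans (le_of_eq ?_)
  rw [pow_add]; field_simp

/-- the commutator `[ζ, N]` -/
noncomputable def z1 (q : ℝ) : Al Wo := ze q * eN q - eN q * ze q
/-- the double commutator -/
noncomputable def z2 (q : ℝ) : Al Wo := z1 q * eN q - eN q * z1 q

/-- padding on both sides -/
lemma padN {q : ℝ} (h0 : 0 < q) (h1 : q < 1) {k w : ℕ} {Z : Al Wo} {c : ℕ → ℕ}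
    (hF : DO k (fun t => eN q ^ (c t) * Z * eN q ^ (c t)) (fun t => eN q ^ (2 * c t + w)))
    (a b : ℕ → ℕ) (ha : ∀ᶠ t in atTop, c t ≤ a t) (hb : ∀ᶠ t in atTop, c t ≤ b t) :
    DO k (fun t => eN q ^ (a t) * Z * eN q ^ (b t)) (fun t => eN q ^ (a t + b t + w)) := by
  have pN : PrO (fun _ : ℕ => eN q) := Eventually.of_forall (fun _ => eN_pr h0.le h1.le)
  have := hF.pr_sandwich (pN.pow _).nn (pN.pow (fun t => a t - c t)) (pN.pow (fun t => b t - c t))
  refine this.congr ?_ ?_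
  · filter_upwards [ha, hb] with t h1 h2
    have e1 : eN q ^ (a t) = eN q ^ (a t - c t) * eN q ^ (c t) := by
      rw [← pow_add]; congr 1; omega
    have e2 : eN q ^ (b t) = eN q ^ (c t) * eN q ^ (b t - c t) := by
      rw [← pow_add]; congr 1; omega
    rw [e1, e2]; noncomm_ring
  · filter_upwards [ha, hb] with t h1 h2
    rw [← pow_add, ← pow_add]; congr 1; omega

theorem base_slips {q : ℝ} (h0 : 0 < q) (h1 : q < 1) :
    DO 56 (fun t : ℕ => eN q ^ (7*t^42) * z1 q * eN q ^ (7*t^42))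
      (fun t => eN q ^ (2 * (7*t^42) + 2)) ∧
    DO 98 (fun t : ℕ => eN q ^ (7*t^42) * z2 q * eN q ^ (7*t^42))
      (fun t => eN q ^ (2 * (7*t^42) + 3)) := by
  have pN : PrO (fun _ : ℕ => eN q) := Eventually.of_forall (fun _ => eN_pr h0.le h1.le)
  obtain ⟨Cz, hCz, hz⟩ := dom_ze h0 h1
  have hov : OvO (fun _ : ℕ => eN q) (fun _ => 0) :=
    ⟨q^2, by positivity, Eventually.of_forall (fun t => ⟨q^2, _, le_rfl, ov_eN h0 h1⟩)⟩
  have hK : DO 0 (fun _ : ℕ => ze q) (fun _ => eN q ^ 1) :=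
    ⟨Cz, hCz, Eventually.of_forall (fun t => by simpa using hz)⟩
  have hY : DO 0 (fun _ : ℕ => (1 : Al Wo)) (fun _ => eN q ^ 0) :=
    (DO.self PrO.one).congr' (fun t => rfl) (fun t => by simp)
  have F1 := hiddenO (G := 14) (w := 1) (v := fun _ => 0) hov
    (Eventually.of_forall (fun _ => mass_ze h0 h1)) hK hY (fun t => 5*t^42) (fun t => 5*t^42)
    (Eventually.of_forall (fun t => by norm_num)) (Eventually.of_forall (fun t => by norm_num))
  have F1' : DO 14 (fun t : ℕ => eN q ^ (5*t^42) * ze q * eN q ^ (5*t^42))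
      (fun t => eN q ^ (2 * (5*t^42) + 1)) := by
    refine F1.congr' (fun t => by rw [mul_one]) (fun t => ?_)
    congr 1; ring
  have F2 := slipN h0 h1 F1' 42 (fun t => t^42) (Eventually.of_forall (fun t => rfl))
  have F2' : DO 56 (fun t : ℕ => eN q ^ (6*t^42) * z1 q * eN q ^ (6*t^42))
      (fun t => eN q ^ (2 * (6*t^42) + 2)) := by
    refine F2.congr' (fun t => ?_) (fun t => ?_)
    · have e : eN q ^ (6*t^42) = eN q ^ (t^42) * eN q ^ (5*t^42) := by
        rw [← pow_add]; congr 1; ring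
      have e' : eN q ^ (6*t^42) = eN q ^ (5*t^42) * eN q ^ (t^42) := by
        rw [← pow_add]; congr 1; ring
      have c1 : eN q ^ (5*t^42) * eN q = eN q * eN q ^ (5*t^42) := by
        rw [← pow_succ, ← pow_succ']
      calc eN q ^ (t^42) * (eN q ^ (5*t^42) * ze q * eN q ^ (5*t^42) * eN q
            - eN q * (eN q ^ (5*t^42) * ze q * eN q ^ (5*t^42))) * eN q ^ (t^42)
          = eN q ^ (t^42) * (eN q ^ (5*t^42) * ze q * (eN q ^ (5*t^42) * eN q)
            - (eN q * eN q ^ (5*t^42)) * ze q * eN q ^ (5*t^42)) * eN q ^ (t^42) := by noncomm_ring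
        _ = eN q ^ (t^42) * (eN q ^ (5*t^42) * ze q * (eN q * eN q ^ (5*t^42))
            - (eN q ^ (5*t^42) * eN q) * ze q * eN q ^ (5*t^42)) * eN q ^ (t^42) := by rw [c1]
        _ = (eN q ^ (t^42) * eN q ^ (5*t^42)) * (ze q * eN q - eN q * ze q) *
            (eN q ^ (5*t^42) * eN q ^ (t^42)) := by noncomm_ring
        _ = _ := by rw [← e, ← e', z1]
    · congr 1; ring
  have F3 := slipN h0 h1 F2' 42 (fun t => t^42) (Eventually.of_forall (fun t => rfl))
  have F3' : DO 98 (fun t : ℕ => eN q ^ (7*t^42) * z2 q * eN q ^ (7*t^42))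
      (fun t => eN q ^ (2 * (7*t^42) + 3)) := by
    refine F3.congr' (fun t => ?_) (fun t => ?_)
    · have e : eN q ^ (7*t^42) = eN q ^ (t^42) * eN q ^ (6*t^42) := by
        rw [← pow_add]; congr 1; ring
      have e' : eN q ^ (7*t^42) = eN q ^ (6*t^42) * eN q ^ (t^42) := by
        rw [← pow_add]; congr 1; ring
      have c1 : eN q ^ (6*t^42) * eN q = eN q * eN q ^ (6*t^42) := by
        rw [← pow_succ, ← pow_succ']
      calc eN q ^ (t^42) * (eN q ^ (6*t^42) * z1 q * eN q ^ (6*t^42) * eN q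
            - eN q * (eN q ^ (6*t^42) * z1 q * eN q ^ (6*t^42))) * eN q ^ (t^42)
          = eN q ^ (t^42) * (eN q ^ (6*t^42) * z1 q * (eN q ^ (6*t^42) * eN q)
            - (eN q * eN q ^ (6*t^42)) * z1 q * eN q ^ (6*t^42)) * eN q ^ (t^42) := by noncomm_ring
        _ = eN q ^ (t^42) * (eN q ^ (6*t^42) * z1 q * (eN q * eN q ^ (6*t^42))
            - (eN q ^ (6*t^42) * eN q) * z1 q * eN q ^ (6*t^42)) * eN q ^ (t^42) := by rw [c1]
        _ = (eN q ^ (t^42) * eN q ^ (6*t^42)) * (z1 q * eN q - eN q * z1 q) *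
            (eN q ^ (6*t^42) * eN q ^ (t^42)) := by noncomm_ring
        _ = _ := by rw [← e, ← e', z2]
    · congr 1; ring
  refine ⟨?_, F3'⟩
  have := padN h0 h1 F2' (fun t => 7*t^42) (fun t => 7*t^42) (Eventually.of_forall (fun t => by omega))
    (Eventually.of_forall (fun t => by omega))
  refine this.congr' (fun t => rfl) (fun t => ?_)
  congr 1; ring

end Vale.Agent.P321S
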