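import Mathlib
import Vale.Agent.P321S.BaseSlip

namespace Vale.Agent.P321S

open MonoidAlgebra Finset Filter
open Vale.Agent.P321 (Letter)

/-- the blocks `(01)^{g+s} 0 (01)^{g-s}`, `s = 0, 1, -1` -/
noncomputable def xr (q : ℝ) (g : ℕ) : Fin 3 → Al Wo := fun i =>
  if i = 0 then eU q g
  else if i = 1 then eN q ^ (g+1) * eX q * eN q ^ (g-1)
  else eN q ^ (g-1) * eX q * eN q ^ (g+1)

lemma xr_zero (q : ℝ) (g : ℕ) : xr q g 0 = eU q g := by simp [xr]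
lemma xr_one (q : ℝ) (g : ℕ) : xr q g 1 = eN q ^ (g+1) * eX q * eN q ^ (g-1) := by simp [xr]
lemma xr_two (q : ℝ) (g : ℕ) : xr q g 2 = eN q ^ (g-1) * eX q * eN q ^ (g+1) := by simp [xr]

/-- common form -/
lemma xr_form (q : ℝ) {g : ℕ} (hg : 1 ≤ g) (i : Fin 3) :
    ∃ a b : ℕ, a + b = 2*g ∧ xr q g i = eN q ^ a * eX q * eN q ^ b := by
  fin_cases i
  · exact ⟨g, g, by ring, by simp [xr, eU]⟩
  · exact ⟨g+1, g-1, by omega, by simp [xr]⟩
  · exact ⟨g-1, g+1, by omega, by simp [xr]⟩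

lemma xr_pr {q : ℝ} (h0 : 0 < q) (h1 : q < 1) {g : ℕ} (hg : 1 ≤ g) (i : Fin 3) :
    Pr (xr q g i) := by
  obtain ⟨a, b, _, e⟩ := xr_form q hg i
  rw [e]
  have pN := eN_pr h0.le h1.le
  exact ((pN.pow a).mul (eX_pr h0.le h1.le)).mul (pN.pow b)

lemma xr_ge {q : ℝ} (h0 : 0 < q) (h1 : q < 1) {g : ℕ} (hg : 1 ≤ g) (i : Fin 3) :
    Le (eN q ^ (2*g)) ((1/q) • xr q g i) := by
  obtain ⟨a, b, hab, e⟩ := xr_form q hg i
  have pN := eN_pr h0.le h1.le
  have h := ((eX_ge (q := q) h1.le).mul_left (pN.pow a).nn).mul_right (pN.pow b).nn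
  rw [mul_smul_comm, smul_mul_assoc, mul_one, ← pow_add, hab, ← e] at h
  have h' := h.smul (r := 1/q) (by positivity)
  rw [smul_smul, one_div_mul_cancel h0.ne', one_smul] at h'
  exact h'

lemma xr_le {q : ℝ} (h0 : 0 < q) (h1 : q < 1) {g : ℕ} (hg : 1 ≤ g) (i : Fin 3) :
    Le (xr q g i) ((1/q) • eN q ^ (2*g+1)) := by
  obtain ⟨a, b, hab, e⟩ := xr_form q hg i
  have pN := eN_pr h0.le h1.le
  have h := ((eX_le h0 h1).mul_left (pN.pow a).nn).mul_right (pN.pow b).nn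
  rw [mul_smul_comm, smul_mul_assoc, ← pow_succ, ← pow_add, ← e] at h
  have : a + 1 + b = 2*g+1 := by omega
  rwa [this] at h

/-- the truncation has the same mass for the three blocks -/
lemma mass_xr {q : ℝ} {g : ℕ} (hg : 1 ≤ g) (m : ℕ) (i : Fin 3) :
    mass (trn m (xr q g i)) = mass (trn m (eN q ^ (2*g) * eX q)) := by
  obtain ⟨a, b, hab, e⟩ := xr_form q hg i
  rw [e, mul_assoc, mass_trn_comm, mul_assoc, ← pow_add, mass_trn_comm, add_comm b a, hab]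

/-- exponentially small tail -/
lemma tail_small {q : ℝ} (h0 : 0 < q) (h1 : q < 1) {R g' : ℕ} (hR : (1 - q^2/2)^(2*R) ≤ 1/4) :
    1 - mass (trn (2*(R*g')-g') (eN q ^ (2*(R*g')) * eX q)) ≤ 2 * (1/2)^g' := by
  have pN := eN_pr h0.le h1.le
  have pX := eX_pr h0.le h1.le
  have hR1 : 1 ≤ R := by
    by_contra hcon
    have : R = 0 := by omega
    rw [this] at hR; norm_num at hR
  have pr : Pr (eN q ^ (2*(R*g')) * eX q) := (pN.pow _).mul pX
  have h := tail_le pr.nn (2*(R*g')-g')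
  rw [pr.mass, E_two_mul, E_two_pow, E_two_eN, E_two_eX] at h
  refine h.trans ?_
  have hle : g' ≤ 2*(R*g') := by nlinarith
  rw [div_le_iff₀ (by positivity)]
  have e1 : (2:ℝ) - q^2 = 2 * (1 - q^2/2) := by ring
  have e2 : ((2:ℝ) - q^2)^(2*(R*g')) = 2^(2*(R*g')) * ((1 - q^2/2)^(2*R))^g' := by
    rw [e1, mul_pow, ← pow_mul]; congr 2; ring
  have e3 : (2:ℝ)^(2*(R*g')) = 2^g' * 2^(2*(R*g')-g') := by rw [← pow_add]; congr 1; omega
  rw [e2, e3]
  have hb : ((1 - q^2/2)^(2*R))^g' ≤ (1/4)^g' := by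
    apply pow_le_pow_left₀ _ hR
    have : 0 ≤ 1 - q^2/2 := by nlinarith
    positivity
  have e4 : (1/4:ℝ)^g' = (1/2)^g' * (1/2)^g' := by rw [← mul_pow]; norm_num
  have e5 : (2:ℝ)^g' * (1/2)^g' = 1 := by rw [← mul_pow]; norm_num
  have hpos : (0:ℝ) < 2^(2*(R*g')-g') := by positivity
  calc (2:ℝ)^g' * 2^(2*(R*g')-g') * ((1 - q^2/2)^(2*R))^g' * (2-q)
      ≤ (2:ℝ)^g' * 2^(2*(R*g')-g') * (1/4)^g' * 2 := by
        apply mul_le_mul _ (by linarith) (by linarith) (by positivity)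
        exact mul_le_mul_of_nonneg_left hb (by positivity)
    _ = ((2:ℝ)^g' * (1/2)^g') * (2 * (1/2)^g' * 2^(2*(R*g')-g')) := by rw [e4]; ring
    _ = 2 * (1/2)^g' * 2^(2*(R*g')-g') := by rw [e5, one_mul]

/-- truncated and normalised blocks -/
noncomputable def xt (q : ℝ) (g m : ℕ) : Fin 3 → Al Wo := fun i =>
  (mass (trn m (xr q g i)))⁻¹ • trn m (xr q g i)

lemma xt_pr {q : ℝ} (h0 : 0 < q) (h1 : q < 1) {g m : ℕ} (hg : 1 ≤ g) (i : Fin 3)
    (hZ : 0 < mass (trn m (xr q g i))) : Pr (xt q g m i) := by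
  refine ⟨((xr_pr h0 h1 hg i).nn.trn m).smul (inv_nonneg.mpr hZ.le), ?_⟩
  unfold xt
  rw [mass_smul, inv_mul_cancel₀ hZ.ne']

lemma l1_xt {q : ℝ} (h0 : 0 < q) (h1 : q < 1) {g m : ℕ} (hg : 1 ≤ g) (i : Fin 3)
    (hZ : 0 < mass (trn m (xr q g i))) :
    l1 (xt q g m i - xr q g i) ≤ 2 * (1 - mass (trn m (xr q g i))) := by
  have pr := xr_pr h0 h1 hg i
  set Z := mass (trn m (xr q g i)) with hZdef
  have hZ1 : Z ≤ 1 := by
    rw [← pr.mass]; exact mass_mono (trn_le pr.nn m)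
  have a1 : l1 (xt q g m i - trn m (xr q g i)) ≤ 1 - Z := by
    have e : xt q g m i - trn m (xr q g i) = (Z⁻¹ - 1) • trn m (xr q g i) := by
      unfold xt; rw [sub_smul, one_smul]
    rw [e, l1_smul, l1_of_nn (pr.nn.trn m), ← hZdef]
    have : 1 ≤ Z⁻¹ := (one_le_inv₀ hZ).mpr hZ1
    rw [abs_of_nonneg (by linarith), sub_mul, inv_mul_cancel₀ hZ.ne', one_mul]
  have a2 : l1 (trn m (xr q g i) - xr q g i) = 1 - Z := by
    rw [l1_sub_comm, l1_of_nn (trn_le pr.nn m).nn, mass_sub, pr.mass]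
  have := l1_triangle (xt q g m i) (trn m (xr q g i)) (xr q g i)
  linarith

lemma Dom.normalize {M : Type*} [Monoid M] {c Z : ℝ} {F R : Al M} (h : Dom c F R) (hZ : 0 < Z) :
    Dom (c/Z) (Z⁻¹ • F) (Z⁻¹ • R) := by
  intro φ
  rw [E_smul, E_smul]
  have := h φ
  have e : c / Z * (Z⁻¹ * E R (fun w => φ w ^ 2)) = (Z⁻¹)^2 * (c * E R (fun w => φ w ^ 2)) := by
    field_simp
  rw [mul_pow, e]
  exact mul_le_mul_of_nonneg_left this (by positivity)

/-- comparison of the truncated blocks -/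
lemma xt_le {q : ℝ} (h0 : 0 < q) (h1 : q < 1) {R g' : ℕ} (hR1 : 1 ≤ R) (hg : 1 ≤ g')
    (i j : Fin 3) (hZ : 0 < mass (trn (2*(R*g')-g') (xr q (R*g') j))) :
    Le (xt q (R*g') (2*(R*g')-g') i) (((2*R+1)/q^2) • xt q (R*g') (2*(R*g')-g') j) := by
  have hgg : 1 ≤ R*g' := Nat.one_le_iff_ne_zero.mpr (by positivity)
  set g := R*g' with hgdef
  set m := 2*g - g' with hm
  have hle : g' ≤ g := by rw [hgdef]; exact Nat.le_mul_of_pos_left _ hR1
  have hzz : mass (trn m (xr q g i)) = mass (trn m (xr q g j)) := by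
    rw [mass_xr hgg, mass_xr hgg]
  have b1 := (xr_le h0 h1 hgg i).trn m
  rw [trn_smul] at b1
  have b2 : Le (trn m (eN q ^ (2*g+1))) (((2*R+1 : ℕ):ℝ) • trn m (eN q ^ (2*g))) :=
    eN_pow_le h0.le h1.le (by omega) (by
      have : 2*g+1-m = g'+1 := by omega
      rw [this, hgdef]
      nlinarith)
  have b3 := (xr_ge h0 h1 hgg j).trn m
  rw [trn_smul] at b3
  have c1 := b1.trans (b2.smul (r := 1/q) (by positivity))
  have c2 := c1.trans ((b3.smul (r := ((2*R+1 : ℕ):ℝ)) (by positivity)).smul (r := 1/q) (by positivity))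
  have c3 := c2.smul (r := (mass (trn m (xr q g j)))⁻¹) (by positivity)
  unfold xt
  rw [hzz]
  refine c3.trans ?_
  rw [smul_smul, smul_smul, smul_smul, smul_smul]
  have hee : (mass (trn m (xr q g j)))⁻¹ * (1/q) * ((2*R+1 : ℕ):ℝ) * (1/q)
      = (2*R+1)/q^2 * (mass (trn m (xr q g j)))⁻¹ := by
    push_cast; field_simp
  rw [hee]; exact Le.refl _

end Vale.Agent.P321S
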