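import Mathlib
import Vale.Agent.P321S.Base

namespace Vale.Agent.P321S

open MonoidAlgebra Finset Filter
open Vale.Agent.P321 (Letter)

lemma l1_pow_sub {M : Type*} [Monoid M] {P Q : Al M} (hP : Pr P) (hQ : Pr Q) (n : ℕ) :
    l1 (P^n - Q^n) ≤ n * l1 (P - Q) := by
  induction n with
  | zero => simp [l1_zero]
  | succ n ih =>
    have e : P^(n+1) - Q^(n+1) = P^n * (P - Q) + (P^n - Q^n) * Q := by
      rw [pow_succ, pow_succ]; noncomm_ring
    rw [e]
    refine (l1_add_le _ _).trans ?_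
    have a1 := l1_mul_le (P^n) (P - Q)
    have a2 := l1_mul_le (P^n - Q^n) Q
    rw [(hP.pow n).l1, one_mul] at a1
    rw [hQ.l1, mul_one] at a2
    push_cast
    linarith

lemma DO.trn {k : ℕ} {F R : ℕ → Al Wo} (h : DO k F R) (m : ℕ → ℕ) :
    DO k (fun t => trn (m t) (F t)) (fun t => trn (m t) (R t)) := by
  obtain ⟨C, hC, h⟩ := h
  exact ⟨C, hC, h.mono (fun t ht => ht.trn (m t))⟩

lemma DO.normalize {k : ℕ} {F R : ℕ → Al Wo} {Z : ℕ → ℝ} (h : DO k F R) (hR : NnO R)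
    (hZ : ∀ᶠ t in atTop, 1/2 ≤ Z t) :
    DO k (fun t => (Z t)⁻¹ • F t) (fun t => (Z t)⁻¹ • R t) := by
  obtain ⟨C, hC, h⟩ := h
  refine ⟨2*C, by positivity, ?_⟩
  filter_upwards [h, hZ, hR, ev_one_le] with t a b c d
  have hZ0 : 0 < Z t := by linarith
  have ht : (0:ℝ) < t := by linarith
  refine (a.normalize hZ0).mono (c.smul (by positivity)) ?_
  rw [div_le_iff₀ hZ0]
  have : 0 ≤ 2 * C / (t:ℝ)^k := by positivity
  calc C / (t:ℝ)^k = 2 * C / (t:ℝ)^k * (1/2) := by ring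
    _ ≤ 2 * C / (t:ℝ)^k * Z t := mul_le_mul_of_nonneg_left b this

/-- half difference of the two modified blocks -/
lemma xr_diff (q : ℝ) {g : ℕ} (hg : 1 ≤ g) : (1/2:ℝ) • (xr q g 1 - xr q g 2)
    = (-(1/2):ℝ) • (eN q ^ (g-1) * z1 q * eN q ^ g + eN q ^ g * z1 q * eN q ^ (g-1)) := by
  rw [xr_one, xr_two, neg_smul, ← smul_neg]
  congr 1
  obtain ⟨h, rfl⟩ : ∃ h, g = h + 1 := ⟨g-1, by omega⟩
  rw [Nat.add_sub_cancel]
  have e1 : eN q ^ (h+1+1) = eN q ^ h * eN q * eN q := by rw [pow_succ, pow_succ]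
  have e1' : eN q ^ (h+1+1) = eN q * (eN q * eN q ^ h) := by rw [pow_succ', pow_succ']
  have e2 : eN q ^ (h+1) = eN q ^ h * eN q := pow_succ _ _
  have e2' : eN q ^ (h+1) = eN q * eN q ^ h := pow_succ' _ _
  calc eN q ^ (h+1+1) * eX q * eN q ^ h - eN q ^ h * eX q * eN q ^ (h+1+1)
      = (eN q ^ h * eN q * eN q) * eX q * eN q ^ h - eN q ^ h * eX q * (eN q * (eN q * eN q ^ h)) := by
        rw [← e1, ← e1']
    _ = -(eN q ^ h * z1 q * (eN q * eN q ^ h) + (eN q ^ h * eN q) * z1 q * eN q ^ h) := by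
        unfold z1 ze; noncomm_ring
    _ = _ := by rw [← e2, ← e2']

lemma xr_mean (q : ℝ) {g : ℕ} (hg : 1 ≤ g) : (1/2:ℝ) • (xr q g 1 + xr q g 2) - xr q g 0
    = (1/2:ℝ) • (eN q ^ (g-1) * z2 q * eN q ^ (g-1)) := by
  have e0 : xr q g 0 = (1/2:ℝ) • (xr q g 0 + xr q g 0) := by
    rw [← two_smul ℝ, smul_smul]; norm_num
  rw [e0, ← smul_sub, xr_one, xr_two, xr_zero]
  congr 1
  obtain ⟨h, rfl⟩ : ∃ h, g = h + 1 := ⟨g-1, by omega⟩
  rw [Nat.add_sub_cancel]
  unfold eU
  have e1 : eN q ^ (h+1+1) = eN q ^ h * eN q * eN q := by rw [pow_succ, pow_succ]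
  have e1' : eN q ^ (h+1+1) = eN q * (eN q * eN q ^ h) := by rw [pow_succ', pow_succ']
  have e2 : eN q ^ (h+1) = eN q ^ h * eN q := pow_succ _ _
  have e2' : eN q ^ (h+1) = eN q * eN q ^ h := pow_succ' _ _
  calc eN q ^ (h+1+1) * eX q * eN q ^ h + eN q ^ h * eX q * eN q ^ (h+1+1)
        - (eN q ^ (h+1) * eX q * eN q ^ (h+1) + eN q ^ (h+1) * eX q * eN q ^ (h+1))
      = (eN q ^ h * eN q * eN q) * eX q * eN q ^ h + eN q ^ h * eX q * (eN q * (eN q * eN q ^ h))
        - ((eN q ^ h * eN q) * eX q * (eN q * eN q ^ h)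
          + (eN q ^ h * eN q) * eX q * (eN q * eN q ^ h)) := by
        rw [← e1, ← e1', ← e2, ← e2', e2]
    _ = _ := by unfold z2 z1 ze; noncomm_ring

lemma ev_geom (C : ℝ) {ε : ℝ} (hε : 0 < ε) (k : ℕ) :
    ∀ᶠ t : ℕ in atTop, C * (t:ℝ)^k * (1/2:ℝ)^t ≤ ε := by
  have h : Tendsto (fun t : ℕ => C * ((t:ℝ)^k * (1/2:ℝ)^t)) atTop (nhds (C * 0)) := by
    apply Tendsto.const_mul
    exact tendsto_pow_const_mul_const_pow_of_abs_lt_one k (by rw [abs_of_pos] <;> norm_num)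
  rw [mul_zero] at h
  filter_upwards [h.eventually (gt_mem_nhds hε)] with t ht
  rw [mul_assoc]; exact ht.le

/-- from the bounds for the blocks to the first level -/
theorem baseCore {M : Type*} [Monoid M] {J N : ℕ} {u a b : ℕ → Al M} {l : ℕ → ℕ} (hOv : OvO u l)
    (hNl : NO l 42) (ha : PrO a) (hb : PrO b) (au : LeO a u) (bu : LeO b u) (ua : LeO u a)
    (ub : LeO u b) (hd : DO 56 (fun t => dd 0 (a t) (b t)) u)
    (hr : DO 98 (fun t => RR (u t) (a t) (b t) 0) u) (hN : 154 ≤ N) (hNJ : N ≤ J) :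
    ∃ (l α : ℕ → ℕ) (K δ₁ : ℕ → Al M),
      LevO J N 42 98 154 154 u (fun t => u t ^ (α t) * T J (a t) (b t) * u t ^ (α t))
        (fun t => u t ^ (α t) * T J (b t) (a t) * u t ^ (α t)) l α K δ₁ := by
  have pu := hOv.pr
  set α : ℕ → ℕ := fun t => J * ((2*t+1) * l t + t) with hα
  have hNα : NO α (42+1) := by
    have n1 : NO (fun t => 2*t+1) 1 := by
      have h1 : NO (fun t => 2*t^1) (0+1) := (NO.const 2).mul (NO.tpow 1)
      have h2 := (h1.mono (by omega : 0+1 ≤ 1)).add ((NO.const 1).mono (by omega : 0 ≤ 1))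
      refine h2.of_le (Eventually.of_forall (fun t => ?_))
      simp
    have n2 : NO (fun t => (2*t+1) * l t) (42+1) := (n1.mul hNl).mono (by omega)
    have n3 : NO (fun t => t) (42+1) := by
      have := (NO.tpow 1).mono (by omega : 1 ≤ 42+1)
      exact this.of_le (Eventually.of_forall (fun t => by simp))
    exact ((NO.const J).mul (n2.add n3)).mono (by omega)
  have lα : ∀ᶠ t in atTop, l t ≤ α t := by
    refine Eventually.of_forall (fun t => ?_)
    have h1 : l t ≤ (2*t+1) * l t := Nat.le_mul_of_pos_left _ (by omega)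
    have h2 : (2*t+1) * l t + t ≤ J * ((2*t+1) * l t + t) := Nat.le_mul_of_pos_left _ (by omega)
    simp only [hα]
    omega
  have puα : PrO (fun t => u t ^ (α t)) := pu.pow α
  obtain ⟨b1, b2, b3⟩ := bareO pu hd hr (by norm_num) J
  have hRe : ∀ t, u t ^ (α t) * u t ^ (2^J) * u t ^ (α t) = u t ^ (2 * α t + 2^J) := by
    intro t; rw [← pow_add, ← pow_add]; congr 1; ring
  have nnR : NnO (fun t => u t ^ (2^J)) := (pu.pow (fun _ => 2^J)).nn
  have hhh : DO 154 (fun t => u t ^ (α t) * EE (u t) (a t) (b t) J * u t ^ (α t))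
      (fun t => u t ^ (2 * α t + 2^J)) :=
    (b3.pr_sandwich nnR puα puα).congr' (fun t => rfl) hRe
  refine ⟨l, α, _, _, mkLevel (h0 := 56) hOv hNl hNα lα ?_ ha hb au bu ua ub hd (by omega)
    (by omega) ?_ b3 hhh⟩
  · exact Eventually.of_forall (fun t => le_rfl)
  · have r1 : DO 98 (fun t => u t ^ (α t) * RR (u t) (a t) (b t) J * u t ^ (α t))
        (fun t => u t ^ (2 * α t + 2^J)) :=
      (b1.pr_sandwich nnR puα puα).congr' (fun t => rfl) hRe
    have r2 := (nestedO hOv hd J α (Eventually.of_forall (fun t => le_rfl))).mono (pu.pow _).nn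
      (by omega : 98 ≤ 56 + J)
    have r3 := hhh.mono (pu.pow _).nn (by omega : 98 ≤ 154)
    refine ((r1.add r2).add r3).congr' (fun t => ?_) (fun t => rfl)
    have : dd J (a t) (b t) = cc (u t) (a t) (b t) J + EE (u t) (a t) (b t) J := by
      unfold EE; abel
    rw [this]; noncomm_ring

/-- the base level -/
theorem baseLevel {q : ℝ} (h0 : 0 < q) (h1 : q < 1) (hO : OverlapBase q) :
    ∃ (R cg : ℕ), 1 ≤ R ∧ 1 ≤ cg ∧
      (∀ i : Fin 3, ∀ᶠ t : ℕ in atTop,
        l1 (xt q (R*(cg*t^42)) (2*(R*(cg*t^42)) - cg*t^42) i - xr q (R*(cg*t^42)) i)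
          ≤ 4 * (1/2)^t) ∧
      (∀ i : Fin 3, PrO (fun t : ℕ => xt q (R*(cg*t^42)) (2*(R*(cg*t^42)) - cg*t^42) i)) ∧
      ∀ J N : ℕ, 154 ≤ N → N ≤ J → ∃ (l α : ℕ → ℕ) (K δ₁ : ℕ → Al Wo),
        LevO J N 42 98 154 154
          (fun t : ℕ => xt q (R*(cg*t^42)) (2*(R*(cg*t^42)) - cg*t^42) 0)
          (fun t : ℕ => xt q (R*(cg*t^42)) (2*(R*(cg*t^42)) - cg*t^42) 0 ^ (α t)
            * T J (xt q (R*(cg*t^42)) (2*(R*(cg*t^42)) - cg*t^42) 1)
              (xt q (R*(cg*t^42)) (2*(R*(cg*t^42)) - cg*t^42) 2)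
            * xt q (R*(cg*t^42)) (2*(R*(cg*t^42)) - cg*t^42) 0 ^ (α t))
          (fun t : ℕ => xt q (R*(cg*t^42)) (2*(R*(cg*t^42)) - cg*t^42) 0 ^ (α t)
            * T J (xt q (R*(cg*t^42)) (2*(R*(cg*t^42)) - cg*t^42) 2)
              (xt q (R*(cg*t^42)) (2*(R*(cg*t^42)) - cg*t^42) 1)
            * xt q (R*(cg*t^42)) (2*(R*(cg*t^42)) - cg*t^42) 0 ^ (α t)) l α K δ₁ := by
  obtain ⟨cg, cl, δ, hcg, hcl, hδ, hov⟩ := hO
  have hy0 : 0 ≤ 1 - q^2/2 := by nlinarith
  have hy1 : 1 - q^2/2 < 1 := by have : 0 < q^2 := by positivity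
                                 linarith
  obtain ⟨R0, hR0⟩ := exists_pow_lt_of_lt_one (show (0:ℝ) < 1/4 by norm_num) hy1
  set R := max R0 8 with hRdef
  have hR8 : 8 ≤ R := le_max_right _ _
  have hR : (1 - q^2/2)^(2*R) ≤ 1/4 := by
    refine le_trans ?_ hR0.le
    apply pow_le_pow_of_le_one hy0 hy1.le
    have : R0 ≤ R := le_max_left _ _
    omega
  set g' : ℕ → ℕ := fun t => cg * t^42 with hg'
  set g : ℕ → ℕ := fun t => R * (cg * t^42) with hg
  set m : ℕ → ℕ := fun t => 2 * (R * (cg * t^42)) - cg * t^42 with hm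
  have ev1 : ∀ᶠ t : ℕ in atTop, 1 ≤ t := eventually_ge_atTop 1
  have hg'1 : ∀ᶠ t in atTop, t ≤ g' t := by
    filter_upwards [ev1] with t ht
    have : t ≤ t^42 := Nat.le_self_pow (by norm_num) t
    exact this.trans (Nat.le_mul_of_pos_left _ hcg)
  have hg1 : ∀ᶠ t in atTop, 1 ≤ g t := by
    filter_upwards [ev1, hg'1] with t ht h2
    have h3 : g' t ≤ g t := Nat.le_mul_of_pos_left _ (by omega)
    omega
  have hg8 : ∀ᶠ t in atTop, 7 * t^42 + 1 ≤ g t := by
    filter_upwards [ev1] with t ht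
    have h2 : 1 ≤ t^42 := Nat.one_le_pow _ _ ht
    have h3 : t^42 ≤ cg * t^42 := Nat.le_mul_of_pos_left _ hcg
    calc 7 * t^42 + 1 ≤ 8 * t^42 := by omega
      _ ≤ R * (cg * t^42) := Nat.mul_le_mul hR8 h3
  -- masses of truncations
  have hZ : ∀ᶠ t in atTop, ∀ i : Fin 3, 1 - mass (trn (m t) (xr q (g t) i)) ≤ 2 * (1/2)^t := by
    filter_upwards [hg'1, hg1] with t h1' h2 i
    rw [mass_xr h2]
    refine (tail_small h0 h1 hR).trans ?_
    apply mul_le_mul_of_nonneg_left _ (by norm_num)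
    exact pow_le_pow_of_le_one (by norm_num) (by norm_num) h1'
  have hZ2 : ∀ᶠ t in atTop, ∀ i : Fin 3, 1/2 ≤ mass (trn (m t) (xr q (g t) i)) := by
    filter_upwards [hZ, eventually_ge_atTop 2] with t h1' h2 i
    have h3 := h1' i
    have h4 : (1/2:ℝ)^t ≤ (1/2)^2 := pow_le_pow_of_le_one (by norm_num) (by norm_num) h2
    norm_num at h4
    linarith
  have hprt : ∀ i : Fin 3, PrO (fun t => xt q (g t) (m t) i) := by
    intro i
    filter_upwards [hZ2, hg1] with t h2 h3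
    exact xt_pr h0 h1 h3 i (by linarith [h2 i])
  have hprr : ∀ i : Fin 3, PrO (fun t => xr q (g t) i) := by
    intro i
    filter_upwards [hg1] with t h3 using xr_pr h0 h1 h3 i
  have hl1 : ∀ i : Fin 3, ∀ᶠ t : ℕ in atTop, l1 (xt q (g t) (m t) i - xr q (g t) i) ≤ 4 * (1/2)^t := by
    intro i
    filter_upwards [hZ, hZ2, hg1] with t h2 h3 h4
    have := l1_xt h0 h1 h4 i (by linarith [h3 i])
    linarith [h2 i]
  refine ⟨R, cg, by omega, hcg, hl1, hprt, ?_⟩
  intro J N hN hNJ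
  -- comparison
  have hle : ∀ i j : Fin 3, LeO (fun t => xt q (g t) (m t) i) (fun t => xt q (g t) (m t) j) := by
    intro i j
    have hq2 : q^2 ≤ 1 := by nlinarith
    refine ⟨(2*R+1)/q^2, ?_, ?_⟩
    · rw [le_div_iff₀ (by positivity)]
      have : (0:ℝ) ≤ R := Nat.cast_nonneg _
      linarith
    · filter_upwards [hZ2, hg'1, ev1] with t h2 h3 h4
      have h3' : t ≤ cg * t^42 := h3
      exact xt_le h0 h1 (by omega) (by omega : 1 ≤ cg * t^42) i j (by linarith [h2 j])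
  -- differences
  obtain ⟨s1, s2⟩ := base_slips h0 h1
  have D1 : DO 56 (fun t => (1/2:ℝ) • (xr q (g t) 1 - xr q (g t) 2)) (fun t => eN q ^ (2 * g t + 1)) := by
    have a1 := padN h0 h1 s1 (fun t => g t - 1) (fun t => g t)
      (hg8.mono (fun t ht => by omega)) (hg8.mono (fun t ht => by omega))
    have a2 := padN h0 h1 s1 (fun t => g t) (fun t => g t - 1)
      (hg8.mono (fun t ht => by omega)) (hg8.mono (fun t ht => by omega))
    have a1' := a1.congr (Eventually.of_forall (fun t => rfl)) (R' := fun t => eN q ^ (2 * g t + 1))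
      (hg1.mono (fun t ht => by congr 1; omega))
    have a2' := a2.congr (Eventually.of_forall (fun t => rfl)) (R' := fun t => eN q ^ (2 * g t + 1))
      (hg1.mono (fun t ht => by congr 1; omega))
    have := (a1'.add a2').smul (-(1/2))
    exact this.congr (hg1.mono (fun t ht => (xr_diff q ht).symm)) (Eventually.of_forall (fun t => rfl))
  have D2 : DO 98 (fun t => (1/2:ℝ) • (xr q (g t) 1 + xr q (g t) 2) - xr q (g t) 0)
      (fun t => eN q ^ (2 * g t + 1)) := by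
    have a1 := padN h0 h1 s2 (fun t => g t - 1) (fun t => g t - 1)
      (hg8.mono (fun t ht => by omega)) (hg8.mono (fun t ht => by omega))
    have a1' := a1.congr (Eventually.of_forall (fun t => rfl)) (R' := fun t => eN q ^ (2 * g t + 1))
      (hg1.mono (fun t ht => by congr 1; omega))
    have := a1'.smul (1/2)
    exact this.congr (hg1.mono (fun t ht => (xr_mean q ht).symm)) (Eventually.of_forall (fun t => rfl))
  have leNU : LeO (fun t => trn (m t) (eN q ^ (2 * g t + 1))) (fun t => trn (m t) (xr q (g t) 0)) := by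
    refine ⟨(2*R+1)/q, ?_, ?_⟩
    · rw [le_div_iff₀ h0]
      have : (0:ℝ) ≤ R := Nat.cast_nonneg _
      linarith
    · filter_upwards [hg1, hg'1, ev1] with t h2 h3 h4
      have hgle : g' t ≤ g t := Nat.le_mul_of_pos_left _ (by omega)
      have hgle' : cg * t^42 ≤ R * (cg * t^42) := hgle
      have b2 : Le (trn (m t) (eN q ^ (2 * g t + 1))) (((2*R+1 : ℕ):ℝ) • trn (m t) (eN q ^ (2 * g t))) :=
        eN_pow_le h0.le h1.le (by simp only [hm, hg]; omega) (by
          have : 2 * g t + 1 - m t = g' t + 1 := by simp only [hm, hg, hg']; omega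
          rw [this]; simp only [hg, hg']
          nlinarith)
      have b3 := (xr_ge h0 h1 h2 0).trn (m t)
      rw [trn_smul] at b3
      have := b2.trans (b3.smul (r := ((2*R+1 : ℕ):ℝ)) (by positivity))
      rw [smul_smul] at this
      have e : ((2*R+1 : ℕ):ℝ) * (1/q) = (2*R+1)/q := by push_cast; ring
      rwa [e] at this
  have nnU : NnO (fun t => trn (m t) (xr q (g t) 0)) := by
    filter_upwards [hprr 0] with t ht using ht.nn.trn _
  have norm : ∀ {k : ℕ} {F : ℕ → Al Wo}, DO k F (fun t => eN q ^ (2 * g t + 1)) →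
      DO k (fun t => (mass (trn (m t) (xr q (g t) 0)))⁻¹ • trn (m t) (F t))
        (fun t => xt q (g t) (m t) 0) := by
    intro k F hF
    have a := ((hF.trn m).ref leNU).normalize nnU (hZ2.mono (fun t ht => ht 0))
    exact a.congr' (fun t => rfl) (fun t => rfl)
  have hxt : ∀ᶠ t in atTop, ∀ i : Fin 3, xt q (g t) (m t) i
      = (mass (trn (m t) (xr q (g t) 0)))⁻¹ • trn (m t) (xr q (g t) i) := by
    filter_upwards [hg1] with t h2 i
    unfold xt
    rw [mass_xr h2, mass_xr h2]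
  have hd : DO 56 (fun t => dd 0 (xt q (g t) (m t) 1) (xt q (g t) (m t) 2))
      (fun t => xt q (g t) (m t) 0) := by
    refine (norm D1).congr ?_ (Eventually.of_forall (fun t => rfl))
    filter_upwards [hxt] with t ht
    show _ = (1/2:ℝ) • (xt q (g t) (m t) 1 - xt q (g t) (m t) 2)
    rw [ht 1, ht 2, trn_smul, trn_sub, ← smul_sub, smul_comm]
  have hr : DO 98 (fun t => RR (xt q (g t) (m t) 0) (xt q (g t) (m t) 1) (xt q (g t) (m t) 2) 0)
      (fun t => xt q (g t) (m t) 0) := by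
    refine (norm D2).congr ?_ (Eventually.of_forall (fun t => rfl))
    filter_upwards [hxt] with t ht
    show _ = (1/2:ℝ) • (xt q (g t) (m t) 1 + xt q (g t) (m t) 2) - xt q (g t) (m t) 0 ^ (2^0)
    rw [pow_zero, pow_one, ht 0, ht 1, ht 2, ← smul_add, ← trn_add, trn_sub, trn_smul, smul_sub,
      smul_comm (1/2:ℝ)]
  have hbare := bareO (hprt 0) hd hr (by norm_num)
  -- overlap
  set l : ℕ → ℕ := fun t => cl * (R * t^42) with hl
  have hNl : NO l 42 := by
    have := (NO.const (cl*R)).mul (NO.tpow 42)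
    rw [zero_add] at this
    exact this.of_le (Eventually.of_forall (fun t => by simp only [hl]; rw [mul_assoc]))
  have hOv : OvO (fun t => xt q (g t) (m t) 0) l := by
    refine ⟨δ/2, by linarith, ?_⟩
    obtain ⟨Cl, hCl, hNl2⟩ := hNl.add ((NO.const 1).mono (by norm_num : 0 ≤ 42))
    filter_upwards [hprt 0, hprr 0, hl1 0, hNl2, ev1, ev_geom (8*Cl) hδ 42] with t p1 p2 h3 h4 h5 h6
    apply ov_of_l1 p1 (by linarith)
    have c1 : ∀ n : ℕ, n ≤ l t + 1 → l1 (xt q (g t) (m t) 0 ^ n - xr q (g t) 0 ^ n) ≤ δ/2 := by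
      intro n hn
      refine (l1_pow_sub p1 p2 n).trans ?_
      have hn' : (n:ℝ) ≤ Cl * (t:ℝ)^42 := by
        refine le_trans ?_ h4
        exact_mod_cast hn
      calc (n:ℝ) * l1 (xt q (g t) (m t) 0 - xr q (g t) 0) ≤ (Cl * (t:ℝ)^42) * (4 * (1/2)^t) :=
            mul_le_mul hn' h3 (l1_nonneg _) (by positivity)
        _ = (8 * Cl * (t:ℝ)^42 * (1/2)^t) / 2 := by ring
        _ ≤ δ/2 := by linarith
    have c2 : l1 (xr q (g t) 0 ^ (l t) - xr q (g t) 0 ^ (l t + 1)) ≤ 2 - 2*δ := by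
      have h7 : 1 ≤ R * t^42 := Nat.one_le_iff_ne_zero.mpr (by positivity)
      have := hov (R * t^42) h7
      have e : cg * (R * t^42) = g t := by simp only [hg]; ring
      rw [e] at this
      rw [xr_zero]
      exact this
    have t1 := l1_triangle (xt q (g t) (m t) 0 ^ (l t)) (xr q (g t) 0 ^ (l t))
      (xt q (g t) (m t) 0 ^ (l t + 1))
    have t2 := l1_triangle (xr q (g t) 0 ^ (l t)) (xr q (g t) 0 ^ (l t + 1))
      (xt q (g t) (m t) 0 ^ (l t + 1))
    have t3 := c1 (l t) (by omega)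
    have t4 := c1 (l t + 1) le_rfl
    rw [l1_sub_comm] at t4
    linarith
  exact baseCore hOv hNl (hprt 1) (hprt 2) (hle 1 0) (hle 2 0) (hle 0 1) (hle 0 2) hd hr hN hNJ

end Vale.Agent.P321S
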