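import Mathlib
import Vale.Agent.P321S.BaseLevel

namespace Vale.Agent.P321S

open MonoidAlgebra Finset Filter

/-- evaluation of a list of blocks -/
noncomputable def evB {M : Type*} [Monoid M] (x : Fin 3 → Al M) (w : List (Fin 3)) : Al M :=
  (w.map x).prod

section
variable {M : Type*} [Monoid M]

@[simp] lemma evB_nil (x : Fin 3 → Al M) : evB x [] = 1 := rfl
lemma evB_append (x : Fin 3 → Al M) (v w : List (Fin 3)) : evB x (v ++ w) = evB x v * evB x w := by
  unfold evB; rw [List.map_append, List.prod_append]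
lemma evB_cons (x : Fin 3 → Al M) (i : Fin 3) (w : List (Fin 3)) : evB x (i :: w) = x i * evB x w := by
  unfold evB; rw [List.map_cons, List.prod_cons]
lemma evB_singleton (x : Fin 3 → Al M) (i : Fin 3) : evB x [i] = x i := by
  rw [evB_cons, evB_nil, mul_one]

/-- repetition -/
def rep (n : ℕ) (w : List (Fin 3)) : List (Fin 3) := (List.replicate n w).flatten

lemma rep_succ (n : ℕ) (w : List (Fin 3)) : rep (n+1) w = w ++ rep n w := by
  unfold rep; rw [List.replicate_succ, List.flatten_cons]

lemma evB_rep (x : Fin 3 → Al M) (n : ℕ) (w : List (Fin 3)) : evB x (rep n w) = evB x w ^ n := by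
  induction n with
  | zero => simp [rep]
  | succ n ih => rw [rep_succ, evB_append, ih, pow_succ']

lemma length_rep (n : ℕ) (w : List (Fin 3)) : (rep n w).length = n * w.length := by
  induction n with
  | zero => simp [rep]
  | succ n ih => rw [rep_succ, List.length_append, ih]; ring

/-- Thue-Morse on lists -/
def TL : ℕ → List (Fin 3) → List (Fin 3) → List (Fin 3)
  | 0, a, _ => a
  | k+1, a, b => TL k a b ++ TL k b a

lemma evB_TL (x : Fin 3 → Al M) (k : ℕ) (a b : List (Fin 3)) :
    evB x (TL k a b) = T k (evB x a) (evB x b) := by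
  induction k generalizing a b with
  | zero => rfl
  | succ k ih => simp only [TL, T]; rw [evB_append, ih, ih]

end

lemma length_TL (k : ℕ) {a b : List (Fin 3)} (h : a.length = b.length) :
    (TL k a b).length = 2^k * a.length := by
  induction k generalizing a b with
  | zero => simp [TL]
  | succ k ih =>
    simp only [TL]
    rw [List.length_append, ih h, ih h.symm, ← h]; ring

lemma TL_ne (k : ℕ) {a b : List (Fin 3)} (h : a.length = b.length) (hab : a ≠ b) :
    TL k a b ≠ TL k b a := by
  induction k generalizing a b with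
  | zero => exact hab
  | succ k ih =>
    simp only [TL]
    intro heq
    have hl : (TL k a b).length = (TL k b a).length := by
      rw [length_TL k h, length_TL k h.symm, h]
    exact ih h hab (List.append_inj heq hl).1

/-- exponents of the levels: `(cx, kx, hx)` -/
def ex : ℕ → ℕ × ℕ × ℕ
  | 0 => (98, 154, 154)
  | s+1 => ((ex s).2.1 + 20 * 2^s - 1, 2 * (ex s).2.2,
      (ex s).2.2 + ((ex s).2.1 + 20 * 2^s - 1))

lemma ex_inv (s : ℕ) : 86 * 2^s ≤ (ex s).1 ∧ 77 * 2^(s+1) ≤ (ex s).2.1 ∧
    77 * 2^(s+1) ≤ (ex s).2.2 := by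
  induction s with
  | zero => simp [ex]
  | succ s ih =>
    obtain ⟨h1, h2, h3⟩ := ih
    have e1 : 2^(s+1) = 2 * 2^s := by ring
    have e2 : 2^(s+1+1) = 4 * 2^s := by ring
    have hp : 1 ≤ 2^s := Nat.one_le_two_pow
    simp only [ex]
    rw [e1] at *
    rw [e2]
    refine ⟨?_, ?_, ?_⟩ <;> omega

/-- linear growth of the ratio of exponents -/
lemma ex_growth (s : ℕ) : (71 + 3*(s+1)) * 2^(s+1) ≤ (ex s).2.1 ∧
    (74 + 3*(s+1)) * 2^(s+1) ≤ (ex s).2.2 := by
  induction s with
  | zero => simp [ex]
  | succ s ih =>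
    obtain ⟨h2, h3⟩ := ih
    have e1 : 2^(s+1) = 2 * 2^s := by ring
    have e2 : 2^(s+1+1) = 4 * 2^s := by ring
    have hp : 1 ≤ 2^s := Nat.one_le_two_pow
    simp only [ex]
    rw [e1] at h2 h3
    rw [e2]
    set P := 2^s with hP
    have k2 : (71 + 3*(s+1)) * (2*P) = 148*P + 6*(s*P) := by ring
    have k3 : (74 + 3*(s+1)) * (2*P) = 154*P + 6*(s*P) := by ring
    have k4 : (71 + 3*(s+1+1)) * (4*P) = 308*P + 12*(s*P) := by ring
    have k5 : (74 + 3*(s+1+1)) * (4*P) = 320*P + 12*(s*P) := by ring
    rw [k2] at h2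
    rw [k3] at h3
    rw [k4, k5]
    refine ⟨?_, ?_⟩ <;> omega

/-- all levels -/
theorem levels {x : ℕ → Fin 3 → Al Wo}
    (hbase : ∀ J N : ℕ, 154 ≤ N → N ≤ J → ∃ (l α : ℕ → ℕ) (K δ₁ : ℕ → Al Wo),
      LevO J N 42 98 154 154 (fun t => x t 0)
        (fun t => x t 0 ^ (α t) * T J (x t 1) (x t 2) * x t 0 ^ (α t))
        (fun t => x t 0 ^ (α t) * T J (x t 2) (x t 1) * x t 0 ^ (α t)) l α K δ₁) (s : ℕ) :
    ∀ J N : ℕ, (ex s).2.2 ≤ N → N ≤ J → ∃ (ul al bl : ℕ → List (Fin 3)) (l α : ℕ → ℕ)
      (K δ₁ : ℕ → Al Wo),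
      LevO J N (43 * 2^s - 1) (ex s).1 (ex s).2.1 (ex s).2.2 (fun t => evB (x t) (ul t))
        (fun t => evB (x t) (al t)) (fun t => evB (x t) (bl t)) l α K δ₁ ∧
      (∀ t, al t ≠ bl t) ∧ (∀ t, (al t).length = (bl t).length) ∧
      NO (fun t => (al t).length) (43 * (2^(s+1) - 1)) := by
  induction s with
  | zero =>
    intro J N h1 h2
    simp only [ex] at h1
    obtain ⟨l, α, K, δ₁, h⟩ := hbase J N h1 h2
    refine ⟨fun _ => [0], fun t => rep (α t) [0] ++ TL J [1] [2] ++ rep (α t) [0],
      fun t => rep (α t) [0] ++ TL J [2] [1] ++ rep (α t) [0], l, α, K, δ₁, ?_, ?_, ?_, ?_⟩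
    · have e0 : (fun t => evB (x t) [0]) = fun t => x t 0 := by funext t; exact evB_singleton _ _
      have e1 : (fun t => evB (x t) (rep (α t) [0] ++ TL J [1] [2] ++ rep (α t) [0]))
          = fun t => x t 0 ^ (α t) * T J (x t 1) (x t 2) * x t 0 ^ (α t) := by
        funext t
        rw [evB_append, evB_append, evB_rep, evB_TL, evB_singleton, evB_singleton, evB_singleton]
      have e2 : (fun t => evB (x t) (rep (α t) [0] ++ TL J [2] [1] ++ rep (α t) [0]))
          = fun t => x t 0 ^ (α t) * T J (x t 2) (x t 1) * x t 0 ^ (α t) := by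
        funext t
        rw [evB_append, evB_append, evB_rep, evB_TL, evB_singleton, evB_singleton, evB_singleton]
      rw [e0, e1, e2]
      simpa [ex] using h
    · intro t heq
      have h3 := List.append_cancel_right heq
      have h4 := List.append_cancel_left h3
      exact TL_ne J (by simp) (by simp) h4
    · intro t
      simp only [List.length_append]
      rw [length_TL J (by simp : [(1 : Fin 3)].length = [(2 : Fin 3)].length),
        length_TL J (by simp : [(2 : Fin 3)].length = [(1 : Fin 3)].length)]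
      simp
    · have n1 : NO (fun t => α t + 2^J + α t) 43 :=
        (h.hα.add ((NO.const (2^J)).mono (by omega))).add h.hα
      refine (n1.mono (by norm_num)).of_le (Eventually.of_forall (fun t => ?_))
      simp only [List.length_append]
      rw [length_TL J (by simp : [(1 : Fin 3)].length = [(2 : Fin 3)].length), length_rep]
      simp
  | succ s ih =>
    intro J N h1 h2
    obtain ⟨i1, i2, i3⟩ := ex_inv s
    have hp : 1 ≤ 2^s := Nat.one_le_two_pow
    have e1 : 2^(s+1) = 2 * 2^s := by ring
    have e2 : 2^(s+1+1) = 4 * 2^s := by ring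
    have hexs : (ex (s+1)).2.2 = (ex s).2.2 + ((ex s).2.1 + 20 * 2^s - 1) := rfl
    have hexc : (ex (s+1)).1 = (ex s).2.1 + 20 * 2^s - 1 := rfl
    have hexk : (ex (s+1)).2.1 = 2 * (ex s).2.2 := rfl
    rw [hexs] at h1
    obtain ⟨ul, al, bl, l, α, K, δ₁, h, hne, hlen, hNO⟩ := ih J N (by omega) h2
    rw [e1] at i2 i3
    obtain ⟨l', α', K', δ₁', h'⟩ := stepO h (20 * 2^s) (by omega) (by omega) (by omega) (by omega)
      h1 h2 (by omega)
    have hΛ : 2 * (43 * 2^s - 1) + 1 = 43 * 2^(s+1) - 1 := by omega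
    rw [hΛ, ← hexs, ← hexc, ← hexk] at h'
    refine ⟨al, fun t => rep (α' t) (al t) ++ TL J (al t) (bl t) ++ rep (α' t) (al t),
      fun t => rep (α' t) (al t) ++ TL J (bl t) (al t) ++ rep (α' t) (al t), l', α', K', δ₁',
      ?_, ?_, ?_, ?_⟩
    · have f1 : (fun t => evB (x t) (rep (α' t) (al t) ++ TL J (al t) (bl t) ++ rep (α' t) (al t)))
          = fun t => evB (x t) (al t) ^ (α' t) * T J (evB (x t) (al t)) (evB (x t) (bl t))
            * evB (x t) (al t) ^ (α' t) := by
        funext t
        rw [evB_append, evB_append, evB_rep, evB_TL]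
      have f2 : (fun t => evB (x t) (rep (α' t) (al t) ++ TL J (bl t) (al t) ++ rep (α' t) (al t)))
          = fun t => evB (x t) (al t) ^ (α' t) * T J (evB (x t) (bl t)) (evB (x t) (al t))
            * evB (x t) (al t) ^ (α' t) := by
        funext t
        rw [evB_append, evB_append, evB_rep, evB_TL]
      rw [f1, f2]
      exact h'
    · intro t heq
      have h3 := List.append_cancel_right heq
      have h4 := List.append_cancel_left h3
      exact TL_ne J (hlen t) (hne t) h4
    · intro t
      simp only [List.length_append]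
      rw [length_TL J (hlen t), length_TL J (hlen t).symm, hlen t]
    · have n1 : NO (fun t => α' t + 2^J + α' t) (43 * 2^(s+1) - 1 + 1) :=
        (h'.hα.add ((NO.const (2^J)).mono (by omega))).add h'.hα
      have n2 := n1.mul hNO
      have : 43 * 2^(s+1) - 1 + 1 + 43 * (2^(s+1) - 1) = 43 * (2^(s+1+1) - 1) := by omega
      rw [this] at n2
      refine n2.of_le (Eventually.of_forall (fun t => ?_))
      simp only [List.length_append]
      rw [length_TL J (hlen t), length_rep]
      apply le_of_eq; ring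

end Vale.Agent.P321S
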