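import Mathlib
import Vale.Agent.P321S.BaseDefs

/-! P321 overlap: the weighted `L²` form on words -/

namespace Vale.Agent.P321S

open MonoidAlgebra Finset
open Vale.Agent.P321 (Letter)

/-- law of a single letter -/
noncomputable def nl (q : ℝ) : Letter → ℝ
  | .a => q/(1+q)
  | .b => q/(1+q)
  | .c => (1-q)/(1+q)

lemma nl_pos {q : ℝ} (h0 : 0 < q) (h1 : q < 1) (x : Letter) : 0 < nl q x := by
  cases x
  · exact div_pos h0 (by linarith)
  · exact div_pos h0 (by linarith)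
  · exact div_pos (by linarith) (by linarith)

lemma nl_sum {q : ℝ} (h0 : 0 < q) : nl q .a + nl q .b + nl q .c = 1 := by
  have : 1 + q ≠ 0 := by linarith
  simp only [nl]
  field_simp
  ring

/-- product weight of a word -/
noncomputable def nw (q : ℝ) : Wo →* ℝ := FreeMonoid.lift (nl q)

lemma nw_of (q : ℝ) (x : Letter) : nw q (FreeMonoid.of x) = nl q x := by simp [nw]

lemma nw_mul_of (q : ℝ) (u : Wo) (x : Letter) : nw q (u * FreeMonoid.of x) = nw q u * nl q x := by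
  rw [map_mul, nw_of]

lemma nw_pos {q : ℝ} (h0 : 0 < q) (h1 : q < 1) (w : Wo) : 0 < nw q w := by
  induction w using FreeMonoid.inductionOn' with
  | one => simp
  | of_mul x w ih =>
    rw [map_mul, nw_of]
    exact mul_pos (nl_pos h0 h1 x) ih

/-- combination of letters -/
noncomputable def lc (α : Letter → ℝ) : Al Wo := α .a • lt .a + α .b • lt .b + α .c • lt .c

lemma E_lt (x : Letter) (φ : Wo → ℝ) : E (lt x) φ = φ (FreeMonoid.of x) := by
  rw [lt, E_single, one_mul]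

lemma E_lc (α : Letter → ℝ) (φ : Wo → ℝ) : E (lc α) φ =
    α .a * φ (FreeMonoid.of .a) + α .b * φ (FreeMonoid.of .b) + α .c * φ (FreeMonoid.of .c) := by
  simp only [lc, E_add, E_smul, E_lt]

lemma E_mul_lc (F : Al Wo) (α : Letter → ℝ) (φ : Wo → ℝ) : E (F * lc α) φ =
    E F (fun u => α .a * φ (u * FreeMonoid.of .a) + α .b * φ (u * FreeMonoid.of .b)
      + α .c * φ (u * FreeMonoid.of .c)) := by
  rw [E_mul]
  simp only [E_lc]

lemma mul_of_inj {u v : Wo} {x y : Letter} :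
    v * FreeMonoid.of y = u * FreeMonoid.of x ↔ v = u ∧ y = x := by
  constructor
  · intro h
    have h1 : FreeMonoid.toList v ++ [y] = FreeMonoid.toList u ++ [x] := by
      have := congrArg FreeMonoid.toList h
      simpa using this
    have h2 := List.append_inj' h1 rfl
    refine ⟨FreeMonoid.toList.injective h2.1, ?_⟩
    simpa using h2.2
  · rintro ⟨rfl, rfl⟩; rfl

lemma mul_of_ne_one {u : Wo} {x : Letter} : u * FreeMonoid.of x ≠ 1 := by
  intro h
  have := congrArg FreeMonoid.toList h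
  simp at this

lemma coeff_mul_lc (F : Al Wo) (α : Letter → ℝ) (u : Wo) (x : Letter) :
    (F * lc α).coeff (u * FreeMonoid.of x) = F.coeff u * α x := by
  classical
  rw [← E_indicator (F * lc α), E_mul_lc]
  have e : ∀ y : Letter, ∀ v : Wo, (if v * FreeMonoid.of y = u * FreeMonoid.of x then (1:ℝ) else 0)
      = (if y = x then 1 else 0) * (if v = u then 1 else 0) := by
    intro y v
    by_cases h1 : v = u <;> by_cases h2 : y = x
    · rw [if_pos (mul_of_inj.mpr ⟨h1, h2⟩), if_pos h2, if_pos h1, one_mul]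
    · rw [if_neg (fun h => h2 (mul_of_inj.mp h).2), if_neg h2, zero_mul]
    · rw [if_neg (fun h => h1 (mul_of_inj.mp h).1), if_neg h1, mul_zero]
    · rw [if_neg (fun h => h1 (mul_of_inj.mp h).1), if_neg h1, mul_zero]
  simp only [e]
  have e2 : (fun v : Wo => α .a * ((if Letter.a = x then (1:ℝ) else 0) * (if v = u then 1 else 0))
      + α .b * ((if Letter.b = x then (1:ℝ) else 0) * (if v = u then 1 else 0))
      + α .c * ((if Letter.c = x then (1:ℝ) else 0) * (if v = u then 1 else 0)))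
      = fun v => α x * (if v = u then 1 else 0) := by
    funext v
    cases x <;> simp
  rw [e2, E_smul_fun, E_indicator, mul_comm]

lemma coeff_mul_lc_one (F : Al Wo) (α : Letter → ℝ) : (F * lc α).coeff 1 = 0 := by
  classical
  rw [← E_indicator (F * lc α), E_mul_lc]
  simp only [mul_of_ne_one, if_false, mul_zero, add_zero]
  exact E_zero_fun F

/-- the form -/
noncomputable def Bf (q : ℝ) (F G : Al Wo) : ℝ := E F (fun w => G.coeff w / nw q w)

lemma Bf_add_left (q : ℝ) (F F' G : Al Wo) : Bf q (F + F') G = Bf q F G + Bf q F' G := E_add _ _ _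

lemma Bf_smul_left (q : ℝ) (r : ℝ) (F G : Al Wo) : Bf q (r • F) G = r * Bf q F G := E_smul _ _ _

lemma Bf_eq_sum (q : ℝ) (F G : Al Wo) (s : Finset Wo) (h : F.coeff.support ⊆ s) :
    Bf q F G = ∑ w ∈ s, F.coeff w * (G.coeff w / nw q w) := E_eq_sum F s h _

lemma Bf_symm (q : ℝ) (F G : Al Wo) : Bf q F G = Bf q G F := by
  classical
  rw [Bf_eq_sum q F G (F.coeff.support ∪ G.coeff.support) Finset.subset_union_left,
    Bf_eq_sum q G F (F.coeff.support ∪ G.coeff.support) Finset.subset_union_right]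
  apply Finset.sum_congr rfl
  intro w _
  ring

lemma Bf_add_right (q : ℝ) (F G G' : Al Wo) : Bf q F (G + G') = Bf q F G + Bf q F G' := by
  rw [Bf_symm, Bf_add_left, Bf_symm q G, Bf_symm q G']

lemma Bf_smul_right (q : ℝ) (r : ℝ) (F G : Al Wo) : Bf q F (r • G) = r * Bf q F G := by
  rw [Bf_symm, Bf_smul_left, Bf_symm]

lemma Bf_zero_left (q : ℝ) (G : Al Wo) : Bf q 0 G = 0 := E_zero _

lemma Bf_zero_right (q : ℝ) (F : Al Wo) : Bf q F 0 = 0 := by rw [Bf_symm, Bf_zero_left]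

lemma Bf_sum_left {ι : Type*} (q : ℝ) (s : Finset ι) (F : ι → Al Wo) (G : Al Wo) :
    Bf q (∑ i ∈ s, F i) G = ∑ i ∈ s, Bf q (F i) G := E_sum _ _ _

lemma Bf_sum_right {ι : Type*} (q : ℝ) (s : Finset ι) (F : Al Wo) (G : ι → Al Wo) :
    Bf q F (∑ i ∈ s, G i) = ∑ i ∈ s, Bf q F (G i) := by
  rw [Bf_symm, Bf_sum_left]
  exact Finset.sum_congr rfl (fun i _ => Bf_symm _ _ _)

lemma Bf_self_nonneg {q : ℝ} (h0 : 0 < q) (h1 : q < 1) (F : Al Wo) : 0 ≤ Bf q F F := by
  rw [Bf_eq_sum q F F _ (Finset.Subset.refl _)]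
  apply Finset.sum_nonneg
  intro w _
  rw [mul_div_assoc']
  exact div_nonneg (mul_self_nonneg _) (nw_pos h0 h1 w).le

lemma Bf_nonneg {q : ℝ} (h0 : 0 < q) (h1 : q < 1) {F G : Al Wo} (hF : Nn F) (hG : Nn G) :
    0 ≤ Bf q F G :=
  E_nonneg hF (fun w => div_nonneg (hG w) (nw_pos h0 h1 w).le)

lemma Bf_le_half {q : ℝ} (h0 : 0 < q) (h1 : q < 1) (F G : Al Wo) :
    Bf q F G ≤ (Bf q F F + Bf q G G) / 2 := by
  have h := Bf_self_nonneg h0 h1 (F + (-1:ℝ) • G)
  rw [Bf_add_left, Bf_add_right, Bf_add_right, Bf_smul_left, Bf_smul_left, Bf_smul_right,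
    Bf_smul_right, Bf_symm q G F] at h
  linarith

/-- peeling one letter -/
lemma Bf_lc (q : ℝ) (F G : Al Wo) (α β : Letter → ℝ) : Bf q (F * lc α) (G * lc β) =
    (α .a * β .a / nl q .a + α .b * β .b / nl q .b + α .c * β .c / nl q .c) * Bf q F G := by
  unfold Bf
  rw [E_mul_lc, ← E_smul_fun]
  congr 1
  funext u
  simp only [coeff_mul_lc, nw_mul_of]
  rcases eq_or_ne (nw q u) 0 with h | h
  · simp [h]
  · field_simp

lemma Bf_lc_one (q : ℝ) (F : Al Wo) (α : Letter → ℝ) : Bf q (F * lc α) 1 = 0 := by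
  rw [Bf_symm]
  unfold Bf
  rw [E_one, coeff_mul_lc_one, zero_div]

/-- the letter law and the centred letter -/
noncomputable def eNu (q : ℝ) : Al Wo := lc (nl q)

/-- coefficients of the centred letter -/
noncomputable def zl (q : ℝ) : Letter → ℝ
  | .a => 1 - nl q .a
  | .b => - nl q .b
  | .c => - nl q .c

noncomputable def eZe (q : ℝ) : Al Wo := lc (zl q)

lemma lt_a_eq (q : ℝ) : lt .a = eNu q + eZe q := by
  simp only [eNu, eZe, lc, zl]
  rw [sub_smul, neg_smul, neg_smul, one_smul]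
  abel

lemma eN_eq {q : ℝ} (h0 : 0 < q) : eN q = (q^2) • (1 : Al Wo) + (1-q^2) • eNu q := by
  have : 1 + q ≠ 0 := by linarith
  have e1 : (1-q^2) * (q/(1+q)) = q*(1-q) := by field_simp; ring
  have e2 : (1-q^2) * ((1-q)/(1+q)) = (1-q)^2 := by field_simp; ring
  simp only [eN, eNu, lc, nl, smul_add, smul_smul, e1, e2]
  abel

lemma eX_eq (q : ℝ) : eX q = (q • (1 : Al Wo) + (1-q) • eNu q) + (1-q) • eZe q := by
  rw [eX, lt_a_eq q, smul_add]
  abel

lemma Bf_nu_nu {q : ℝ} (h0 : 0 < q) (h1 : q < 1) (F G : Al Wo) :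
    Bf q (F * eNu q) (G * eNu q) = Bf q F G := by
  rw [eNu, Bf_lc]
  have ha := (nl_pos h0 h1 .a).ne'
  have hb := (nl_pos h0 h1 .b).ne'
  have hc := (nl_pos h0 h1 .c).ne'
  rw [mul_div_assoc, div_self ha, mul_div_assoc, div_self hb, mul_div_assoc, div_self hc]
  rw [mul_one, mul_one, mul_one, nl_sum h0, one_mul]

lemma zl_sum {q : ℝ} (h0 : 0 < q) : zl q .a + zl q .b + zl q .c = 0 := by
  have := nl_sum h0
  simp only [zl]
  linarith

lemma Bf_ze_nu {q : ℝ} (h0 : 0 < q) (h1 : q < 1) (F G : Al Wo) :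
    Bf q (F * eZe q) (G * eNu q) = 0 := by
  rw [eNu, eZe, Bf_lc]
  have ha := (nl_pos h0 h1 .a).ne'
  have hb := (nl_pos h0 h1 .b).ne'
  have hc := (nl_pos h0 h1 .c).ne'
  rw [mul_div_assoc, div_self ha, mul_div_assoc, div_self hb, mul_div_assoc, div_self hc]
  rw [mul_one, mul_one, mul_one, zl_sum h0, zero_mul]

lemma Bf_nu_ze {q : ℝ} (h0 : 0 < q) (h1 : q < 1) (F G : Al Wo) :
    Bf q (F * eNu q) (G * eZe q) = 0 := by
  rw [Bf_symm, Bf_ze_nu h0 h1]

lemma Bf_ze_ze {q : ℝ} (h0 : 0 < q) (h1 : q < 1) (F G : Al Wo) :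
    Bf q (F * eZe q) (G * eZe q) = (1/q) * Bf q F G := by
  rw [eZe, Bf_lc]
  congr 1
  have h2 : 1 + q ≠ 0 := by linarith
  have h3 : 1 - q ≠ 0 := by linarith
  have h4 : q ≠ 0 := by linarith
  simp only [zl, nl]
  field_simp
  ring

lemma Bf_nu_pow {q : ℝ} (h0 : 0 < q) (h1 : q < 1) (F G : Al Wo) (n : ℕ) :
    Bf q (F * eNu q ^ n) (G * eNu q ^ n) = Bf q F G := by
  induction n with
  | zero => simp
  | succ n ih =>
    rw [pow_succ, ← mul_assoc, ← mul_assoc, Bf_nu_nu h0 h1, ih]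

lemma Bf_ze_pow_one {q : ℝ} (F : Al Wo) (n : ℕ) : Bf q (F * eZe q * eNu q ^ n) 1 = 0 := by
  cases n with
  | zero => rw [pow_zero, mul_one, eZe, Bf_lc_one]
  | succ n => rw [pow_succ, ← mul_assoc, eNu, Bf_lc_one]

/-- (Q2) on monomials -/
lemma Bf_ze_pow {q : ℝ} (h0 : 0 < q) (h1 : q < 1) (F : Al Wo) (i j : ℕ) :
    Bf q (F * eZe q * eNu q ^ i) (eNu q ^ j) = 0 := by
  rcases Nat.lt_or_ge i j with h | h
  · obtain ⟨k, rfl⟩ := Nat.exists_eq_add_of_lt h
    have e : eNu q ^ (i + k + 1) = (eNu q ^ k * eNu q) * eNu q ^ i := by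
      rw [← pow_succ, ← pow_add]; congr 1; ring
    rw [e, Bf_nu_pow h0 h1, Bf_ze_nu h0 h1]
  · obtain ⟨k, rfl⟩ := Nat.exists_eq_add_of_le h
    have e : F * eZe q * eNu q ^ (j + k) = (F * eZe q * eNu q ^ k) * eNu q ^ j := by
      rw [mul_assoc _ (eNu q ^ k), ← pow_add]; congr 2; ring
    have e2 := Bf_nu_pow h0 h1 (F * eZe q * eNu q ^ k) 1 j
    rw [one_mul] at e2
    rw [e, e2]
    exact Bf_ze_pow_one F k

end Vale.Agent.P321S
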