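import Mathlib
import Vale.Agent.P321S.OvForm
import Vale.Agent.P321S.Shift

/-! P321 overlap: evaluation of polynomials at the letter law, and the orthogonality relations -/

namespace Vale.Agent.P321S

open MonoidAlgebra Finset
open Vale.Agent.P321 (Letter)

/-- the free monoid on one generator -/
abbrev Tm := Multiplicative ℕ

/-- evaluation at the letter law -/
noncomputable def ev (q : ℝ) : Al Tm →ₐ[ℝ] Al Wo :=
  MonoidAlgebra.lift ℝ (Al Wo) Tm (powersHom (Al Wo) (eNu q))

lemma ev_single (q : ℝ) (m : Tm) (r : ℝ) :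
    ev q (single m r) = r • eNu q ^ (Multiplicative.toAdd m) := by
  rw [ev, lift_single, powersHom_apply]

/-- the plain form on lengths -/
noncomputable def ip (b b' : Al Tm) : ℝ := E b (fun m => b'.coeff m)

lemma ip_add_left (a a' b : Al Tm) : ip (a + a') b = ip a b + ip a' b := E_add _ _ _

lemma ip_add_right (a b b' : Al Tm) : ip a (b + b') = ip a b + ip a b' := by
  unfold ip
  rw [← E_add_fun]
  congr 1

lemma ip_nonneg {b b' : Al Tm} (h : Nn b) (h' : Nn b') : 0 ≤ ip b b' := E_nonneg h h'

lemma ip_single (m m' : Tm) (r r' : ℝ) :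
    ip (single m r) (single m' r') = if m = m' then r * r' else 0 := by
  classical
  unfold ip
  rw [E_single, coeff_single, Finsupp.single_apply]
  by_cases h : m = m'
  · rw [if_pos h.symm, if_pos h]
  · rw [if_neg (fun h' => h h'.symm), if_neg h, mul_zero]

lemma Bf_nu_nu_pow {q : ℝ} (h0 : 0 < q) (h1 : q < 1) (i j : ℕ) :
    Bf q (eNu q ^ i) (eNu q ^ j) = if i = j then 1 else 0 := by
  have key : ∀ i k : ℕ, Bf q (eNu q ^ i) (eNu q ^ (i + k)) = if k = 0 then 1 else 0 := by
    intro i k
    have e := Bf_nu_pow h0 h1 1 (eNu q ^ k) i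
    rw [one_mul, ← pow_add, add_comm k i] at e
    rw [e]
    cases k with
    | zero =>
      rw [if_pos rfl, pow_zero]
      unfold Bf
      rw [E_one, one_def, coeff_single]
      simp
    | succ k =>
      rw [if_neg (Nat.succ_ne_zero k), Bf_symm, pow_succ, eNu, Bf_lc_one]
  rcases le_total i j with h | h
  · obtain ⟨k, rfl⟩ := Nat.exists_eq_add_of_le h
    rw [key]
    by_cases hk : k = 0
    · rw [if_pos hk, if_pos (by omega)]
    · rw [if_neg hk, if_neg (by omega)]
  · obtain ⟨k, rfl⟩ := Nat.exists_eq_add_of_le h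
    rw [Bf_symm, key]
    by_cases hk : k = 0
    · rw [if_pos hk, if_pos (by omega)]
    · rw [if_neg hk, if_neg (by omega)]

lemma Bf_ze_ze_pow {q : ℝ} (h0 : 0 < q) (h1 : q < 1) (F F' : Al Wo) (i j : ℕ) :
    Bf q (F * eZe q * eNu q ^ i) (F' * eZe q * eNu q ^ j) =
      if i = j then (1/q) * Bf q F F' else 0 := by
  have key : ∀ (F F' : Al Wo) (i k : ℕ), Bf q (F * eZe q * eNu q ^ i)
      (F' * eZe q * eNu q ^ (i + k)) = if k = 0 then (1/q) * Bf q F F' else 0 := by
    intro F F' i k
    rw [add_comm i k, pow_add, ← mul_assoc, Bf_nu_pow h0 h1]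
    cases k with
    | zero => rw [if_pos rfl, pow_zero, mul_one, Bf_ze_ze h0 h1]
    | succ k =>
      rw [if_neg (Nat.succ_ne_zero k), pow_succ, ← mul_assoc, Bf_ze_nu h0 h1]
  rcases le_total i j with h | h
  · obtain ⟨k, rfl⟩ := Nat.exists_eq_add_of_le h
    rw [key]
    by_cases hk : k = 0
    · rw [if_pos hk, if_pos (by omega)]
    · rw [if_neg hk, if_neg (by omega)]
  · obtain ⟨k, rfl⟩ := Nat.exists_eq_add_of_le h
    rw [Bf_symm, key, Bf_symm q F' F]
    by_cases hk : k = 0
    · rw [if_pos hk, if_pos (by omega)]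
    · rw [if_neg hk, if_neg (by omega)]

/-- (Q1) -/
lemma Bf_ev_ev {q : ℝ} (h0 : 0 < q) (h1 : q < 1) (b b' : Al Tm) :
    Bf q (ev q b) (ev q b') = ip b b' := by
  induction b using MonoidAlgebra.induction_linear with
  | zero => rw [map_zero, Bf_zero_left]; exact (E_zero _).symm
  | add x y hx hy => rw [map_add, Bf_add_left, hx, hy, ip_add_left]
  | single m r =>
    induction b' using MonoidAlgebra.induction_linear with
    | zero =>
      rw [map_zero, Bf_zero_right]
      unfold ip
      simp
    | add x y hx hy => rw [map_add, Bf_add_right, hx, hy, ip_add_right]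
    | single m' r' =>
      rw [ev_single, ev_single, Bf_smul_left, Bf_smul_right, Bf_nu_nu_pow h0 h1, ip_single]
      by_cases h : m = m'
      · rw [if_pos h, if_pos (congrArg _ h)]; ring
      · rw [if_neg h, if_neg (fun h' => h (Multiplicative.toAdd.injective h'))]; ring

/-- (Q2) -/
lemma Bf_ze_ev {q : ℝ} (h0 : 0 < q) (h1 : q < 1) (F : Al Wo) (b b' : Al Tm) :
    Bf q (F * eZe q * ev q b) (ev q b') = 0 := by
  induction b using MonoidAlgebra.induction_linear with
  | zero => rw [map_zero, mul_zero, Bf_zero_left]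
  | add x y hx hy => rw [map_add, mul_add, Bf_add_left, hx, hy, add_zero]
  | single m r =>
    induction b' using MonoidAlgebra.induction_linear with
    | zero => rw [map_zero, Bf_zero_right]
    | add x y hx hy => rw [map_add, Bf_add_right, hx, hy, add_zero]
    | single m' r' =>
      rw [ev_single, ev_single, mul_smul_comm, Bf_smul_left, Bf_smul_right, Bf_ze_pow h0 h1,
        mul_zero, mul_zero]

/-- (Q3) -/
lemma Bf_ze_ze_ev {q : ℝ} (h0 : 0 < q) (h1 : q < 1) (F F' : Al Wo) (b b' : Al Tm) :
    Bf q (F * eZe q * ev q b) (F' * eZe q * ev q b') = (1/q) * Bf q F F' * ip b b' := by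
  induction b using MonoidAlgebra.induction_linear with
  | zero =>
    rw [map_zero, mul_zero, Bf_zero_left]
    have : ip 0 b' = 0 := E_zero _
    rw [this, mul_zero]
  | add x y hx hy => rw [map_add, mul_add, Bf_add_left, hx, hy, ip_add_left]; ring
  | single m r =>
    induction b' using MonoidAlgebra.induction_linear with
    | zero =>
      rw [map_zero, mul_zero, Bf_zero_right]
      have : ip (single m r) 0 = 0 := by unfold ip; simp
      rw [this, mul_zero]
    | add x y hx hy => rw [map_add, mul_add, Bf_add_right, hx, hy, ip_add_right]; ring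
    | single m' r' =>
      rw [ev_single, ev_single, mul_smul_comm, mul_smul_comm, Bf_smul_left, Bf_smul_right,
        Bf_ze_ze_pow h0 h1, ip_single]
      by_cases h : m = m'
      · rw [if_pos h, if_pos (congrArg _ h)]; ring
      · rw [if_neg h, if_neg (fun h' => h (Multiplicative.toAdd.injective h'))]; ring

/-- the generator -/
noncomputable def tt : Al Tm := single (Multiplicative.ofAdd 1) 1

/-- length law of the trace of `01` -/
noncomputable def tn (q : ℝ) : Al Tm := (q^2) • (1 : Al Tm) + (1-q^2) • tt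

/-- length law of the trace of `0` -/
noncomputable def tx (q : ℝ) : Al Tm := q • (1 : Al Tm) + (1-q) • tt

lemma ev_tt (q : ℝ) : ev q tt = eNu q := by
  rw [tt, ev_single]; simp

lemma ev_tn {q : ℝ} (h0 : 0 < q) : ev q (tn q) = eN q := by
  rw [tn, map_add, map_smul, map_smul, map_one, ev_tt, eN_eq h0]

/-- the neutral version of `eX` -/
noncomputable def eX0 (q : ℝ) : Al Wo := q • (1 : Al Wo) + (1-q) • eNu q

lemma ev_tx (q : ℝ) : ev q (tx q) = eX0 q := by
  rw [tx, map_add, map_smul, map_smul, map_one, ev_tt, eX0]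

lemma eX_eq' (q : ℝ) : eX q = eX0 q + (1-q) • eZe q := eX_eq q

/-- shift bound in one variable, for an arbitrary probability measure `t` -/
lemma shift_gen {M : Type*} [Monoid M] {q : ℝ} (h0 : 0 < q) (h1 : q < 1) (t : Al M) (ht : Pr t)
    (k : ℕ) :
    l1 (((q^2) • (1 : Al M) + (1-q^2) • t)^k * (1 - t)) ≤ 2/(q^2*(1-q^2)) / √(k+1) := by
  have hr : 0 < 1 - q^2 := by nlinarith
  set n : Al M := (q^2) • (1 : Al M) + (1-q^2) • t with hn
  have hpr : Pr n := by
    refine ⟨(Nn_one.smul (by positivity)).add (ht.nn.smul hr.le), ?_⟩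
    rw [hn, mass_add, mass_smul, mass_smul, mass_one, ht.mass]; ring
  have hov : Ov n 0 (q^2) ((q^2) • (1 : Al M)) := by
    refine ⟨hpr, Nn_one.smul (by positivity), ?_, ?_, ?_, by positivity⟩
    · rw [pow_zero]
      intro w
      rw [coeff_smul, Finsupp.smul_apply, smul_eq_mul]
      have := Nn_one (M := M) w
      nlinarith
    · rw [pow_one]
      apply Nn.le
      have : n - (q^2) • (1 : Al M) = (1-q^2) • t := by rw [hn]; abel
      rw [this]
      exact ht.nn.smul hr.le
    · rw [mass_smul, mass_one, mul_one]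
  have key := shift_l1 hov k
  rw [mul_zero, zero_add] at key
  have e : n^k - n^(k+1) = (1-q^2) • (n^k * (1 - t)) := by
    have e1 : 1 - n = (1-q^2) • (1 - t) := by
      rw [hn, smul_sub]
      have : (1 : Al M) = (q^2) • (1 : Al M) + (1-q^2) • (1 : Al M) := by
        rw [← add_smul]
        have : q^2 + (1-q^2) = 1 := by ring
        rw [this, one_smul]
      nth_rewrite 1 [this]
      abel
    rw [pow_succ, ← mul_smul_comm, ← e1, mul_sub, mul_one]
  rw [e, l1_smul, abs_of_pos hr] at key
  have hsq : 0 < √((k:ℝ)+1) := Real.sqrt_pos.mpr (by positivity)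
  rw [div_div, le_div_iff₀ (by positivity)]
  rw [le_div_iff₀ (by positivity)] at key
  calc l1 (n^k * (1-t)) * (q^2 * (1-q^2) * √((k:ℝ)+1))
      = (1 - q^2) * l1 (n^k * (1-t)) * (q^2 * √((k:ℝ)+1)) := by ring
    _ ≤ 2 := key

end Vale.Agent.P321S
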