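import Mathlib

/-! P321 overlap: elementary sums -/

namespace Vale.Agent.P321S

open Finset

lemma inv_sq_sum (n : ℕ) : ∑ i ∈ range (n+1), 1/((i:ℝ)+1)^2 ≤ 2 - 1/((n:ℝ)+1) := by
  induction n with
  | zero => simp; norm_num
  | succ n ih =>
    rw [Finset.sum_range_succ]
    have h1 : (0:ℝ) < (n:ℝ)+1 := by positivity
    have h2 : (0:ℝ) < (n:ℝ)+1+1 := by positivity
    have h3 : 1/(((n:ℝ)+1)+1)^2 ≤ 1/((n:ℝ)+1) - 1/((n:ℝ)+1+1) := by
      have e : 1/((n:ℝ)+1) - 1/((n:ℝ)+1+1) = 1/(((n:ℝ)+1)*((n:ℝ)+1+1)) := by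
        field_simp; ring
      rw [e]
      apply one_div_le_one_div_of_le (by positivity)
      nlinarith
    push_cast
    linarith

lemma inv_sq_sum' (n : ℕ) : ∑ i ∈ range n, 1/((i:ℝ)+1)^2 ≤ 2 := by
  cases n with
  | zero => simp
  | succ n =>
    have := inv_sq_sum n
    have h1 : (0:ℝ) < 1/((n:ℝ)+1) := by positivity
    linarith

lemma R_sum (J n : ℕ) : ∑ s ∈ range n, 1/((s:ℝ)-J)^2 ≤ 4 := by
  have h1 : ∑ s ∈ range n, 1/((s:ℝ)-J)^2 ≤ ∑ s ∈ range (J + 1 + n), 1/((s:ℝ)-J)^2 := by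
    apply Finset.sum_le_sum_of_subset_of_nonneg
    · intro s hs; rw [mem_range] at *; omega
    · intro s _ _; positivity
  refine h1.trans ?_
  rw [Finset.sum_range_add, Finset.sum_range_succ]
  have h2 : ∑ s ∈ range J, 1/((s:ℝ)-J)^2 = ∑ i ∈ range J, 1/((i:ℝ)+1)^2 := by
    rw [← Finset.sum_range_reflect]
    apply Finset.sum_congr rfl
    intro i hi
    rw [mem_range] at hi
    have : ((J - 1 - i : ℕ) : ℝ) = J - 1 - i := by
      rw [Nat.cast_sub (by omega), Nat.cast_sub (by omega)]; simp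
    rw [this]
    congr 1
    ring
  have h3 : ∑ i ∈ range n, 1/(((J + 1 + i : ℕ):ℝ)-J)^2 = ∑ i ∈ range n, 1/((i:ℝ)+1)^2 := by
    apply Finset.sum_congr rfl
    intro i _
    push_cast
    congr 1
    ring
  rw [h2, h3, sub_self]
  have := inv_sq_sum' J
  have := inv_sq_sum' n
  norm_num
  norm_num at *
  linarith

lemma R_sum' (t n : ℕ) : ∑ s ∈ range n, 1/((t:ℝ)-s)^2 ≤ 4 := by
  have := R_sum t n
  have e : ∀ s ∈ range n, 1/((t:ℝ)-s)^2 = 1/((s:ℝ)-t)^2 := by
    intro s _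
    congr 1; ring
  rw [Finset.sum_congr rfl e]; exact this

lemma inv_sqrt_sum (n : ℕ) : ∑ i ∈ range n, 1/√((i:ℝ)+1) ≤ 2*√n := by
  induction n with
  | zero => simp
  | succ n ih =>
    rw [Finset.sum_range_succ]
    push_cast
    have h1 : 0 < √((n:ℝ)+1) := Real.sqrt_pos.mpr (by positivity)
    have h2 : √((n:ℝ)+1)^2 = n+1 := Real.sq_sqrt (by positivity)
    have h3 : √(n:ℝ)^2 = n := Real.sq_sqrt (by positivity)
    have h4 : 0 ≤ √(n:ℝ) := Real.sqrt_nonneg _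
    have h5 : 1/√((n:ℝ)+1) ≤ 2*√((n:ℝ)+1) - 2*√n := by
      rw [div_le_iff₀ h1]
      nlinarith [sq_nonneg (√((n:ℝ)+1) - √n)]
    linarith

/-- convolution square of `1/√(t+1)` -/
lemma conv_a (J : ℕ) :
    ∑ t ∈ range (J+1), 1/√((t:ℝ)+1) * (1/√(((J-t:ℕ):ℝ)+1)) ≤ 4 := by
  have h1 : ∀ t ∈ range (J+1), 1/√((t:ℝ)+1) * (1/√(((J-t:ℕ):ℝ)+1)) ≤
      (1/√((J:ℝ)+2)) * (1/√((t:ℝ)+1) + 1/√(((J-t:ℕ):ℝ)+1)) := by
    intro t ht
    rw [mem_range] at ht
    set a := √((t:ℝ)+1) with ha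
    set b := √(((J-t:ℕ):ℝ)+1) with hb
    set c := √((J:ℝ)+2) with hc
    have a0 : 0 < a := Real.sqrt_pos.mpr (by positivity)
    have b0 : 0 < b := Real.sqrt_pos.mpr (by positivity)
    have c0 : 0 < c := Real.sqrt_pos.mpr (by positivity)
    have a2 : a^2 = t+1 := Real.sq_sqrt (by positivity)
    have b2 : b^2 = ((J-t:ℕ):ℝ)+1 := Real.sq_sqrt (by positivity)
    have c2 : c^2 = J+2 := Real.sq_sqrt (by positivity)
    have hJ : ((J-t:ℕ):ℝ) = J - t := by rw [Nat.cast_sub (by omega)]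
    have h : c ≤ a + b := by
      apply abs_le_of_sq_le_sq' _ (by positivity) |>.2
      rw [c2]
      nlinarith [mul_pos a0 b0]
    have e1 : 1/a*(1/b) = c/(c*a*b) := by field_simp
    have e2 : (1/c)*(1/a+1/b) = (a+b)/(c*a*b) := by field_simp; ring
    rw [e1, e2]
    exact div_le_div_of_nonneg_right h (by positivity)
  refine (Finset.sum_le_sum h1).trans ?_
  rw [← Finset.mul_sum, Finset.sum_add_distrib]
  have h2 : ∑ t ∈ range (J+1), 1/√(((J-t:ℕ):ℝ)+1) = ∑ t ∈ range (J+1), 1/√((t:ℝ)+1) := by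
    have := Finset.sum_range_reflect (fun t : ℕ => 1/√((t:ℝ)+1)) (J+1)
    rw [← this]
    apply Finset.sum_congr rfl
    intro t _
    have : J + 1 - 1 - t = J - t := by omega
    rw [this]
  rw [h2]
  have h3 := inv_sqrt_sum (J+1)
  have h4 : √((J+1:ℕ):ℝ) ≤ √((J:ℝ)+2) := by
    apply Real.sqrt_le_sqrt; push_cast; linarith
  have c0 : 0 < √((J:ℝ)+2) := Real.sqrt_pos.mpr (by positivity)
  rw [one_div, inv_mul_le_iff₀ c0]
  linarith

/-- the weights -/
noncomputable def wt (σ : ℝ) (t : ℕ) : ℝ := 1/√((t:ℝ)+1) + (if t = 0 then σ else 0)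

lemma wt_nonneg {σ : ℝ} (hσ : 0 ≤ σ) (t : ℕ) : 0 ≤ wt σ t := by
  unfold wt
  split_ifs <;> positivity

lemma conv_wt {σ : ℝ} (J : ℕ) : ∑ t ∈ range (J+1), wt σ t * wt σ (J-t) ≤
    4 + 2*σ/√((J:ℝ)+1) + (if J = 0 then σ^2 else 0) := by
  have e : ∀ t ∈ range (J+1), wt σ t * wt σ (J-t) =
      (1/√((t:ℝ)+1) * (1/√(((J-t:ℕ):ℝ)+1)) + (if t = 0 then σ * (1/√((J:ℝ)+1)) else 0))
      + ((if t = J then (1/√((J:ℝ)+1)) * σ else 0) +
        (if t = 0 then σ * (if J = 0 then σ else 0) else 0)) := by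
    intro t ht
    rw [mem_range] at ht
    unfold wt
    by_cases h1 : t = 0
    · subst h1
      by_cases h2 : J = 0
      · subst h2; simp; ring
      · rw [Nat.sub_zero, if_pos rfl, if_neg h2, if_pos rfl, if_neg (fun h => h2 h.symm),
          if_pos rfl]
        simp
        ring
    · by_cases h2 : t = J
      · subst h2
        rw [Nat.sub_self, if_neg h1, if_pos rfl, if_neg h1, if_pos rfl, if_neg h1]
        simp
        ring
      · rw [if_neg h1, if_neg (by omega), if_neg h1, if_neg h2, if_neg h1]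
        ring
  rw [Finset.sum_congr rfl e, Finset.sum_add_distrib, Finset.sum_add_distrib,
    Finset.sum_add_distrib, Finset.sum_ite_eq', Finset.sum_ite_eq', Finset.sum_ite_eq',
    if_pos (by simp), if_pos (by simp), if_pos (by simp)]
  have := conv_a J
  have e2 : σ * (1/√((J:ℝ)+1)) + ((1/√((J:ℝ)+1)) * σ + σ * (if J = 0 then σ else 0))
      = 2*σ/√((J:ℝ)+1) + (if J = 0 then σ^2 else 0) := by
    split_ifs <;> ring
  linarith

lemma conv_wt_le {σ : ℝ} (hσ : 0 ≤ σ) (J : ℕ) : ∑ t ∈ range (J+1), wt σ t * wt σ (J-t) ≤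
    4 + 2*σ + σ^2 := by
  refine (conv_wt J).trans ?_
  have h1 : 2*σ/√((J:ℝ)+1) ≤ 2*σ := by
    apply div_le_self (by positivity)
    rw [Real.one_le_sqrt]
    have : (0:ℝ) ≤ J := Nat.cast_nonneg J
    linarith
  have h2 : (if J = 0 then σ^2 else 0) ≤ σ^2 := by
    split_ifs
    · exact le_rfl
    · positivity
  linarith

/-- off-diagonal convolution -/
lemma conv_off {w : ℕ → ℝ} (hw : ∀ t, 0 ≤ w t) {K : ℝ}
    (hK : ∀ s, ∑ t ∈ range (s+1), w t * w (s-t) ≤ K) (J : ℕ) :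
    ∑ t ∈ range (J+1), ∑ t' ∈ range (J+1), w t * w (J-t') * (1/((t:ℝ)-t')^2) ≤ 4*K := by
  have hK0 : 0 ≤ K := le_trans (Finset.sum_nonneg (fun t _ => mul_nonneg (hw _) (hw _))) (hK 0)
  have h1 : ∀ t ∈ range (J+1), ∑ t' ∈ range (J+1), w t * w (J-t') * (1/((t:ℝ)-t')^2)
      = ∑ d ∈ range (J+1), w t * w d * (1/(((t+d:ℕ):ℝ)-J)^2) := by
    intro t _
    rw [← Finset.sum_range_reflect]
    apply Finset.sum_congr rfl
    intro d hd
    rw [mem_range] at hd
    have e1 : J + 1 - 1 - d = J - d := by omega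
    have e2 : J - (J - d) = d := by omega
    rw [e1, e2, Nat.cast_sub (by omega)]
    push_cast
    congr 2
    ring
  rw [Finset.sum_congr rfl h1, ← Finset.sum_product']
  rw [← Finset.sum_fiberwise_of_maps_to (g := fun p : ℕ × ℕ => p.1 + p.2) (t := range (2*J+1))
    (by intro p hp; simp only [mem_product, mem_range] at *; omega)]
  have h2 : ∀ s ∈ range (2*J+1),
      ∑ p ∈ range (J+1) ×ˢ range (J+1) with p.1 + p.2 = s,
        w p.1 * w p.2 * (1/(((p.1+p.2:ℕ):ℝ)-J)^2) ≤ K * (1/((s:ℝ)-J)^2) := by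
    intro s _
    have h3 : ∑ p ∈ range (J+1) ×ˢ range (J+1) with p.1 + p.2 = s,
        w p.1 * w p.2 * (1/(((p.1+p.2:ℕ):ℝ)-J)^2) =
        (∑ p ∈ range (J+1) ×ˢ range (J+1) with p.1 + p.2 = s, w p.1 * w p.2) *
          (1/((s:ℝ)-J)^2) := by
      rw [Finset.sum_mul]
      apply Finset.sum_congr rfl
      intro p hp
      rw [mem_filter] at hp
      rw [hp.2]
    rw [h3]
    apply mul_le_mul_of_nonneg_right _ (by positivity)
    refine le_trans ?_ (hK s)
    rw [← Finset.Nat.sum_antidiagonal_eq_sum_range_succ (fun a b => w a * w b) s]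
    apply Finset.sum_le_sum_of_subset_of_nonneg
    · intro p hp
      rw [mem_filter] at hp
      exact Finset.HasAntidiagonal.mem_antidiagonal.mpr hp.2
    · intro p _ _; exact mul_nonneg (hw _) (hw _)
  refine (Finset.sum_le_sum h2).trans ?_
  rw [← Finset.mul_sum, mul_comm]
  exact mul_le_mul_of_nonneg_right (R_sum J _) hK0

/-- the double sum -/
lemma double_sum {w : ℕ → ℝ} (hw : ∀ t, 0 ≤ w t) {K θ c : ℝ} (hθ : 0 ≤ θ) (hc : 0 ≤ c)
    (hK : ∀ s, ∑ t ∈ range (s+1), w t * w (s-t) ≤ K) (J : ℕ) {G I : ℕ → ℕ → ℝ} {γ : ℕ → ℝ}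
    (hG : ∀ t t', G t t' ≤ (γ t + γ t')/2) (hγ : ∀ t, t ≤ J → γ t ≤ 2 * (c * w t))
    (hI0 : ∀ t t', 0 ≤ I t t') (hI : ∀ t t', t ≤ J → t' ≤ J → I t t' ≤
      c * ((if t = t' then w (J-t) else 0) + θ * (w (J-t) + w (J-t')) * (1/((t:ℝ)-t')^2))) :
    ∑ t ∈ range (J+1), ∑ t' ∈ range (J+1), G t t' * I t t' ≤
      2 * c^2 * (∑ t ∈ range (J+1), w t * w (J-t) + 8*θ*K) := by
  set T : ℕ → ℕ → ℝ := fun t t' =>
    (if t = t' then w (J-t) else 0) + θ * (w (J-t) + w (J-t')) * (1/((t:ℝ)-t')^2) with hT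
  have hT0 : ∀ t t', 0 ≤ T t t' := by
    intro t t'
    have h1 := hw (J-t)
    have h2 := hw (J-t')
    simp only [hT]
    split_ifs <;> positivity
  have hTs : ∀ t t', T t t' = T t' t := by
    intro t t'
    simp only [hT]
    by_cases h : t = t'
    · subst h; rfl
    · rw [if_neg h, if_neg (fun h' => h h'.symm)]
      have : ((t:ℝ)-t')^2 = ((t':ℝ)-t)^2 := by ring
      rw [this]; ring
  have h1 : ∀ t ∈ range (J+1), ∀ t' ∈ range (J+1), G t t' * I t t' ≤
      c^2 * (w t * T t t') + c^2 * (w t' * T t' t) := by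
    intro t ht t' ht'
    rw [mem_range] at ht ht'
    have a1 : G t t' ≤ c * w t + c * w t' := by
      have := hG t t'
      have := hγ t (by omega)
      have := hγ t' (by omega)
      linarith
    have a2 : 0 ≤ c * w t + c * w t' :=
      add_nonneg (mul_nonneg hc (hw _)) (mul_nonneg hc (hw _))
    calc G t t' * I t t' ≤ (c * w t + c * w t') * I t t' :=
          mul_le_mul_of_nonneg_right a1 (hI0 _ _)
      _ ≤ (c * w t + c * w t') * (c * T t t') :=
          mul_le_mul_of_nonneg_left (hI t t' (by omega) (by omega)) a2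
      _ = c^2 * (w t * T t t') + c^2 * (w t' * T t t') := by ring
      _ = _ := by rw [hTs t' t]
  have h2 : ∑ t ∈ range (J+1), ∑ t' ∈ range (J+1), G t t' * I t t' ≤
      2 * (c^2 * ∑ t ∈ range (J+1), ∑ t' ∈ range (J+1), w t * T t t') := by
    refine (Finset.sum_le_sum (fun t ht => Finset.sum_le_sum (fun t' ht' => h1 t ht t' ht'))).trans ?_
    have e1 : ∀ t ∈ range (J+1), ∑ t' ∈ range (J+1),
        (c^2 * (w t * T t t') + c^2 * (w t' * T t' t)) =
        c^2 * ∑ t' ∈ range (J+1), w t * T t t' + c^2 * ∑ t' ∈ range (J+1), w t' * T t' t := by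
      intro t _
      rw [Finset.sum_add_distrib, Finset.mul_sum, Finset.mul_sum]
    rw [Finset.sum_congr rfl e1, Finset.sum_add_distrib, ← Finset.mul_sum, ← Finset.mul_sum]
    rw [Finset.sum_comm (f := fun t t' => w t' * T t' t)]
    linarith
  have h3 : ∑ t ∈ range (J+1), ∑ t' ∈ range (J+1), w t * T t t' ≤
      ∑ t ∈ range (J+1), w t * w (J-t) + θ * (4 * ∑ t ∈ range (J+1), w t * w (J-t))
        + θ * (4*K) := by
    have e1 : ∀ t ∈ range (J+1), ∑ t' ∈ range (J+1), w t * T t t' =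
        w t * w (J-t) + θ * (w t * w (J-t) * ∑ t' ∈ range (J+1), (1/((t:ℝ)-t')^2))
        + θ * ∑ t' ∈ range (J+1), w t * w (J-t') * (1/((t:ℝ)-t')^2) := by
      intro t ht
      have e2 : ∀ t' ∈ range (J+1), w t * T t t' =
          ((if t = t' then w t * w (J-t) else 0) + θ * (w t * w (J-t) * (1/((t:ℝ)-t')^2)))
          + θ * (w t * w (J-t') * (1/((t:ℝ)-t')^2)) := by
        intro t' _
        simp only [hT]
        split_ifs <;> ring
      rw [Finset.sum_congr rfl e2, Finset.sum_add_distrib, Finset.sum_add_distrib,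
        Finset.sum_ite_eq, if_pos ht, ← Finset.mul_sum, ← Finset.mul_sum, ← Finset.mul_sum]
    rw [Finset.sum_congr rfl e1, Finset.sum_add_distrib, Finset.sum_add_distrib,
      ← Finset.mul_sum, ← Finset.mul_sum]
    have h4 := conv_off hw hK J
    have h5 : ∑ t ∈ range (J+1), w t * w (J-t) * ∑ t' ∈ range (J+1), (1/((t:ℝ)-t')^2) ≤
        4 * ∑ t ∈ range (J+1), w t * w (J-t) := by
      rw [Finset.mul_sum]
      apply Finset.sum_le_sum
      intro t _
      have := mul_le_mul_of_nonneg_left (R_sum' t (J+1)) (mul_nonneg (hw t) (hw (J-t)))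
      linarith
    have h6 := mul_le_mul_of_nonneg_left h4 hθ
    have h7 := mul_le_mul_of_nonneg_left h5 hθ
    linarith
  have h8 := hK J
  have h9 := mul_le_mul_of_nonneg_left h8 hθ
  have h10 : ∑ t ∈ range (J+1), ∑ t' ∈ range (J+1), w t * T t t' ≤
      ∑ t ∈ range (J+1), w t * w (J-t) + 8*θ*K := by linarith
  have h11 := mul_le_mul_of_nonneg_left h10 (sq_nonneg c)
  linarith

end Vale.Agent.P321S
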