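import Mathlib
import Vale.Agent.P321S.OvEv

/-! P321 overlap: sup bounds, moments, and the cross bound on lengths -/

namespace Vale.Agent.P321S

open MonoidAlgebra Finset
open Vale.Agent.P321 (Letter)

lemma Pr_single {M : Type*} [Monoid M] (m : M) : Pr (single m (1:ℝ) : Al M) := by
  refine ⟨Nn_single m zero_le_one, ?_⟩
  unfold mass
  rw [E_single, one_mul]

lemma Pr_tt : Pr tt := Pr_single _

lemma Pr.mix {M : Type*} [Monoid M] {c : ℝ} {F G : Al M} (hF : Pr F) (hG : Pr G) (h0 : 0 ≤ c)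
    (h1 : c ≤ 1) : Pr (c • F + (1-c) • G) := by
  refine ⟨(hF.nn.smul h0).add (hG.nn.smul (by linarith)), ?_⟩
  rw [mass_add, mass_smul, mass_smul, hF.mass, hG.mass]; ring

lemma Pr_tn {q : ℝ} (h0 : 0 < q) (h1 : q < 1) : Pr (tn q) :=
  Pr.mix Pr.one Pr_tt (by positivity) (by nlinarith)

lemma Pr_tx {q : ℝ} (h0 : 0 < q) (h1 : q < 1) : Pr (tx q) :=
  Pr.mix Pr.one Pr_tt h0.le h1.le

/-- coefficients are bounded by the total variation of the increments -/
lemma coeff_le_l1 (b : Al Tm) (m : Tm) : b.coeff m ≤ l1 ((1 - tt) * b) := by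
  classical
  set φ : Tm → ℝ := fun j => if Multiplicative.toAdd j ≤ Multiplicative.toAdd m then 1 else 0
    with hφ
  have h1 : E ((1 - tt) * b) φ = b.coeff m := by
    rw [sub_mul, one_mul, E_sub, E_mul, tt, E_single, one_mul, ← E_sub_fun, ← E_indicator b m]
    congr 1
    funext j
    simp only [hφ, toAdd_mul, toAdd_ofAdd]
    by_cases h : j = m
    · subst h
      rw [if_pos le_rfl, if_neg (by omega), if_pos rfl, sub_zero]
    · have h' : Multiplicative.toAdd j ≠ Multiplicative.toAdd m :=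
        fun e => h (Multiplicative.toAdd.injective e)
      rw [if_neg h]
      by_cases h2 : Multiplicative.toAdd j ≤ Multiplicative.toAdd m
      · rw [if_pos h2, if_pos (by omega), sub_self]
      · rw [if_neg h2, if_neg (by omega), sub_self]
  rw [← h1]
  refine (le_abs_self _).trans (E_le_l1 _ _ ?_)
  intro w
  simp only [hφ]
  split_ifs <;> simp

/-- the constant of the sup bound -/
noncomputable def cA (q : ℝ) : ℝ := 2/(q^2*(1-q^2))

lemma cA_pos {q : ℝ} (h0 : 0 < q) (h1 : q < 1) : 0 < cA q := by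
  have hr : 0 < 1 - q^2 := by nlinarith
  unfold cA; positivity

/-- (S1) -/
lemma coeff_tn_pow {q : ℝ} (h0 : 0 < q) (h1 : q < 1) (k : ℕ) (Q : Al Tm) (hQ : Pr Q) (m : Tm) :
    (tn q ^ k * Q).coeff m ≤ cA q / √(k+1) := by
  refine (coeff_le_l1 _ m).trans ?_
  have e : (1 - tt) * (tn q ^ k * Q) = (tn q ^ k * (1 - tt)) * Q := by
    rw [← mul_assoc, mul_comm (1 - tt)]
  rw [e]
  refine (l1_mul_le _ _).trans ?_
  rw [hQ.l1, mul_one]
  exact shift_gen h0 h1 tt Pr_tt k

/-- `F` is a probability with mean length `μ` and length variance at most `V` -/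
structure Mom {M : Type*} [Monoid M] (len : M → ℝ) (F : Al M) (μ V : ℝ) : Prop where
  pr : Pr F
  mean : E F len = μ
  var : E F (fun w => (len w - μ)^2) ≤ V

section mom
variable {M : Type*} [Monoid M] {len : M → ℝ}

lemma Mom.centred {F : Al M} {μ V : ℝ} (h : Mom len F μ V) : E F (fun w => len w - μ) = 0 := by
  rw [E_sub_fun, h.mean, E_const, h.pr.mass, one_mul, sub_self]

lemma Mom.mul (hl : ∀ u v, len (u*v) = len u + len v) {F G : Al M} {μ V μ' V' : ℝ}
    (hF : Mom len F μ V) (hG : Mom len G μ' V') : Mom len (F*G) (μ+μ') (V+V') := by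
  refine ⟨hF.pr.mul hG.pr, ?_, ?_⟩
  · rw [E_mul]
    simp only [hl]
    have : ∀ u, E G (fun v => len u + len v) = len u + μ' := by
      intro u
      rw [E_add_fun, E_const, hG.pr.mass, one_mul, hG.mean]
    simp only [this]
    rw [E_add_fun, hF.mean, E_const, hF.pr.mass, one_mul]
  · rw [E_mul]
    simp only [hl]
    have e : ∀ u, E G (fun v => (len u + len v - (μ+μ'))^2)
        = (len u - μ)^2 + E G (fun v => (len v - μ')^2) := by
      intro u
      have e1 : (fun v => (len u + len v - (μ+μ'))^2) =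
          fun v => ((len u - μ)^2 + (2 * (len u - μ)) * (len v - μ')) + (len v - μ')^2 := by
        funext v; ring
      rw [e1, E_add_fun, E_add_fun, E_smul_fun, hG.centred, mul_zero, add_zero, E_const,
        hG.pr.mass, one_mul]
    simp only [e]
    rw [E_add_fun, E_const, hF.pr.mass, one_mul]
    exact add_le_add hF.var hG.var

lemma Mom.one (hl : ∀ u v, len (u*v) = len u + len v) : Mom len (1 : Al M) 0 0 := by
  have h1 : len 1 = 0 := by
    have := hl 1 1
    rw [mul_one] at this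
    linarith
  refine ⟨Pr.one, ?_, ?_⟩
  · rw [E_one, h1]
  · rw [E_one, h1]; simp

lemma Mom.pow (hl : ∀ u v, len (u*v) = len u + len v) {F : Al M} {μ V : ℝ} (hF : Mom len F μ V)
    (n : ℕ) : Mom len (F^n) (n*μ) (n*V) := by
  induction n with
  | zero => simpa using Mom.one hl
  | succ n ih =>
    have := ih.mul hl hF
    rw [← pow_succ] at this
    have e1 : ((n+1 : ℕ) : ℝ) * μ = n*μ + μ := by push_cast; ring
    have e2 : ((n+1 : ℕ) : ℝ) * V = n*V + V := by push_cast; ring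
    rw [e1, e2]; exact this

lemma Mom.mono {F : Al M} {μ V V' : ℝ} (hF : Mom len F μ V) (h : V ≤ V') : Mom len F μ V' :=
  ⟨hF.pr, hF.mean, hF.var.trans h⟩

lemma Mom.mix (hl : ∀ u v, len (u*v) = len u + len v) {t : Al M} (ht : Pr t) (h1 : E t len = 1)
    (h2 : E t (fun w => (len w)^2) = 1) {c : ℝ} (hc0 : 0 ≤ c) (hc1 : c ≤ 1) :
    Mom len (c • (1 : Al M) + (1-c) • t) (1-c) (1/4) := by
  have h10 : len 1 = 0 := by
    have := hl 1 1
    rw [mul_one] at this
    linarith
  refine ⟨Pr.mix Pr.one ht hc0 hc1, ?_, ?_⟩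
  · rw [E_add, E_smul, E_smul, E_one, h10, h1]; ring
  · rw [E_add, E_smul, E_smul, E_one, h10]
    have e : (fun w => (len w - (1-c))^2) =
        fun w => ((len w)^2 + (-(2*(1-c))) * len w) + (1-c)^2 := by funext w; ring
    rw [e, E_add_fun, E_add_fun, E_smul_fun, h1, h2, E_const, ht.mass]
    nlinarith [sq_nonneg (2*c-1)]

/-- Chebyshev -/
lemma Mom.cheb {F : Al M} {μ V : ℝ} (hF : Mom len F μ V) {h : ℝ} (hh : 0 < h) {φ : M → ℝ}
    (h1 : ∀ w, φ w ≤ (len w - μ)^2 / h^2) : E F φ ≤ V / h^2 := by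
  have h2 : E F φ ≤ E F (fun w => (1/h^2) * (len w - μ)^2) :=
    E_mono hF.pr.nn (fun w => (h1 w).trans_eq (by ring))
  rw [E_smul_fun] at h2
  refine h2.trans ?_
  rw [div_eq_mul_one_div V, mul_comm V]
  exact mul_le_mul_of_nonneg_left hF.var (by positivity)

end mom

/-- length on `Tm` -/
def tl (m : Tm) : ℝ := (Multiplicative.toAdd m : ℕ)

lemma tl_mul (u v : Tm) : tl (u*v) = tl u + tl v := by
  simp [tl]

lemma Mom_tn {q : ℝ} (h0 : 0 < q) (h1 : q < 1) : Mom tl (tn q) (1-q^2) (1/4) := by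
  apply Mom.mix tl_mul Pr_tt
  · rw [tt, E_single]; simp [tl]
  · rw [tt, E_single]; simp [tl]
  · positivity
  · nlinarith

lemma Mom_tx {q : ℝ} (h0 : 0 < q) (h1 : q < 1) : Mom tl (tx q) (1-q) (1/4) := by
  apply Mom.mix tl_mul Pr_tt
  · rw [tt, E_single]; simp [tl]
  · rw [tt, E_single]; simp [tl]
  · exact h0.le
  · exact h1.le

/-- word length -/
noncomputable def wl (w : Wo) : ℝ := (FreeMonoid.toList w).length

lemma wl_mul (u v : Wo) : wl (u*v) = wl u + wl v := by
  simp [wl]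

lemma wl_of (x : Letter) : wl (FreeMonoid.of x) = 1 := by simp [wl]

lemma Pr_lt (x : Letter) : Pr (lt x) := Pr_single _

lemma Pr_nu {q : ℝ} (h0 : 0 < q) (h1 : q < 1) : Pr (eNu q) := by
  refine ⟨?_, ?_⟩
  · rw [eNu, lc]
    exact (((Pr_lt _).nn.smul (nl_pos h0 h1 _).le).add ((Pr_lt _).nn.smul (nl_pos h0 h1 _).le)).add
      ((Pr_lt _).nn.smul (nl_pos h0 h1 _).le)
  · unfold mass
    rw [eNu, E_lc]
    have := nl_sum h0
    linarith

lemma Mom_N {q : ℝ} (h0 : 0 < q) (h1 : q < 1) : Mom wl (eN q) (1-q^2) (1/4) := by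
  rw [eN_eq h0]
  apply Mom.mix wl_mul (Pr_nu h0 h1)
  · rw [eNu, E_lc]
    simp only [wl_of]
    have := nl_sum h0
    linarith
  · rw [eNu, E_lc]
    simp only [wl_of]
    have := nl_sum h0
    linarith
  · positivity
  · nlinarith

lemma Mom_X0 {q : ℝ} (h0 : 0 < q) (h1 : q < 1) : Mom wl (eX0 q) (1-q) (1/4) := by
  apply Mom.mix wl_mul (Pr_nu h0 h1)
  · rw [eNu, E_lc]
    simp only [wl_of]
    have := nl_sum h0
    linarith
  · rw [eNu, E_lc]
    simp only [wl_of]
    have := nl_sum h0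
    linarith
  · exact h0.le
  · exact h1.le

lemma Mom_X {q : ℝ} (h0 : 0 < q) (h1 : q < 1) : Mom wl (eX q) (1-q) (1/4) := by
  apply Mom.mix wl_mul (Pr_lt _)
  · rw [E_lt, wl_of]
  · rw [E_lt, wl_of]; norm_num
  · exact h0.le
  · exact h1.le

lemma ip_swap (b b' : Al Tm) (φ : Tm → ℝ) :
    E b (fun m => φ m * b'.coeff m) = E b' (fun m => φ m * b.coeff m) := by
  classical
  rw [E_eq_sum b (b.coeff.support ∪ b'.coeff.support) Finset.subset_union_left,
    E_eq_sum b' (b.coeff.support ∪ b'.coeff.support) Finset.subset_union_right]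
  apply Finset.sum_congr rfl
  intro w _
  ring

/-- cross bound -/
lemma ip_cross {b b' : Al Tm} {μ V μ' V' s s' D : ℝ} (hb : Mom tl b μ V) (hb' : Mom tl b' μ' V')
    (hs : ∀ m, b.coeff m ≤ s) (hs' : ∀ m, b'.coeff m ≤ s') (hs0 : 0 ≤ s) (hs0' : 0 ≤ s')
    (hD : 0 < D) (hd : D^2 ≤ (μ-μ')^2) :
    ip b b' ≤ 2/D^2 * (s' * V + s * V') := by
  have h1 : ip b b' ≤ E b (fun m => (2/D^2) * ((tl m - μ)^2 * b'.coeff m
      + (tl m - μ')^2 * b'.coeff m)) := by
    apply E_mono hb.pr.nn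
    intro m
    have h2 : D^2/2 ≤ (tl m - μ)^2 + (tl m - μ')^2 := by
      nlinarith [sq_nonneg ((tl m - μ) + (tl m - μ'))]
    have h3 := hb'.pr.nn m
    have h4 : b'.coeff m * (D^2/2) ≤ b'.coeff m * ((tl m - μ)^2 + (tl m - μ')^2) :=
      mul_le_mul_of_nonneg_left h2 h3
    have hD2 : 0 < D^2 := by positivity
    calc b'.coeff m = (2/D^2) * (b'.coeff m * (D^2/2)) := by field_simp
      _ ≤ (2/D^2) * (b'.coeff m * ((tl m - μ)^2 + (tl m - μ')^2)) :=
          mul_le_mul_of_nonneg_left h4 (by positivity)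
      _ = _ := by ring
  refine h1.trans ?_
  rw [E_smul_fun, E_add_fun]
  apply mul_le_mul_of_nonneg_left _ (by positivity)
  apply add_le_add
  · have h5 : E b (fun m => (tl m - μ)^2 * b'.coeff m) ≤ E b (fun m => s' * (tl m - μ)^2) := by
      apply E_mono hb.pr.nn
      intro m
      rw [mul_comm s']
      exact mul_le_mul_of_nonneg_left (hs' m) (sq_nonneg _)
    refine h5.trans ?_
    rw [E_smul_fun]
    exact mul_le_mul_of_nonneg_left hb.var hs0'
  · rw [ip_swap]
    have h5 : E b' (fun m => (tl m - μ')^2 * b.coeff m) ≤ E b' (fun m => s * (tl m - μ')^2) := by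
      apply E_mono hb'.pr.nn
      intro m
      rw [mul_comm s]
      exact mul_le_mul_of_nonneg_left (hs m) (sq_nonneg _)
    refine h5.trans ?_
    rw [E_smul_fun]
    exact mul_le_mul_of_nonneg_left hb'.var hs0

lemma ip_le_sup {b b' : Al Tm} {s : ℝ} (hb : Pr b) (hs : ∀ m, b'.coeff m ≤ s) : ip b b' ≤ s := by
  have : ip b b' ≤ E b (fun _ => s) := E_mono hb.nn hs
  rwa [E_const, hb.mass, one_mul] at this

end Vale.Agent.P321S
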