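import Mathlib
import Vale.Agent.P321S.OvT
import Vale.Agent.P321S.OvReal

/-! P321 overlap: Duhamel expansion and the recursion for the weighted norms -/

namespace Vale.Agent.P321S

open MonoidAlgebra Finset
open Vale.Agent.P321 (Letter)

/-- before-part -/
noncomputable def Hp (q : ℝ) (g c0 t : ℕ) : Al Wo := eN q ^ c0 * (eX q * eN q ^ (2*g)) ^ t

/-- word with `j+1` letters `X` -/
noncomputable def Ww (q : ℝ) (g c0 j c1 : ℕ) : Al Wo :=
  eN q ^ c0 * (eX q * eN q ^ (2*g)) ^ j * eX q * eN q ^ c1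

/-- neutral version -/
noncomputable def Wn (q : ℝ) (g c0 j c1 : ℕ) : Al Wo :=
  eN q ^ c0 * (eX0 q * eN q ^ (2*g)) ^ j * eX0 q * eN q ^ c1

/-- after-part -/
noncomputable def bb (q : ℝ) (g c d : ℕ) : Al Tm := (tn q ^ (2*g) * tx q) ^ d * tn q ^ c

/-- lengths of the neutral version -/
noncomputable def tw (q : ℝ) (g c0 j c1 : ℕ) : Al Tm := tn q ^ (2*g*j+c0+c1) * tx q ^ (j+1)

lemma Hp_succ (q : ℝ) (g c0 j : ℕ) : Hp q g c0 (j+1) = Ww q g c0 j (2*g) := by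
  unfold Hp Ww
  rw [pow_succ]
  simp only [mul_assoc]

lemma ev_tw {q : ℝ} (h0 : 0 < q) (g c0 j c1 : ℕ) : ev q (tw q g c0 j c1) = Wn q g c0 j c1 := by
  have e : tw q g c0 j c1 = tn q ^ c0 * (tx q * tn q ^ (2*g)) ^ j * tx q * tn q ^ c1 := by
    unfold tw
    rw [mul_pow, ← pow_mul]
    ring
  rw [e, Wn]
  simp only [map_mul, map_pow, ev_tn h0, ev_tx]

lemma bb_eq (q : ℝ) (g c d : ℕ) : bb q g c d = tn q ^ (2*g*d + c) * tx q ^ d := by
  unfold bb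
  rw [mul_pow, ← pow_mul]
  ring

lemma bb_succ (q : ℝ) (g c d : ℕ) : bb q g (2*g) d * (tx q * tn q ^ c) = bb q g c (d+1) := by
  unfold bb
  rw [pow_succ]
  ring

lemma ev_bb_zero {q : ℝ} (h0 : 0 < q) (g c : ℕ) : ev q (bb q g c 0) = eN q ^ c := by
  unfold bb
  rw [pow_zero, one_mul, map_pow, ev_tn h0]

/-- the defect -/
noncomputable def Df (q : ℝ) (g c0 j c1 : ℕ) : Al Wo :=
  ∑ t ∈ range (j+1), Hp q g c0 t * eZe q * ev q (bb q g c1 (j-t))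

lemma duhamel {q : ℝ} (h0 : 0 < q) (g c0 j c1 : ℕ) :
    Ww q g c0 j c1 = Wn q g c0 j c1 + (1-q) • Df q g c0 j c1 := by
  induction j generalizing c1 with
  | zero =>
    unfold Ww Wn Df
    rw [Finset.sum_range_one, ev_bb_zero h0, eX_eq']
    unfold Hp
    simp only [pow_zero, mul_one]
    rw [mul_add, add_mul]
    congr 1
    rw [mul_smul_comm, smul_mul_assoc]
  | succ j ih =>
    have e1 : Ww q g c0 (j+1) c1 = Ww q g c0 j (2*g) * eX q * eN q ^ c1 := by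
      unfold Ww
      rw [pow_succ]
      simp only [mul_assoc]
    have e2 : Wn q g c0 (j+1) c1 = Wn q g c0 j (2*g) * eX0 q * eN q ^ c1 := by
      unfold Wn
      rw [pow_succ]
      simp only [mul_assoc]
    have e3 : Df q g c0 (j+1) c1 = Df q g c0 j (2*g) * eX0 q * eN q ^ c1
        + Ww q g c0 j (2*g) * eZe q * eN q ^ c1 := by
      unfold Df
      rw [Finset.sum_range_succ, Nat.sub_self, ev_bb_zero h0, ← Hp_succ, Finset.sum_mul,
        Finset.sum_mul]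
      congr 1
      apply Finset.sum_congr rfl
      intro t ht
      rw [mem_range] at ht
      have : j + 1 - t = (j - t) + 1 := by omega
      rw [this, ← bb_succ, map_mul, map_mul, map_pow, ev_tn h0, ev_tx]
      simp only [mul_assoc]
    have e4 : Ww q g c0 j (2*g) * eX q * eN q ^ c1 =
        Ww q g c0 j (2*g) * eX0 q * eN q ^ c1
          + (1-q) • (Ww q g c0 j (2*g) * eZe q * eN q ^ c1) := by
      rw [eX_eq', mul_add, add_mul, mul_smul_comm, smul_mul_assoc]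
    have e5 : Ww q g c0 j (2*g) * eX0 q * eN q ^ c1 = Wn q g c0 j (2*g) * eX0 q * eN q ^ c1
        + (1-q) • (Df q g c0 j (2*g) * eX0 q * eN q ^ c1) := by
      rw [ih (2*g), add_mul, add_mul, smul_mul_assoc, smul_mul_assoc]
    rw [e1, e4, e5, e2, e3, smul_add]
    abel

lemma Bf_Df {q : ℝ} (h0 : 0 < q) (h1 : q < 1) (g c0 j c1 : ℕ) :
    Bf q (Df q g c0 j c1) (Df q g c0 j c1) = (1/q) * ∑ t ∈ range (j+1), ∑ t' ∈ range (j+1),
      Bf q (Hp q g c0 t) (Hp q g c0 t') * ip (bb q g c1 (j-t)) (bb q g c1 (j-t')) := by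
  unfold Df
  rw [Bf_sum_left, Finset.mul_sum]
  apply Finset.sum_congr rfl
  intro t _
  rw [Bf_sum_right, Finset.mul_sum]
  apply Finset.sum_congr rfl
  intro t' _
  rw [Bf_ze_ze_ev h0 h1, mul_assoc]

lemma Bf_Df_ev {q : ℝ} (h0 : 0 < q) (h1 : q < 1) (g c0 j c1 : ℕ) (b : Al Tm) :
    Bf q (Df q g c0 j c1) (ev q b) = 0 := by
  unfold Df
  rw [Bf_sum_left]
  apply Finset.sum_eq_zero
  intro t _
  exact Bf_ze_ev h0 h1 _ _ _

lemma Bf_Ww {q : ℝ} (h0 : 0 < q) (h1 : q < 1) (g c0 j c1 : ℕ) :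
    Bf q (Ww q g c0 j c1) (Ww q g c0 j c1) = ip (tw q g c0 j c1) (tw q g c0 j c1)
      + (1-q)^2 * Bf q (Df q g c0 j c1) (Df q g c0 j c1) := by
  rw [duhamel h0, ← ev_tw h0, Bf_add_left, Bf_add_right, Bf_add_right, Bf_smul_left, Bf_smul_left,
    Bf_smul_right, Bf_smul_right, Bf_symm q (ev q _) (Df q g c0 j c1), Bf_Df_ev h0 h1,
    Bf_ev_ev h0 h1]
  ring

lemma Bf_Ww_sub {q : ℝ} (h0 : 0 < q) (g c0 j c1 : ℕ) :
    Bf q (Ww q g c0 j c1 - Wn q g c0 j c1) (Ww q g c0 j c1 - Wn q g c0 j c1) =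
      (1-q)^2 * Bf q (Df q g c0 j c1) (Df q g c0 j c1) := by
  have e : Ww q g c0 j c1 - Wn q g c0 j c1 = (1-q) • Df q g c0 j c1 := by
    rw [duhamel h0]; abel
  rw [e, Bf_smul_left, Bf_smul_right]
  ring

lemma Pr_bb {q : ℝ} (h0 : 0 < q) (h1 : q < 1) (g c d : ℕ) : Pr (bb q g c d) :=
  ((((Pr_tn h0 h1).pow _).mul (Pr_tx h0 h1)).pow _).mul ((Pr_tn h0 h1).pow _)

lemma Mom_bb {q : ℝ} (h0 : 0 < q) (h1 : q < 1) (g c d : ℕ) :
    Mom tl (bb q g c d) (((2*g*d+c : ℕ):ℝ) * (1-q^2) + d * (1-q))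
      (((2*g*d+c : ℕ):ℝ) * (1/4) + d * (1/4)) := by
  rw [bb_eq]
  exact ((Mom_tn h0 h1).pow tl_mul _).mul tl_mul ((Mom_tx h0 h1).pow tl_mul _)

lemma sqrt_aux {g c : ℝ} {σ : ℝ} (hg : 0 < g) (hc : 0 ≤ c) (hσ : 0 ≤ σ) (h : g ≤ σ^2 * (c+1)) :
    1/√(c+1) ≤ (1/√g) * σ := by
  have h1 : 0 < √g := Real.sqrt_pos.mpr hg
  have h2 : 0 < √(c+1) := Real.sqrt_pos.mpr (by linarith)
  have h3 : √g ≤ σ * √(c+1) := by
    rw [Real.sqrt_le_left (by positivity)]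
    rw [mul_pow, Real.sq_sqrt (by linarith)]
    exact h
  rw [div_le_iff₀ h2]
  have : (1/√g) * σ * √(c+1) = (σ * √(c+1))/√g := by ring
  rw [this, le_div_iff₀ h1, one_mul]
  exact h3

lemma sqrt_aux2 {g m : ℝ} (hg : 0 < g) {d : ℕ} (h : g * (d+1) ≤ m) :
    1/√m ≤ (1/√g) * (1/√((d:ℝ)+1)) := by
  have h1 : 0 < √g := Real.sqrt_pos.mpr hg
  have h2 : 0 < √((d:ℝ)+1) := Real.sqrt_pos.mpr (by positivity)
  have h3 : √g * √((d:ℝ)+1) ≤ √m := by
    rw [← Real.sqrt_mul hg.le]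
    exact Real.sqrt_le_sqrt h
  have e : (1/√g) * (1/√((d:ℝ)+1)) = 1/(√g * √((d:ℝ)+1)) := by
    field_simp
  rw [e]
  exact one_div_le_one_div_of_le (by positivity) h3

lemma coeff_bb {q : ℝ} (h0 : 0 < q) (h1 : q < 1) {g c : ℕ} (hg : 1 ≤ g) {σ : ℝ} (hσ : 0 ≤ σ)
    (hc : (g:ℝ) ≤ σ^2 * (c+1)) (d : ℕ) (m : Tm) :
    (bb q g c d).coeff m ≤ cA q / √g * wt σ d := by
  have hA := cA_pos h0 h1
  have hg0 : (0:ℝ) < g := by exact_mod_cast hg
  rw [bb_eq]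
  refine (coeff_tn_pow h0 h1 _ _ ((Pr_tx h0 h1).pow _) m).trans ?_
  have e0 : cA q / √(g:ℝ) * wt σ d = cA q * ((1/√(g:ℝ)) * wt σ d) := by ring
  rw [e0, div_eq_mul_one_div (cA q)]
  apply mul_le_mul_of_nonneg_left _ hA.le
  cases d with
  | zero =>
    have h2 := sqrt_aux hg0 (Nat.cast_nonneg c) hσ hc
    unfold wt
    rw [if_pos rfl]
    have h3 : (1/√(g:ℝ)) * σ ≤ (1/√(g:ℝ)) * (1/√(((0:ℕ):ℝ)+1) + σ) := by
      apply mul_le_mul_of_nonneg_left _ (by positivity)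
      have : (0:ℝ) ≤ 1/√(((0:ℕ):ℝ)+1) := by positivity
      linarith
    refine le_trans ?_ (h2.trans h3)
    rw [mul_zero, zero_add]
  | succ d =>
    unfold wt
    rw [if_neg (Nat.succ_ne_zero d), add_zero]
    apply sqrt_aux2 hg0
    push_cast
    nlinarith [Nat.cast_nonneg (α := ℝ) d, Nat.cast_nonneg (α := ℝ) c]

/-- bound of the pairings of the after-parts -/
lemma ip_bb {q : ℝ} (h0 : 0 < q) (h1 : q < 1) {g c : ℕ} (hg : 1 ≤ g) {σ : ℝ} (hσ : 0 ≤ σ)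
    (hc : (g:ℝ) ≤ σ^2 * (c+1)) (hc2 : c ≤ 2*g) (j : ℕ) (t t' : ℕ) (ht : t ≤ j) (ht' : t' ≤ j) :
    ip (bb q g c (j-t)) (bb q g c (j-t')) ≤ cA q / √g *
      ((if t = t' then wt σ (j-t) else 0) +
        (((j:ℝ)+1)/(2*g*(1-q^2)^2)) * (wt σ (j-t) + wt σ (j-t')) * (1/((t:ℝ)-t')^2)) := by
  have hA := cA_pos h0 h1
  have hg0 : (0:ℝ) < g := by exact_mod_cast hg
  have hg1 : (1:ℝ) ≤ g := by exact_mod_cast hg
  have hr : 0 < 1 - q^2 := by nlinarith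
  by_cases h : t = t'
  · subst h
    rw [if_pos rfl, sub_self]
    have := ip_le_sup (Pr_bb h0 h1 g c (j-t)) (coeff_bb h0 h1 hg hσ hc (j-t))
    simpa using this
  · rw [if_neg h, zero_add]
    have hne : (t:ℝ) - t' ≠ 0 := by
      intro h'
      apply h
      have : (t:ℝ) = t' := by linarith
      exact_mod_cast this
    set D : ℝ := 2*g*(1-q^2)*|(t:ℝ)-t'| with hD
    have hD0 : 0 < D := by
      rw [hD]
      have := abs_pos.mpr hne
      positivity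
    have hD2 : D^2 = 4*g^2*(1-q^2)^2*((t:ℝ)-t')^2 := by
      rw [hD, mul_pow, sq_abs]; ring
    have hjt : ((j-t:ℕ):ℝ) = j - t := by rw [Nat.cast_sub ht]
    have hjt' : ((j-t':ℕ):ℝ) = j - t' := by rw [Nat.cast_sub ht']
    have hV : ∀ t, t ≤ j → (((2*g*(j-t)+c : ℕ):ℝ) * (1/4) + ((j-t:ℕ):ℝ) * (1/4)) ≤ g * ((j:ℝ)+1) := by
      intro t ht
      have hc2' : (c:ℝ) ≤ 2*g := by exact_mod_cast hc2
      have : ((j-t:ℕ):ℝ) ≤ j := by exact_mod_cast Nat.sub_le j t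
      have h5 : (0:ℝ) ≤ ((j-t:ℕ):ℝ) := Nat.cast_nonneg _
      push_cast
      nlinarith
    have M1 := (Mom_bb h0 h1 g c (j-t)).mono (hV t ht)
    have M2 := (Mom_bb h0 h1 g c (j-t')).mono (hV t' ht')
    have w1 := wt_nonneg hσ (j-t)
    have w2 := wt_nonneg hσ (j-t')
    have key := ip_cross M1 M2 (coeff_bb h0 h1 hg hσ hc (j-t)) (coeff_bb h0 h1 hg hσ hc (j-t'))
      (by positivity) (by positivity) hD0 (by
        rw [hD2]
        have e : (((2*g*(j-t)+c : ℕ):ℝ) * (1-q^2) + ((j-t:ℕ):ℝ) * (1-q))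
            - (((2*g*(j-t')+c : ℕ):ℝ) * (1-q^2) + ((j-t':ℕ):ℝ) * (1-q))
            = (2*g*(1-q^2)+(1-q)) * ((t':ℝ) - t) := by
          push_cast
          rw [hjt, hjt']
          ring
        rw [e, mul_pow]
        have e2 : ((t':ℝ)-t)^2 = ((t:ℝ)-t')^2 := by ring
        rw [e2]
        apply mul_le_mul_of_nonneg_right _ (sq_nonneg _)
        have h3 : 0 < 1 - q := by linarith
        have h4 : 0 < 2*g*(1-q^2) := by positivity
        nlinarith)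
    refine key.trans (le_of_eq ?_)
    rw [hD2]
    have hne2 : ((t:ℝ)-t')^2 ≠ 0 := pow_ne_zero 2 hne
    have hg' : (g:ℝ) ≠ 0 := hg0.ne'
    have hr' : (1-q^2) ≠ 0 := hr.ne'
    have hs : √(g:ℝ) ≠ 0 := (Real.sqrt_pos.mpr hg0).ne'
    field_simp
    ring

/-- the convolution sum -/
noncomputable def cs (σ : ℝ) (J : ℕ) : ℝ := ∑ t ∈ range (J+1), wt σ t * wt σ (J-t)

/-- bound of the defect from bounds of the before-parts -/
lemma Bf_Df_le {q : ℝ} (h0 : 0 < q) (h1 : q < 1) {g c0 c1 : ℕ} (hg : 1 ≤ g) {σ : ℝ} (hσ : 0 ≤ σ)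
    (hc : (g:ℝ) ≤ σ^2 * (c1+1)) (hc2 : c1 ≤ 2*g) (j : ℕ)
    (hγ : ∀ t, t ≤ j → Bf q (Hp q g c0 t) (Hp q g c0 t) ≤ 2 * (cA q / √g * wt σ t)) :
    Bf q (Df q g c0 j c1) (Df q g c0 j c1) ≤ (1/q) * (2 * (cA q / √g)^2 *
      (cs σ j + 8 * (((j:ℝ)+1)/(2*g*(1-q^2)^2)) * (4 + 2*σ + σ^2))) := by
  have hA := cA_pos h0 h1
  have hg0 : (0:ℝ) < g := by exact_mod_cast hg
  have hr : 0 < 1 - q^2 := by nlinarith
  rw [Bf_Df h0 h1]
  apply mul_le_mul_of_nonneg_left _ (by positivity)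
  exact double_sum (w := wt σ) (wt_nonneg hσ) (c := cA q / √g)
    (θ := ((j:ℝ)+1)/(2*g*(1-q^2)^2)) (K := 4 + 2*σ + σ^2)
    (by positivity) (by positivity) (conv_wt_le hσ) j
    (G := fun t t' => Bf q (Hp q g c0 t) (Hp q g c0 t'))
    (I := fun t t' => ip (bb q g c1 (j-t)) (bb q g c1 (j-t')))
    (γ := fun t => Bf q (Hp q g c0 t) (Hp q g c0 t))
    (fun t t' => Bf_le_half h0 h1 _ _) hγ
    (fun t t' => ip_nonneg (Pr_bb h0 h1 _ _ _).nn (Pr_bb h0 h1 _ _ _).nn)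
    (fun t t' ht ht' => ip_bb h0 h1 hg hσ hc hc2 j t t' ht ht')

/-- the recursion -/
lemma gamma_le {q : ℝ} (h0 : 0 < q) (h1 : q < 1) {g c0 : ℕ} (hg : 1 ≤ g) {σ : ℝ} (hσ : 1 ≤ σ)
    (hc : (g:ℝ) ≤ σ^2 * (c0+1)) (k : ℕ)
    (hk : ∀ J, J < k → (1-q)^2 * ((1/q) * (2 * (cA q / √g)^2 *
      (cs σ J + 8 * (((J:ℝ)+1)/(2*g*(1-q^2)^2)) * (4 + 2*σ + σ^2)))) ≤
        cA q / √g * (1/√((J:ℝ)+2))) :
    ∀ t, t ≤ k → Bf q (Hp q g c0 t) (Hp q g c0 t) ≤ 2 * (cA q / √g * wt σ t) := by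
  have hA := cA_pos h0 h1
  have hg0 : (0:ℝ) < g := by exact_mod_cast hg
  have hσ0 : 0 ≤ σ := by linarith
  intro t
  induction t using Nat.strong_induction_on with
  | _ t ih =>
    intro ht
    cases t with
    | zero =>
      have e : Hp q g c0 0 = ev q (bb q g c0 0) := by
        rw [ev_bb_zero h0, Hp, pow_zero, mul_one]
      rw [e, Bf_ev_ev h0 h1]
      refine (ip_le_sup (Pr_bb h0 h1 g c0 0) (coeff_bb h0 h1 hg hσ0 hc 0)).trans ?_
      have : 0 ≤ cA q / √g * wt σ 0 := mul_nonneg (by positivity) (wt_nonneg hσ0 0)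
      linarith
    | succ J =>
      rw [Hp_succ, Bf_Ww h0 h1]
      have hc2g : (g:ℝ) ≤ σ^2 * ((2*g:ℕ)+1) := by
        push_cast
        nlinarith [mul_le_mul hσ hσ zero_le_one hσ0]
      have h2 := Bf_Df_le (c0 := c0) h0 h1 hg hσ0 hc2g le_rfl J
        (fun t ht' => ih t (by omega) (by omega))
      have h3 := mul_le_mul_of_nonneg_left h2 (sq_nonneg (1-q))
      have h4 := hk J (by omega)
      have h5 : ip (tw q g c0 J (2*g)) (tw q g c0 J (2*g)) ≤ cA q / √g * (1/√((J:ℝ)+2)) := by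
        refine ip_le_sup (((Pr_tn h0 h1).pow _).mul ((Pr_tx h0 h1).pow _)) (fun m => ?_)
        refine (coeff_tn_pow h0 h1 _ _ ((Pr_tx h0 h1).pow _) m).trans ?_
        have e0 : cA q / √(g:ℝ) * (1/√((J:ℝ)+2)) = cA q * ((1/√(g:ℝ)) * (1/√((J:ℝ)+2))) := by
          ring
        rw [e0, div_eq_mul_one_div (cA q)]
        apply mul_le_mul_of_nonneg_left _ hA.le
        have h6 := sqrt_aux2 (m := ((2*g*J+c0+2*g : ℕ):ℝ)+1) hg0 (d := J+1) (by
          push_cast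
          nlinarith [Nat.cast_nonneg (α := ℝ) J, Nat.cast_nonneg (α := ℝ) c0])
        have e : (((J+1:ℕ):ℝ)+1) = (J:ℝ)+2 := by push_cast; ring
        rw [e] at h6
        exact h6
      have e : wt σ (J+1) = 1/√((J:ℝ)+2) := by
        unfold wt
        rw [if_neg (Nat.succ_ne_zero J), add_zero]
        push_cast
        congr 2
        ring
      rw [e]
      linarith

end Vale.Agent.P321S
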