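import Mathlib
import Vale.Agent.P321S.OvRec

/-! P321 overlap: from the weighted norm to the total variation norm -/

namespace Vale.Agent.P321S

open MonoidAlgebra Finset
open Vale.Agent.P321 (Letter)

lemma coeff_nu_pow (q : ℝ) (l : List Letter) :
    (eNu q ^ l.length).coeff (FreeMonoid.ofList l) = nw q (FreeMonoid.ofList l) := by
  classical
  induction l using List.reverseRecOn with
  | nil =>
    have e : FreeMonoid.ofList ([] : List Letter) = 1 := rfl
    rw [List.length_nil, pow_zero, e, one_def, coeff_single]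
    simp
  | append_singleton l x ih =>
    have e : FreeMonoid.ofList (l ++ [x]) = FreeMonoid.ofList l * FreeMonoid.of x := rfl
    rw [e, List.length_append, List.length_singleton, pow_succ, nw_mul_of, ← ih]
    exact coeff_mul_lc _ _ _ _

lemma sum_coeff_le {M : Type*} [Monoid M] {G : Al M} (hG : Nn G) (S : Finset M) :
    ∑ w ∈ S, G.coeff w ≤ mass G := by
  classical
  unfold mass
  rw [E_eq_sum G (G.coeff.support ∪ S) Finset.subset_union_left]
  simp only [mul_one]
  exact Finset.sum_le_sum_of_subset_of_nonneg Finset.subset_union_right (fun w _ _ => hG w)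

lemma sum_nw_le {q : ℝ} (h0 : 0 < q) (h1 : q < 1) (S : Finset Wo) (m : ℕ) :
    ∑ w ∈ S with (FreeMonoid.toList w).length = m, nw q w ≤ 1 := by
  have h : ∑ w ∈ S with (FreeMonoid.toList w).length = m, nw q w ≤
      ∑ w ∈ S with (FreeMonoid.toList w).length = m, (eNu q ^ m).coeff w := by
    apply le_of_eq
    apply Finset.sum_congr rfl
    intro w hw
    rw [mem_filter] at hw
    rw [← hw.2]
    exact (coeff_nu_pow q (FreeMonoid.toList w)).symm
  refine h.trans ((sum_coeff_le ((Pr_nu h0 h1).nn.pow m) _).trans_eq ?_)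
  rw [mass_pow, (Pr_nu h0 h1).mass, one_pow]

lemma sum_nw_window {q : ℝ} (h0 : 0 < q) (h1 : q < 1) (S : Finset Wo) {μ h : ℝ} (hμ : 0 ≤ μ)
    (hh : 0 ≤ h) : ∑ w ∈ S with |wl w - μ| ≤ h, nw q w ≤ 2*h+1 := by
  classical
  set a := ⌈μ-h⌉₊ with ha
  set b := ⌊μ+h⌋₊ with hb
  have hmem : ∀ w ∈ S.filter (fun w => |wl w - μ| ≤ h), (FreeMonoid.toList w).length ∈ Icc a b := by
    intro w hw
    rw [mem_filter] at hw
    have := abs_le.mp hw.2
    unfold wl at this
    rw [mem_Icc]
    constructor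
    · rw [ha, Nat.ceil_le]; linarith
    · rw [hb, Nat.le_floor_iff (by linarith)]; linarith
  rw [← Finset.sum_fiberwise_of_maps_to hmem]
  have h2 : ∀ m ∈ Icc a b, ∑ w ∈ S.filter (fun w => |wl w - μ| ≤ h) with
      (FreeMonoid.toList w).length = m, nw q w ≤ 1 := fun m _ => sum_nw_le h0 h1 _ m
  refine (Finset.sum_le_sum h2).trans ?_
  rw [Finset.sum_const, Nat.card_Icc, nsmul_eq_mul, mul_one]
  have h3 : (b:ℝ) ≤ μ + h := Nat.floor_le (by linarith)
  have h4 : μ - h ≤ a := Nat.le_ceil _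
  rcases le_total a (b+1) with h5 | h5
  · rw [Nat.cast_sub h5]
    push_cast
    linarith
  · rw [Nat.sub_eq_zero_of_le h5]
    simp
    linarith

lemma l1_bound {q : ℝ} (h0 : 0 < q) (h1 : q < 1) {W W' : Al Wo} {μ V Q h lam : ℝ}
    (hW : Mom wl W μ V) (hW' : Mom wl W' μ V) (hμ : 0 ≤ μ) (hh : 0 < h) (hl : 0 < lam)
    (hQ : Bf q (W - W') (W - W') ≤ Q) :
    l1 (W - W') ≤ (lam * Q + (2*h+1)/lam)/2 + 2*V/h^2 := by
  classical
  apply l1_le_of
  intro φ hφ
  set φ1 : Wo → ℝ := fun w => if |wl w - μ| ≤ h then φ w else 0 with hφ1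
  set φ2 : Wo → ℝ := fun w => if |wl w - μ| ≤ h then 0 else φ w with hφ2
  have e : φ = fun w => φ1 w + φ2 w := by
    funext w
    simp only [hφ1, hφ2]
    split_ifs <;> simp
  rw [e, E_add_fun]
  have hcheb : ∀ G : Al Wo, Mom wl G μ V → |E G φ2| ≤ V/h^2 := by
    intro G hG
    have hb : ∀ w, |φ2 w| ≤ (wl w - μ)^2/h^2 := by
      intro w
      simp only [hφ2]
      split_ifs with hc
      · rw [abs_zero]; positivity
      · push Not at hc
        refine (hφ w).trans ?_
        rw [le_div_iff₀ (by positivity), one_mul, ← sq_abs (wl w - μ)]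
        exact pow_le_pow_left₀ hh.le hc.le 2
    rw [abs_le]
    constructor
    · have := hG.cheb (φ := fun w => (-1) * φ2 w) hh (fun w => by
        have := neg_abs_le (φ2 w)
        have := hb w
        linarith)
      rw [E_smul_fun] at this
      linarith
    · exact hG.cheb hh (fun w => (le_abs_self _).trans (hb w))
  have h2 : E (W - W') φ2 ≤ 2*V/h^2 := by
    rw [E_sub]
    have a1 := (abs_le.mp (hcheb W hW)).2
    have a2 := (abs_le.mp (hcheb W' hW')).1
    have : 2*V/h^2 = V/h^2 + V/h^2 := by ring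
    linarith
  have h3 : E (W - W') φ1 ≤ (lam * Q + (2*h+1)/lam)/2 := by
    set F := W - W' with hF
    rw [E_eq_sum F _ (Finset.Subset.refl _)]
    have h4 : ∀ w ∈ F.coeff.support, F.coeff w * φ1 w ≤
        (lam/2) * (F.coeff w * (F.coeff w / nw q w)) +
          (1/(2*lam)) * (if |wl w - μ| ≤ h then nw q w else 0) := by
      intro w _
      have hn := nw_pos h0 h1 w
      have hsq : 0 ≤ (lam/2) * (F.coeff w * (F.coeff w / nw q w)) := by
        have : F.coeff w * (F.coeff w / nw q w) = (F.coeff w)^2 / nw q w := by ring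
        rw [this]; positivity
      simp only [hφ1]
      split_ifs with hc
      · have a1 : F.coeff w * φ w ≤ |F.coeff w| := by
          refine (le_abs_self _).trans ?_
          rw [abs_mul]
          exact mul_le_of_le_one_right (abs_nonneg _) (hφ w)
        refine a1.trans ?_
        have a2 : 0 ≤ (lam * |F.coeff w| - nw q w)^2 := sq_nonneg _
        have a3 : (lam/2) * (F.coeff w * (F.coeff w / nw q w)) + (1/(2*lam)) * nw q w - |F.coeff w|
            = (lam * |F.coeff w| - nw q w)^2 / (2 * lam * nw q w) := by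
          have : |F.coeff w|^2 = F.coeff w^2 := sq_abs _
          field_simp
          rw [← this]
          ring
        have a4 : 0 ≤ (lam * |F.coeff w| - nw q w)^2 / (2 * lam * nw q w) := by positivity
        linarith
      · rw [mul_zero, mul_zero, add_zero]; exact hsq
    refine (Finset.sum_le_sum h4).trans ?_
    rw [Finset.sum_add_distrib, ← Finset.mul_sum, ← Finset.mul_sum, ← Finset.sum_filter]
    have h5 := sum_nw_window h0 h1 F.coeff.support hμ hh.le
    have h6 : ∑ w ∈ F.coeff.support, F.coeff w * (F.coeff w / nw q w) = Bf q F F :=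
      (Bf_eq_sum q F F _ (Finset.Subset.refl _)).symm
    rw [h6]
    have h7 := mul_le_mul_of_nonneg_left hQ (show 0 ≤ lam/2 by positivity)
    have h8 := mul_le_mul_of_nonneg_left h5 (show 0 ≤ 1/(2*lam) by positivity)
    have h9 : (lam * Q + (2*h+1)/lam)/2 = lam/2*Q + 1/(2*lam)*(2*h+1) := by
      field_simp
    linarith
  linarith

/-! ### neutral elements -/

lemma E_ev (q : ℝ) (b : Al Tm) (φ : Wo → ℝ) :
    E (ev q b) φ = E b (fun m => E (eNu q ^ (Multiplicative.toAdd m)) φ) := by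
  induction b using MonoidAlgebra.induction_linear with
  | zero => rw [map_zero, E_zero, E_zero]
  | add x y hx hy => rw [map_add, E_add, E_add, hx, hy]
  | single m r => rw [ev_single, E_smul, E_single]

lemma l1_ev_le {q : ℝ} (h0 : 0 < q) (h1 : q < 1) (b : Al Tm) : l1 (ev q b) ≤ l1 b := by
  apply l1_le_of
  intro φ hφ
  rw [E_ev]
  refine (le_abs_self _).trans (E_le_l1 _ _ ?_)
  intro m
  refine (E_le_l1 _ _ hφ).trans_eq ?_
  exact ((Pr_nu h0 h1).pow _).l1

lemma shift_tn {q : ℝ} (h0 : 0 < q) (h1 : q < 1) (a : ℕ) (R : Al Tm) (hR : Pr R) :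
    l1 (tn q ^ a * R * (1 - tn q)) ≤ cA q / √((a:ℝ)+1) := by
  have hr : 0 < 1 - q^2 := by nlinarith
  have e1 : 1 - tn q = (1-q^2) • (1 - tt) := by
    rw [tn, smul_sub]
    have : (1 : Al Tm) = (q^2) • (1 : Al Tm) + (1-q^2) • (1 : Al Tm) := by
      rw [← add_smul]
      have : q^2 + (1-q^2) = 1 := by ring
      rw [this, one_smul]
    nth_rewrite 1 [this]
    abel
  have e2 : tn q ^ a * R * (1 - tn q) = (1-q^2) • ((tn q ^ a * (1 - tt)) * R) := by
    rw [e1, mul_smul_comm]
    congr 1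
    ring
  have key := shift_gen h0 h1 tt Pr_tt a
  rw [e2, l1_smul, abs_of_pos hr]
  have h3 := l1_mul_le (tn q ^ a * (1 - tt)) R
  rw [hR.l1, mul_one] at h3
  have h4 : l1 (tn q ^ a * (1 - tt)) ≤ cA q / √((a:ℝ)+1) := key
  have h5 := l1_nonneg (tn q ^ a * (1 - tt) * R)
  have h6 : (0:ℝ) ≤ q^2 := sq_nonneg q
  nlinarith

lemma shift_tx {q : ℝ} (h0 : 0 < q) (h1 : q < 1) (a : ℕ) (R : Al Tm) (hR : Pr R) :
    l1 (tn q ^ a * R * (1 - tx q)) ≤ cA q / √((a:ℝ)+1) := by
  have hr : 0 < 1 - q := by linarith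
  have e1 : 1 - tx q = (1-q) • (1 - tt) := by
    rw [tx, smul_sub]
    have : (1 : Al Tm) = q • (1 : Al Tm) + (1-q) • (1 : Al Tm) := by
      rw [← add_smul]
      have : q + (1-q) = 1 := by ring
      rw [this, one_smul]
    nth_rewrite 1 [this]
    abel
  have e2 : tn q ^ a * R * (1 - tx q) = (1-q) • ((tn q ^ a * (1 - tt)) * R) := by
    rw [e1, mul_smul_comm]
    congr 1
    ring
  have key := shift_gen h0 h1 tt Pr_tt a
  rw [e2, l1_smul, abs_of_pos hr]
  have h3 := l1_mul_le (tn q ^ a * (1 - tt)) R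
  rw [hR.l1, mul_one] at h3
  have h4 : l1 (tn q ^ a * (1 - tt)) ≤ cA q / √((a:ℝ)+1) := key
  have h5 := l1_nonneg (tn q ^ a * (1 - tt) * R)
  nlinarith

lemma shift_step {q : ℝ} {a : ℕ} {u y : Al Tm} {c : ℝ} {n : ℕ} (hu : Pr u)
    (h1 : ∀ R : Al Tm, Pr R → l1 (tn q ^ a * R * (1 - u)) ≤ c)
    (h2 : ∀ R : Al Tm, Pr R → l1 (tn q ^ a * R * (1 - y)) ≤ n * c) :
    ∀ R : Al Tm, Pr R → l1 (tn q ^ a * R * (1 - u*y)) ≤ ((n+1:ℕ):ℝ) * c := by
  intro R hR
  have e : tn q ^ a * R * (1 - u*y) = tn q ^ a * R * (1 - u) + tn q ^ a * (R*u) * (1 - y) := by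
    ring
  rw [e]
  refine (l1_add_le _ _).trans ?_
  have := h1 R hR
  have := h2 (R*u) (hR.mul hu)
  push_cast
  linarith

lemma shift_neutral {q : ℝ} (h0 : 0 < q) (h1 : q < 1) (a s x : ℕ) (R : Al Tm) (hR : Pr R) :
    l1 (tn q ^ a * R * (1 - tn q ^ s * tx q ^ x)) ≤ ((s+x:ℕ):ℝ) * (cA q / √((a:ℝ)+1)) := by
  induction s generalizing R with
  | zero =>
    induction x generalizing R with
    | zero => simp [l1_zero]
    | succ x ih =>
      have := shift_step (q := q) (a := a) (u := tx q) (y := tn q ^ 0 * tx q ^ x)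
        (c := cA q / √((a:ℝ)+1)) (n := 0 + x) (Pr_tx h0 h1) (fun R hR => shift_tx h0 h1 a R hR) ih R hR
      have e : tx q * (tn q ^ 0 * tx q ^ x) = tn q ^ 0 * tx q ^ (x+1) := by ring
      rw [e] at this
      exact this
  | succ s ih =>
    have := shift_step (q := q) (a := a) (u := tn q) (y := tn q ^ s * tx q ^ x)
      (c := cA q / √((a:ℝ)+1)) (n := s + x) (Pr_tn h0 h1) (fun R hR => shift_tn h0 h1 a R hR) ih R hR
    have e : tn q * (tn q ^ s * tx q ^ x) = tn q ^ (s+1) * tx q ^ x := by ring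
    have e2 : s + 1 + x = s + x + 1 := by ring
    rw [e] at this
    rw [e2]
    exact this

end Vale.Agent.P321S
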