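import Mathlib
import Vale.Agent.P321S.OvL1

/-! P321 overlap: choice of parameters -/

namespace Vale.Agent.P321S

open MonoidAlgebra Finset
open Vale.Agent.P321 (Letter)

/-- real parameters -/
structure Rp (K M s e σ G : ℝ) : Prop where
  hK : 1 ≤ K
  hM : M = 110 * K^3
  hs : s = 6*K*M^2+1
  he : 1 ≤ e
  hσ : σ^2 = s
  hσ1 : 1 ≤ σ
  hG : G = s * (M^4 * e)

section
variable {K M s e σ G : ℝ}

lemma Rp.M110 (h : Rp K M s e σ G) : 110 * K ≤ M := by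
  rw [h.hM]
  have := h.hK
  nlinarith [sq_nonneg (K-1), mul_nonneg (sub_nonneg.mpr this) (sq_nonneg K), sq_nonneg K]

lemma Rp.Mpos (h : Rp K M s e σ G) : 0 < M := by
  have := h.M110
  have := h.hK
  linarith

lemma Rp.s_le (h : Rp K M s e σ G) : s ≤ 7*K*M^2 := by
  rw [h.hs]
  have h1 := h.M110
  have h2 := h.hK
  have h3 : 1 ≤ M := by linarith
  have h4 : 1 ≤ M^2 := by nlinarith
  nlinarith

lemma Rp.s_ge (h : Rp K M s e σ G) : 1 ≤ s := by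
  rw [h.hs]
  have h2 := h.hK
  have : 0 ≤ K * M^2 := by positivity
  nlinarith

lemma Rp.Gpos (h : Rp K M s e σ G) : 0 < G := by
  rw [h.hG]
  have := h.s_ge
  have := h.Mpos
  have := h.he
  positivity

lemma theta_le (h : Rp K M s e σ G) {r2 j1 : ℝ} (hr2 : 0 < r2) (hρ : 1/r2 ≤ K)
    (hj0 : 0 ≤ j1) (hj : j1 ≤ 2*(s*e)) : j1/(2*G*r2) ≤ K/M^4 := by
  have hM := h.Mpos
  have hG := h.Gpos
  have h1 : j1/(2*G) ≤ 1/M^4 := by
    rw [div_le_div_iff₀ (by positivity) (by positivity), h.hG]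
    have : j1 * M^4 ≤ 2*(s*e)*M^4 := mul_le_mul_of_nonneg_right hj (by positivity)
    linarith
  have e : j1/(2*G*r2) = (j1/(2*G)) * (1/r2) := by
    field_simp
  rw [e]
  calc (j1/(2*G)) * (1/r2) ≤ (1/M^4) * K :=
        mul_le_mul h1 hρ (by positivity) (by positivity)
    _ = K/M^4 := by ring

lemma eight_le (h : Rp K M s e σ G) {θ : ℝ} (hθ : θ ≤ K/M^4) :
    8 * θ * (4 + 2*σ + σ^2) ≤ 1 := by
  have hM := h.Mpos
  have hK := h.hK
  have hs := h.s_le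
  have hσ := h.hσ
  have hσ1 := h.hσ1
  have h110 := h.M110
  have h1 : 4 + 2*σ + σ^2 ≤ 49*K*M^2 := by
    have : 4 + 2*σ + σ^2 ≤ 7*σ^2 := by nlinarith
    rw [hσ] at this
    rw [hσ]
    linarith
  have h0 : 0 ≤ 4 + 2*σ + σ^2 := by positivity
  calc 8 * θ * (4 + 2*σ + σ^2) ≤ 8 * (K/M^4) * (4 + 2*σ + σ^2) := by
        apply mul_le_mul_of_nonneg_right _ h0; linarith
    _ ≤ 8 * (K/M^4) * (49*K*M^2) := by
        apply mul_le_mul_of_nonneg_left h1; positivity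
    _ = 392*K^2/M^2 := by field_simp; ring
    _ ≤ 1 := by
        rw [div_le_one (by positivity)]
        have : (110*K)^2 ≤ M^2 := pow_le_pow_left₀ (by positivity) h110 2
        nlinarith [sq_nonneg K]

lemma par1_calc {P A K M σ a b c T : ℝ} (hP0 : 0 ≤ P) (hP : P ≤ K) (hA0 : 0 < A) (hA : A ≤ K)
    (hK : 0 ≤ K) (hM : 0 < M) (hσ1 : 0 < σ)
    (a0 : 0 < a) (b0 : 0 < b) (c0 : 0 < c) (hcb : c ≤ 2*b) (hS : 32*K^2*σ ≤ M^2)
    (hT : T ≤ 8*σ*a/(b*M^2)) : P * (2 * (A/a)^2 * T) ≤ A/a * (1/c) := by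
  have hT0 : 0 ≤ 8*σ*a/(b*M^2) := by positivity
  have hA2 : 0 ≤ 2 * (A/a)^2 := by positivity
  have s1 : P * (2 * (A/a)^2 * T) ≤ P * (2 * (A/a)^2 * (8*σ*a/(b*M^2))) :=
    mul_le_mul_of_nonneg_left (mul_le_mul_of_nonneg_left hT hA2) hP0
  have s2 : P * (2 * (A/a)^2 * (8*σ*a/(b*M^2))) ≤ K * (2 * (A/a)^2 * (8*σ*a/(b*M^2))) :=
    mul_le_mul_of_nonneg_right hP (mul_nonneg hA2 hT0)
  have s3 : K * (2 * (A/a)^2 * (8*σ*a/(b*M^2))) = A * (16*K*σ*A/(a*b*M^2)) := by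
    field_simp; ring
  have hd : 0 < a*b*M^2 := by positivity
  have s4 : 16*K*σ*A/(a*b*M^2) ≤ 16*K*σ*K/(a*b*M^2) := by
    apply div_le_div_of_nonneg_right _ hd.le
    apply mul_le_mul_of_nonneg_left hA (by positivity)
  have s5 : 16*K*σ*K/(a*b*M^2) ≤ 1/(a*c) := by
    rw [div_le_div_iff₀ hd (by positivity)]
    have h16 : 16*K*σ*K*(a*c) ≤ 16*K*σ*K*(a*(2*b)) := by
      apply mul_le_mul_of_nonneg_left _ (by positivity)
      exact mul_le_mul_of_nonneg_left hcb a0.le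
    have h17 : 16*K*σ*K*(a*(2*b)) = (32*K^2*σ)*(a*b) := by ring
    have h18 : (32*K^2*σ)*(a*b) ≤ M^2*(a*b) := mul_le_mul_of_nonneg_right hS (by positivity)
    linarith
  have s6 : A * (1/(a*c)) = A/a * (1/c) := by field_simp
  rw [s3] at s2
  rw [← s6]
  exact (s1.trans s2).trans (mul_le_mul_of_nonneg_left (s4.trans s5) hA0.le)

lemma par1_T (hM : 0 < M) {b a X : ℝ} (hσ1 : 1 ≤ σ) (a0 : 0 < a) (b0 : 0 < b) (hab : M^2 * b ≤ a)
    (haσ : M^2 * σ ≤ a) (hX : X ≤ 5 + 2*σ/b + σ*σ/b) : X ≤ 8*σ*a/(b*M^2) := by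
  have h6 : 5 ≤ 5*σ*a/(b*M^2) := by
    rw [le_div_iff₀ (by positivity)]
    have : 5 * (M^2*b) ≤ 5 * a := by linarith
    have h7 : a ≤ σ * a := by nlinarith
    nlinarith
  have h7 : 2*σ/b ≤ 2*σ*a/(b*M^2) := by
    rw [div_le_div_iff₀ b0 (by positivity)]
    have h9 : M^2 ≤ a := by nlinarith [sq_nonneg M]
    have : 2*σ*b*M^2 ≤ 2*σ*b*a := mul_le_mul_of_nonneg_left h9 (by positivity)
    linarith
  have h8' : σ*σ/b ≤ σ*a/(b*M^2) := by
    rw [div_le_div_iff₀ b0 (by positivity)]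
    have : σ*b*(M^2*σ) ≤ σ*b*a := mul_le_mul_of_nonneg_left haσ (by positivity)
    linarith
  have h10 : 8*σ*a/(b*M^2) = 5*σ*a/(b*M^2) + 2*σ*a/(b*M^2) + σ*a/(b*M^2) := by ring
  linarith

lemma par1_S (h : Rp K M s e σ G) : 32*K^2*σ ≤ M^2 := by
  have hM := h.Mpos
  have hK := h.hK
  apply abs_le_of_sq_le_sq' _ (by positivity) |>.2
  rw [mul_pow, h.hσ]
  have h11 := h.s_le
  have h12 : (32*K^2)^2 * s ≤ (32*K^2)^2 * (7*K*M^2) :=
    mul_le_mul_of_nonneg_left h11 (by positivity)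
  refine h12.trans ?_
  have h13 : (32*K^2)^2 * (7*K*M^2) = 7168*K^5*M^2 := by ring
  rw [h13]
  have h14 : 7168*K^5 ≤ M^2 := by
    rw [h.hM]
    have : (110*K^3)^2 = 12100*K^5*K := by ring
    rw [this]
    have h15 : 0 < K^5 := by positivity
    nlinarith
  have h15 : (M^2)^2 = M^2 * M^2 := by ring
  rw [h15]
  exact mul_le_mul_of_nonneg_right h14 (sq_nonneg M)

lemma par1 (h : Rp K M s e σ G) {P A r2 : ℝ} (hP0 : 0 ≤ P) (hP : P ≤ K) (hA0 : 0 < A) (hA : A ≤ K)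
    (hr2 : 0 < r2) (hρ : 1/r2 ≤ K) (J : ℕ) (hJ : (J:ℝ)+1 ≤ s*e) :
    P * (2 * (A/√G)^2 * (cs σ J + 8*(((J:ℝ)+1)/(2*G*r2)) * (4+2*σ+σ^2))) ≤
      A/√G * (1/√((J:ℝ)+2)) := by
  have hM := h.Mpos
  have hK := h.hK
  have hG := h.Gpos
  have hσ := h.hσ
  have hσ1 := h.hσ1
  have he := h.he
  have hs1 := h.s_ge
  have h8 := eight_le h (theta_le h hr2 hρ (j1 := (J:ℝ)+1) (by positivity) (by nlinarith))
  set a := √G with ha
  set b := √((J:ℝ)+1) with hb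
  set c := √((J:ℝ)+2) with hc
  have a0 : 0 < a := Real.sqrt_pos.mpr hG
  have b0 : 0 < b := Real.sqrt_pos.mpr (by positivity)
  have c0 : 0 < c := Real.sqrt_pos.mpr (by positivity)
  have a2 : a^2 = G := Real.sq_sqrt hG.le
  have b2 : b^2 = J+1 := Real.sq_sqrt (by positivity)
  have c2 : c^2 = J+2 := Real.sq_sqrt (by positivity)
  have hcb : c ≤ 2*b := by
    apply abs_le_of_sq_le_sq' _ (by positivity) |>.2
    rw [mul_pow, c2, b2]
    have : (0:ℝ) ≤ J := Nat.cast_nonneg J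
    linarith
  -- a ≥ M² b
  have hab : M^2 * b ≤ a := by
    apply abs_le_of_sq_le_sq' _ a0.le |>.2
    rw [mul_pow, b2, a2, h.hG]
    have : (M^2)^2 * ((J:ℝ)+1) ≤ (M^2)^2 * (s*e) := mul_le_mul_of_nonneg_left hJ (by positivity)
    calc (M^2)^2 * ((J:ℝ)+1) ≤ (M^2)^2 * (s*e) := this
      _ = s * (M^4*e) := by ring
  have haσ : M^2 * σ ≤ a := by
    apply abs_le_of_sq_le_sq' _ a0.le |>.2
    rw [mul_pow, a2, h.hG, hσ]
    have h4 : 0 ≤ M^4 * s := by positivity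
    nlinarith [mul_le_mul_of_nonneg_left he h4]
  have hcs : cs σ J ≤ 4 + 2*σ/b + σ*σ/b := by
    have := conv_wt (σ := σ) J
    have h5 : (if J = 0 then σ^2 else 0) ≤ σ*σ/b := by
      split_ifs with hJ0
      · subst hJ0
        rw [hb]; simp; nlinarith
      · positivity
    unfold cs
    linarith
  have hX : cs σ J + 8*(((J:ℝ)+1)/(2*G*r2)) * (4+2*σ+σ^2) ≤ 5 + 2*σ/b + σ*σ/b := by linarith
  exact par1_calc hP0 hP hA0 hA (by linarith) hM (by linarith) a0 b0 c0 hcb (par1_S h)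
    (par1_T hM hσ1 a0 b0 hab haσ hX)

lemma par2 (h : Rp K M s e σ G) {P A r2 : ℝ} (hP0 : 0 ≤ P) (hP : P ≤ K) (hA0 : 0 < A) (hA : A ≤ K)
    (hr2 : 0 < r2) (hρ : 1/r2 ≤ K) (J : ℕ) (hJ : (J:ℝ) ≤ s*e) (hJ2 : s*e ≤ (J:ℝ)+1) :
    P * (2 * (A/√G)^2 * (cs σ J + 8*(((J:ℝ)+1)/(2*G*r2)) * (4+2*σ+σ^2))) ≤ 14*K^3/G := by
  have hM := h.Mpos
  have hK := h.hK
  have hG := h.Gpos
  have hσ := h.hσ
  have hσ1 := h.hσ1
  have he := h.he
  have hs1 := h.s_ge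
  have hse : 1 ≤ s*e := by nlinarith
  have h8 := eight_le h (theta_le h hr2 hρ (j1 := (J:ℝ)+1) (by positivity) (by linarith))
  have hJ0 : J ≠ 0 := by
    intro hJ0
    subst hJ0
    have h110 := h.M110
    have h1 : s ≤ s*e := by nlinarith
    have h2 := h.hs
    have h3 : 1 ≤ M := by linarith
    have h4 : 1 ≤ K * M^2 := by nlinarith
    push_cast at hJ2
    nlinarith
  have hcs : cs σ J ≤ 6 := by
    have h1 := conv_wt (σ := σ) J
    rw [if_neg hJ0, add_zero] at h1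
    have hb : σ ≤ √((J:ℝ)+1) := by
      apply Real.le_sqrt_of_sq_le
      rw [hσ]
      nlinarith
    have b0 : 0 < √((J:ℝ)+1) := Real.sqrt_pos.mpr (by positivity)
    have h2 : 2*σ/√((J:ℝ)+1) ≤ 2 := by
      rw [div_le_iff₀ b0]; linarith
    unfold cs
    linarith
  have a2 : (A/√G)^2 = A^2/G := by rw [div_pow, Real.sq_sqrt hG.le]
  rw [a2]
  calc P * (2 * (A^2/G) * (cs σ J + 8*(((J:ℝ)+1)/(2*G*r2)) * (4+2*σ+σ^2)))
      ≤ P * (2 * (A^2/G) * 7) := by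
        apply mul_le_mul_of_nonneg_left _ hP0
        apply mul_le_mul_of_nonneg_left _ (by positivity)
        linarith
    _ ≤ K * (2 * (K^2/G) * 7) := by
        apply mul_le_mul hP _ (by positivity) (by linarith)
        apply mul_le_mul_of_nonneg_right _ (by norm_num)
        apply mul_le_mul_of_nonneg_left _ (by norm_num)
        apply div_le_div_of_nonneg_right _ hG.le
        exact pow_le_pow_left₀ hA0.le hA 2
    _ = 14*K^3/G := by ring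

/-- the final numerical bound of a piece -/
lemma par3 (h : Rp K M s e σ G) : ((104*(M^2*(s*e))) * (14*K^3/G) +
    (2*(6*(M^2*(s*e)))+1)/(104*(M^2*(s*e))))/2 + 2*(2*(M^2*(s*e))^2)/(6*(M^2*(s*e)))^2 ≤ 1/4 := by
  have hM := h.Mpos
  have hK := h.hK
  have hG := h.Gpos
  have he := h.he
  have hs1 := h.s_ge
  have h110 := h.M110
  have hse : 1 ≤ s*e := by nlinarith
  have hM1 : 1 ≤ M := by linarith
  have hM2 : 1 ≤ M^2 := by nlinarith
  have hH : 1 ≤ M^2*(s*e) := by nlinarith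
  have e1 : (104*(M^2*(s*e))) * (14*K^3/G) = 1456*K^3/M^2 := by
    rw [h.hG]
    have : s*e ≠ 0 := by positivity
    field_simp
    ring
  have h1 : 1456*K^3/M^2 ≤ 1/8 := by
    rw [div_le_iff₀ (by positivity), h.hM]
    have h2 : 1/8*(110*K^3)^2 = 1512.5*K^3*K^3 := by ring
    rw [h2]
    have h3 : 1 ≤ K^3 := one_le_pow₀ hK
    nlinarith
  set H := M^2*(s*e) with hHdef
  have h2 : (2*(6*H)+1)/(104*H) ≤ 1/8 := by
    rw [div_le_iff₀ (by positivity)]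
    linarith
  have h3 : 2*(2*H^2)/(6*H)^2 = 1/9 := by
    field_simp
    ring
  rw [e1, h3]
  linarith

end

end Vale.Agent.P321S
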