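import Mathlib
import Vale.Agent.P321S.OvPar

/-! P321 overlap: pieces and the main theorem -/

namespace Vale.Agent.P321S

open MonoidAlgebra Finset
open Vale.Agent.P321 (Letter)

section ovl
variable {M : Type*} [Monoid M]

/-- overlap of two measures -/
def Ovl (δ : ℝ) (P Q : Al M) : Prop := ∃ C : Al M, Nn C ∧ Le C P ∧ Le C Q ∧ δ ≤ mass C

lemma Ovl.mul {δ δ' : ℝ} {P Q P' Q' : Al M} (h : Ovl δ P Q) (h' : Ovl δ' P' Q') (hδ : 0 ≤ δ)
    (hδ' : 0 ≤ δ') (hP : Nn P) (hQ : Nn Q) : Ovl (δ*δ') (P*P') (Q*Q') := by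
  obtain ⟨C, c1, c2, c3, c4⟩ := h
  obtain ⟨C', d1, d2, d3, d4⟩ := h'
  refine ⟨C*C', c1.mul d1, c2.mul d2 d1 hP, c3.mul d3 d1 hQ, ?_⟩
  rw [mass_mul]
  exact mul_le_mul c4 d4 hδ' (mass_nonneg c1)

lemma Ovl.l1 {δ : ℝ} {P Q : Al M} (h : Ovl δ P Q) (hP : Pr P) (hQ : Pr Q) :
    l1 (P - Q) ≤ 2 - 2*δ := by
  obtain ⟨C, c1, c2, c3, c4⟩ := h
  have e : P - Q = (P - C) - (Q - C) := by abel
  rw [e]
  have h1 := l1_sub_le (P - C) (Q - C)
  rw [l1_of_nn c2.nn, l1_of_nn c3.nn, mass_sub, mass_sub, hP.mass, hQ.mass] at h1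
  linarith

/-- coefficientwise minimum -/
noncomputable def mn (P Q : Al M) : Al M :=
  ofCoeff (Finsupp.zipWith min (min_self (0:ℝ)) P.coeff Q.coeff)

lemma coeff_mn (P Q : Al M) (w : M) : (mn P Q).coeff w = min (P.coeff w) (Q.coeff w) := by
  unfold mn
  rw [coeff_ofCoeff, Finsupp.zipWith_apply]

lemma Ovl_of_l1 {δ : ℝ} {P Q : Al M} (hP : Pr P) (hQ : Pr Q) (h : l1 (P - Q) ≤ 2 - 2*δ) :
    Ovl δ P Q := by
  classical
  refine ⟨mn P Q, ?_, ?_, ?_, ?_⟩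
  · intro w
    rw [coeff_mn]
    exact le_min (hP.nn w) (hQ.nn w)
  · intro w
    rw [coeff_mn]
    exact min_le_left _ _
  · intro w
    rw [coeff_mn]
    exact min_le_right _ _
  · set S := P.coeff.support ∪ Q.coeff.support with hS
    have s1 : (mn P Q).coeff.support ⊆ S := by
      intro w hw
      rw [Finsupp.mem_support_iff, coeff_mn] at hw
      rw [hS, mem_union, Finsupp.mem_support_iff, Finsupp.mem_support_iff]
      by_contra hc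
      push Not at hc
      apply hw
      rw [hc.1, hc.2, min_self]
    have s2 : (P - Q).coeff.support ⊆ S := by
      intro w hw
      rw [Finsupp.mem_support_iff, coeff_sub, Finsupp.sub_apply] at hw
      rw [hS, mem_union, Finsupp.mem_support_iff, Finsupp.mem_support_iff]
      by_contra hc
      push Not at hc
      apply hw
      rw [hc.1, hc.2, sub_self]
    have m1 : mass P = ∑ w ∈ S, P.coeff w := by
      unfold mass
      rw [E_eq_sum P S subset_union_left]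
      simp
    have m2 : mass Q = ∑ w ∈ S, Q.coeff w := by
      unfold mass
      rw [E_eq_sum Q S subset_union_right]
      simp
    have m3 : mass (mn P Q) = ∑ w ∈ S, (mn P Q).coeff w := by
      unfold mass
      rw [E_eq_sum _ S s1]
      simp
    rw [l1_eq_sum _ S s2] at h
    have e : ∑ w ∈ S, |(P - Q).coeff w| = mass P + mass Q - 2 * mass (mn P Q) := by
      rw [m1, m2, m3, Finset.mul_sum, ← Finset.sum_add_distrib, ← Finset.sum_sub_distrib]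
      apply Finset.sum_congr rfl
      intro w _
      rw [coeff_mn, coeff_sub, Finsupp.sub_apply]
      rcases le_total (P.coeff w) (Q.coeff w) with hc | hc
      · rw [min_eq_left hc, abs_of_nonpos (by linarith)]; ring
      · rw [min_eq_right hc, abs_of_nonneg (by linarith)]; ring
    rw [e, hP.mass, hQ.mass] at h
    linarith

end ovl

/-! ### algebra of the pieces -/

lemma Ww_mul (q : ℝ) (g : ℕ) {c0 j c1 c0' j' c1' : ℕ} (h : c1 + c0' = 2*g) :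
    Ww q g c0 j c1 * Ww q g c0' j' c1' = Ww q g c0 (j+j'+1) c1' := by
  unfold Ww
  have e : (eX q * eN q ^ (2*g)) ^ (j+j'+1) =
      (eX q * eN q ^ (2*g)) ^ j * (eX q * (eN q ^ c1 * eN q ^ c0')) *
        (eX q * eN q ^ (2*g)) ^ j' := by
    rw [← pow_add (eN q), h, ← pow_succ, ← pow_add]
    congr 1
    ring
  rw [e]
  simp only [mul_assoc]

lemma eU_eq (q : ℝ) (g : ℕ) : eU q g = Ww q g g 0 g := by
  unfold eU Ww
  rw [pow_zero, mul_one]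

lemma eU_pow (q : ℝ) (g n : ℕ) : eU q g ^ (n+1) = Ww q g g n g := by
  induction n with
  | zero => rw [zero_add, pow_one, eU_eq]
  | succ n ih =>
    rw [pow_succ, ih, eU_eq, Ww_mul q g (by ring)]

lemma Pr_N {q : ℝ} (h0 : 0 < q) (h1 : q < 1) : Pr (eN q) := (Mom_N h0 h1).pr
lemma Pr_X {q : ℝ} (h0 : 0 < q) (h1 : q < 1) : Pr (eX q) := (Mom_X h0 h1).pr

lemma Pr_Ww {q : ℝ} (h0 : 0 < q) (h1 : q < 1) (g c0 j c1 : ℕ) : Pr (Ww q g c0 j c1) :=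
  ((((Pr_N h0 h1).pow _).mul (((Pr_X h0 h1).mul ((Pr_N h0 h1).pow _)).pow _)).mul
    (Pr_X h0 h1)).mul ((Pr_N h0 h1).pow _)

lemma Pr_U {q : ℝ} (h0 : 0 < q) (h1 : q < 1) (g : ℕ) : Pr (eU q g) :=
  (((Pr_N h0 h1).pow _).mul (Pr_X h0 h1)).mul ((Pr_N h0 h1).pow _)

/-- mean length of `Ww` -/
noncomputable def mW (q : ℝ) (g c0 j c1 : ℕ) : ℝ :=
  c0 * (1-q^2) + j * ((1-q) + (2*g : ℕ) * (1-q^2)) + (1-q) + c1 * (1-q^2)

/-- variance bound of `Ww` -/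
noncomputable def vW (g c0 j c1 : ℕ) : ℝ :=
  c0 * (1/4) + j * ((1/4) + (2*g : ℕ) * (1/4)) + (1/4) + c1 * (1/4)

lemma Mom_Ww {q : ℝ} (h0 : 0 < q) (h1 : q < 1) (g c0 j c1 : ℕ) :
    Mom wl (Ww q g c0 j c1) (mW q g c0 j c1) (vW g c0 j c1) :=
  ((((Mom_N h0 h1).pow wl_mul c0).mul wl_mul
    (((Mom_X h0 h1).mul wl_mul ((Mom_N h0 h1).pow wl_mul (2*g))).pow wl_mul j)).mul wl_mul
      (Mom_X h0 h1)).mul wl_mul ((Mom_N h0 h1).pow wl_mul c1)

lemma Mom_Wn {q : ℝ} (h0 : 0 < q) (h1 : q < 1) (g c0 j c1 : ℕ) :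
    Mom wl (Wn q g c0 j c1) (mW q g c0 j c1) (vW g c0 j c1) :=
  ((((Mom_N h0 h1).pow wl_mul c0).mul wl_mul
    (((Mom_X0 h0 h1).mul wl_mul ((Mom_N h0 h1).pow wl_mul (2*g))).pow wl_mul j)).mul wl_mul
      (Mom_X0 h0 h1)).mul wl_mul ((Mom_N h0 h1).pow wl_mul c1)

lemma mW_nonneg {q : ℝ} (h0 : 0 < q) (h1 : q < 1) (g c0 j c1 : ℕ) : 0 ≤ mW q g c0 j c1 := by
  have hr : 0 < 1 - q^2 := by nlinarith
  have hp : 0 < 1 - q := by linarith
  unfold mW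
  positivity

/-- integer parameters -/
structure Ip (q : ℝ) (K M s0 e : ℕ) : Prop where
  h0 : 0 < q
  h1 : q < 1
  hK : 1 ≤ K
  he : 1 ≤ e
  hM : M = 110*K^3
  hs : s0 = 6*K*M^2+1
  hA : cA q ≤ K
  hP : (1-q)^2*(1/q) ≤ K
  hρ : 1/(1-q^2)^2 ≤ K

section
variable {q : ℝ} {K M s0 e : ℕ}

lemma Ip.s_pos (h : Ip q K M s0 e) : 1 ≤ s0 := by rw [h.hs]; omega

lemma Ip.rp (h : Ip q K M s0 e) : Rp K M s0 e (√(s0:ℝ)) ((s0*(M^4*e) : ℕ) : ℝ) := by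
  have hs1 := h.s_pos
  have hs1' : (1:ℝ) ≤ s0 := by exact_mod_cast hs1
  refine ⟨by exact_mod_cast h.hK, ?_, ?_, by exact_mod_cast h.he, Real.sq_sqrt (by positivity),
    ?_, ?_⟩
  · rw [h.hM]; push_cast; ring
  · rw [h.hs]; push_cast; ring
  · rw [Real.one_le_sqrt]; exact hs1'
  · push_cast; ring

lemma Ip.M_pos (h : Ip q K M s0 e) : 1 ≤ M := by
  rw [h.hM]
  have := Nat.one_le_pow 3 K (by have := h.hK; omega)
  omega

lemma Ip.g1_pos (h : Ip q K M s0 e) : 1 ≤ M^4*e := by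
  have h1 := Nat.one_le_pow 4 M h.M_pos
  have h2 := h.he
  exact Nat.one_le_iff_ne_zero.mpr (by positivity)

lemma Ip.g_pos (h : Ip q K M s0 e) : 1 ≤ s0*(M^4*e) := by
  have h1 := h.g1_pos
  have h2 := h.s_pos
  exact Nat.one_le_iff_ne_zero.mpr (by positivity)

lemma sig_cond (h : Ip q K M s0 e) {c : ℕ} (hc : M^4*e ≤ c) :
    (((s0*(M^4*e) : ℕ) : ℝ)) ≤ (√(s0:ℝ))^2 * (c+1) := by
  rw [Real.sq_sqrt (by positivity)]
  have : ((M^4*e : ℕ):ℝ) ≤ c := by exact_mod_cast hc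
  rw [Nat.cast_mul]
  apply mul_le_mul_of_nonneg_left _ (by positivity)
  linarith

/-- piece against its neutral version -/
lemma piece1 (h : Ip q K M s0 e) {c0 j c1 : ℕ} (a0 : M^4*e ≤ c0) (a1 : M^4*e ≤ c1)
    (b0 : c0 ≤ 2*(s0*(M^4*e))) (b1 : c1 ≤ 2*(s0*(M^4*e))) (hj : j ≤ s0*e) (hj2 : s0*e ≤ j+1) :
    l1 (Ww q (s0*(M^4*e)) c0 j c1 - Wn q (s0*(M^4*e)) c0 j c1) ≤ 1/4 := by
  have h0 := h.h0
  have h1 := h.h1
  have rp := h.rp
  have hr : 0 < 1 - q^2 := by nlinarith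
  have hs1 := h.s_pos
  have hs1' : (1:ℝ) ≤ s0 := by exact_mod_cast hs1
  have he' : (1:ℝ) ≤ e := by exact_mod_cast h.he
  have hM' : (1:ℝ) ≤ M := by exact_mod_cast h.M_pos
  have hG1' : (1:ℝ) ≤ ((s0*(M^4*e) : ℕ):ℝ) := by exact_mod_cast h.g_pos
  have hP0 : 0 ≤ (1-q)^2*(1/q) := by positivity
  set g := s0*(M^4*e) with hg
  -- before-parts
  have hγ := gamma_le (q := q) (g := g) (c0 := c0) h0 h1 h.g_pos (σ := √(s0:ℝ)) rp.hσ1
    (sig_cond h a0) j (by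
      intro J hJ
      have hJ' : (J:ℝ)+1 ≤ s0*e := by
        have : J + 1 ≤ s0*e := by omega
        exact_mod_cast this
      have := par1 rp hP0 h.hP (cA_pos h0 h1) h.hA (r2 := (1-q^2)^2) (by positivity) h.hρ J hJ'
      rw [mul_assoc] at this
      exact this)
  have hD := Bf_Df_le (c0 := c0) h0 h1 h.g_pos (Real.sqrt_nonneg _) (sig_cond h a1) b1 j hγ
  have hQ : Bf q (Ww q g c0 j c1 - Wn q g c0 j c1) (Ww q g c0 j c1 - Wn q g c0 j c1) ≤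
      14*(K:ℝ)^3/(g:ℝ) := by
    rw [Bf_Ww_sub h0]
    refine (mul_le_mul_of_nonneg_left hD (sq_nonneg _)).trans ?_
    have hj' : (j:ℝ) ≤ s0*e := by exact_mod_cast hj
    have hj2' : (s0*e:ℝ) ≤ (j:ℝ)+1 := by exact_mod_cast hj2
    have := par2 rp hP0 h.hP (cA_pos h0 h1) h.hA (r2 := (1-q^2)^2) (by positivity) h.hρ j hj' hj2'
    rw [mul_assoc] at this
    exact this
  have hH : (0:ℝ) < (M:ℝ)^2*(s0*e) := by positivity
  have hV : vW g c0 j c1 ≤ 2*((M:ℝ)^2*(s0*e))^2 := by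
    have c0' : (c0:ℝ) ≤ 2*g := by exact_mod_cast b0
    have c1' : (c1:ℝ) ≤ 2*g := by exact_mod_cast b1
    have hj' : (j:ℝ) ≤ s0*e := by exact_mod_cast hj
    have e1 : ((M:ℝ)^2*(s0*e))^2 = g * (s0*e) := by
      rw [hg]; push_cast; ring
    rw [e1]
    unfold vW
    push_cast
    have hse : (1:ℝ) ≤ s0*e := by nlinarith
    have h3 : (j:ℝ) * (1/4+2*g*(1/4)) ≤ (s0*e) * (1/4+2*g*(1/4)) :=
      mul_le_mul_of_nonneg_right hj' (by positivity)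
    nlinarith
  have key := l1_bound h0 h1 (lam := 104*((M:ℝ)^2*(s0*e))) (h := 6*((M:ℝ)^2*(s0*e)))
    ((Mom_Ww h0 h1 g c0 j c1).mono hV) ((Mom_Wn h0 h1 g c0 j c1).mono hV)
    (mW_nonneg h0 h1 g c0 j c1) (by positivity) (by positivity) hQ
  exact key.trans (par3 rp)

/-- neutral versions against each other -/
lemma piece2 (h : Ip q K M s0 e) {c0 j c1 x : ℕ}
    (hc : 2*(s0*(M^4*e))*j+c0+c1 = 2*(s0*(M^4*e))*(s0*e) + 2*(M^4*e)) (hj : j+1 = s0*e+x)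
    (hx : x ≤ 1) :
    l1 (Wn q (s0*(M^4*e)) (s0*(M^4*e)) (s0*e-1) (s0*(M^4*e)) - Wn q (s0*(M^4*e)) c0 j c1) ≤ 1/2 := by
  have h0 := h.h0
  have h1 := h.h1
  have rp := h.rp
  have hs1 := h.s_pos
  have hs1' : (1:ℝ) ≤ s0 := by exact_mod_cast hs1
  have he' : (1:ℝ) ≤ e := by exact_mod_cast h.he
  have hM' : (1:ℝ) ≤ M := by exact_mod_cast h.M_pos
  have hg1' : (1:ℝ) ≤ ((M^4*e : ℕ):ℝ) := by exact_mod_cast h.g1_pos
  have hse : 1 ≤ s0*e := by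
    have := h.he
    exact Nat.one_le_iff_ne_zero.mpr (by positivity)
  set g := s0*(M^4*e) with hg
  rw [← ev_tw h0, ← ev_tw h0, ← map_sub]
  refine (l1_ev_le h0 h1 _).trans ?_
  have e1 : tw q g g (s0*e-1) g - tw q g c0 j c1 =
      tn q ^ (2*g*(s0*e)) * tx q ^ (s0*e) * (1 - tn q ^ (2*(M^4*e)) * tx q ^ x) := by
    unfold tw
    rw [hc, hj]
    have e2 : 2*g*(s0*e-1)+g+g = 2*g*(s0*e) := by
      obtain ⟨k, hk⟩ := Nat.exists_eq_add_of_le hse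
      rw [hk]
      have : 1 + k - 1 = k := by omega
      rw [this]; ring
    have e3 : s0*e-1+1 = s0*e := by omega
    rw [e2, e3]
    ring
  rw [e1]
  refine (shift_neutral h0 h1 _ _ _ _ ((Pr_tx h0 h1).pow _)).trans ?_
  have hA := cA_pos h0 h1
  have hsq : (M:ℝ)^2*(s0*e) ≤ √(((2*g*(s0*e) : ℕ):ℝ)+1) := by
    apply Real.le_sqrt_of_sq_le
    have e4 : ((M:ℝ)^2*(s0*e))^2 = g * (s0*e) := by
      rw [hg]; push_cast; ring
    rw [e4]
    push_cast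
    have : (0:ℝ) ≤ g * (s0*e) := by positivity
    linarith
  have hpos : (0:ℝ) < (M:ℝ)^2*(s0*e) := by positivity
  have h2 : cA q / √(((2*g*(s0*e) : ℕ):ℝ)+1) ≤ K/((M:ℝ)^2*(s0*e)) :=
    div_le_div₀ (by positivity) h.hA hpos hsq
  have h3 : ((2*(M^4*e)+x : ℕ):ℝ) ≤ 3*((M:ℝ)^4*e) := by
    have hx' : (x:ℝ) ≤ 1 := by exact_mod_cast hx
    push_cast at *
    linarith
  calc ((2*(M^4*e)+x : ℕ):ℝ) * (cA q / √(((2*g*(s0*e) : ℕ):ℝ)+1))
      ≤ (3*((M:ℝ)^4*e)) * (K/((M:ℝ)^2*(s0*e))) :=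
        mul_le_mul h3 h2 (by positivity) (by positivity)
    _ = 3*(M:ℝ)^2*K/s0 := by field_simp
    _ ≤ 1/2 := by
        rw [div_le_iff₀ (by positivity), rp.hs]
        nlinarith

/-- a piece against the standard piece -/
lemma piece (h : Ip q K M s0 e) {c0 j c1 x : ℕ} (a0 : M^4*e ≤ c0) (a1 : M^4*e ≤ c1)
    (b0 : c0 ≤ 2*(s0*(M^4*e))) (b1 : c1 ≤ 2*(s0*(M^4*e)))
    (hc : 2*(s0*(M^4*e))*j+c0+c1 = 2*(s0*(M^4*e))*(s0*e) + 2*(M^4*e)) (hj : j+1 = s0*e+x)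
    (hx : x ≤ 1) :
    Ovl (1/2) (eU q (s0*(M^4*e)) ^ (s0*e)) (Ww q (s0*(M^4*e)) c0 j c1) := by
  have h0 := h.h0
  have h1 := h.h1
  have hse : 1 ≤ s0*e := by
    have := h.he
    have := h.s_pos
    exact Nat.one_le_iff_ne_zero.mpr (by positivity)
  have hgg : M^4*e ≤ s0*(M^4*e) := Nat.le_mul_of_pos_left _ h.s_pos
  have e1 : eU q (s0*(M^4*e)) ^ (s0*e) =
      Ww q (s0*(M^4*e)) (s0*(M^4*e)) (s0*e-1) (s0*(M^4*e)) := by
    rw [← eU_pow]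
    congr 1
    omega
  rw [e1]
  apply Ovl_of_l1 (Pr_Ww h0 h1 _ _ _ _) (Pr_Ww h0 h1 _ _ _ _)
  have p1 := piece1 h (c0 := s0*(M^4*e)) (c1 := s0*(M^4*e)) (j := s0*e-1) hgg hgg (by omega)
    (by omega) (by omega) (by omega)
  have p2 := piece2 h hc hj hx
  have p3 := piece1 h a0 a1 b0 b1 (j := j) (by omega) (by omega)
  rw [l1_sub_comm] at p3
  have t1 := l1_triangle (Ww q (s0*(M^4*e)) (s0*(M^4*e)) (s0*e-1) (s0*(M^4*e)))
    (Wn q (s0*(M^4*e)) (s0*(M^4*e)) (s0*e-1) (s0*(M^4*e))) (Ww q (s0*(M^4*e)) c0 j c1)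
  have t2 := l1_triangle (Wn q (s0*(M^4*e)) (s0*(M^4*e)) (s0*e-1) (s0*(M^4*e)))
    (Wn q (s0*(M^4*e)) c0 j c1) (Ww q (s0*(M^4*e)) c0 j c1)
  linarith

/-- the chain: `n+1 ≤ m` left pieces -/
lemma chain_left (h : Ip q K M s0 e) {m : ℕ} (hm : s0 = 2*m+1) (n : ℕ) (hn : n+1 ≤ m) :
    Ovl ((1/2)^(n+1)) (eU q (s0*(M^4*e)) ^ ((s0*e)*(n+1)))
      (Ww q (s0*(M^4*e)) (s0*(M^4*e)) ((s0*e)*(n+1)-1) (s0*(M^4*e) + 2*(M^4*e)*(n+1))) := by
  have h0 := h.h0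
  have h1 := h.h1
  have hse : 1 ≤ s0*e := by
    have := h.he
    have := h.s_pos
    exact Nat.one_le_iff_ne_zero.mpr (by positivity)
  set g1 := M^4*e with hg1
  set g := s0*g1 with hg
  set k := s0*e with hk
  have hgg : g = (2*m+1)*g1 := by rw [hg, hm]
  obtain ⟨k', hk'⟩ := Nat.exists_eq_add_of_le hse
  have hm' : ∀ n, n ≤ m → g1*n ≤ g1*m := fun n hn => Nat.mul_le_mul_left _ hn
  induction n with
  | zero =>
    have := piece h (c0 := g) (c1 := g + 2*g1) (j := k-1) (x := 0)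
      (by rw [← hg1]; nlinarith) (by rw [← hg1]; nlinarith) (by rw [← hg1, ← hg]; omega)
      (by rw [← hg1, ← hg]; nlinarith [hm' 1 (by omega)])
      (by
        rw [← hg1, ← hg, ← hk, hk']
        have : 1 + k' - 1 = k' := by omega
        rw [this]; ring)
      (by omega) (by omega)
    simpa using this
  | succ n ih =>
    have ih' := ih (by omega)
    have hle := hm' (n+1+1) hn
    obtain ⟨a, ha⟩ : ∃ a, g = 2*g1*(n+1) + a ∧ g1 ≤ a := by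
      refine ⟨g - 2*g1*(n+1), ?_, ?_⟩
      · rw [hgg]; have : 2*g1*(n+1) ≤ (2*m+1)*g1 := by nlinarith
        omega
      · rw [hgg]; have : 2*g1*(n+1) + g1 ≤ (2*m+1)*g1 := by nlinarith
        omega
    have hp := piece h (c0 := a) (c1 := g + 2*g1*(n+1+1)) (j := k-1) (x := 0)
      ha.2 (by rw [← hg1]; nlinarith) (by rw [← hg1, ← hg]; nlinarith)
      (by rw [← hg1, ← hg]; nlinarith)
      (by
        rw [← hg1, ← hg, ← hk, hk']
        have e1 : 1 + k' - 1 = k' := by omega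
        have e2 : 2*g*k' + a + (g + 2*g1*(n+1+1)) = 2*g*k' + (2*g1*(n+1)+a) + g + 2*g1 := by ring
        rw [e1, e2, ← ha.1]; ring)
      (by omega) (by omega)
    have := ih'.mul hp (by positivity) (by positivity) ((Pr_U h0 h1 _).pow _).nn
      (Pr_Ww h0 h1 _ _ _ _).nn
    rw [← hg1, ← hg, ← hk] at this
    rw [Ww_mul q g (by rw [ha.1]; ring)] at this
    have e1 : (1/2:ℝ)^(n+1) * (1/2) = (1/2)^(n+1+1) := by ring
    have e2 : eU q g ^ (k*(n+1)) * eU q g ^ k = eU q g ^ (k*(n+1+1)) := by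
      rw [← pow_add]; congr 1
    have e3 : k*(n+1)-1+(k-1)+1 = k*(n+1+1)-1 := by
      rw [hk']
      have : (1+k')*(n+1+1) = (1+k')*(n+1) + (1+k') := by ring
      have h5 : 1 ≤ (1+k')*(n+1) := Nat.one_le_iff_ne_zero.mpr (by positivity)
      omega
    rw [e1, e2, e3] at this
    exact this

end

end Vale.Agent.P321S
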