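import Mathlib
import Vale.Agent.P321S.OvMain

/-! P321 overlap: the main theorem `overlap_base` -/

namespace Vale.Agent.P321S

open MonoidAlgebra Finset
open Vale.Agent.P321 (Letter)

variable {q : ℝ} {K M s0 e : ℕ}

/-- left pieces and the middle piece -/
lemma chain_mid (h : Ip q K M s0 e) {m : ℕ} (hm : s0 = 2*m+1) (hm1 : 1 ≤ m) :
    Ovl ((1/2)^(m+1)) (eU q (s0*(M^4*e)) ^ ((s0*e)*(m+1)))
      (Ww q (s0*(M^4*e)) (s0*(M^4*e)) ((s0*e)*(m+1)) (M^4*e)) := by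
  have h0 := h.h0
  have h1 := h.h1
  have hse : 1 ≤ s0*e := by
    have := h.he
    have := h.s_pos
    exact Nat.one_le_iff_ne_zero.mpr (by positivity)
  obtain ⟨n, rfl⟩ := Nat.exists_eq_add_of_le hm1
  have hl := chain_left h hm n (by omega)
  set g1 := M^4*e with hg1
  set g := s0*g1 with hg
  set k := s0*e with hk
  have hgg : g = (2*(1+n)+1)*g1 := by rw [hg, hm]
  have hp := piece h (c0 := g1) (c1 := g1) (j := k) (x := 1) (by rw [← hg1]) (by rw [← hg1])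
    (by rw [← hg1, ← hg, hgg]; nlinarith) (by rw [← hg1, ← hg, hgg]; nlinarith)
    (by rw [← hg1, ← hg, ← hk]; ring) (by omega) le_rfl
  have := hl.mul hp (by positivity) (by positivity) ((Pr_U h0 h1 _).pow _).nn
      (Pr_Ww h0 h1 _ _ _ _).nn
  rw [← hg1, ← hg, ← hk] at this
  rw [Ww_mul q g (by rw [hgg]; ring)] at this
  have e1 : (1/2:ℝ)^(n+1) * (1/2) = (1/2)^(1+n+1) := by ring
  have e2 : eU q g ^ (k*(n+1)) * eU q g ^ k = eU q g ^ (k*(1+n+1)) := by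
    rw [← pow_add]; congr 1; ring
  have e3 : k*(n+1)-1+k+1 = k*(1+n+1) := by
    have h5 : 1 ≤ k*(n+1) := Nat.one_le_iff_ne_zero.mpr (by positivity)
    have h6 : k*(1+n+1) = k*(n+1) + k := by ring
    omega
  rw [e1, e2, e3] at this
  exact this

/-- right pieces -/
lemma chain_right (h : Ip q K M s0 e) {m : ℕ} (hm : s0 = 2*m+1) (hm1 : 1 ≤ m) (n : ℕ)
    (hn : n ≤ m) :
    Ovl ((1/2)^(m+1+n)) (eU q (s0*(M^4*e)) ^ ((s0*e)*(m+1+n)))
      (Ww q (s0*(M^4*e)) (s0*(M^4*e)) ((s0*e)*(m+1+n)) (M^4*e + 2*(M^4*e)*n)) := by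
  have h0 := h.h0
  have h1 := h.h1
  have hse : 1 ≤ s0*e := by
    have := h.he
    have := h.s_pos
    exact Nat.one_le_iff_ne_zero.mpr (by positivity)
  induction n with
  | zero =>
    have := chain_mid h hm hm1
    simpa using this
  | succ n ih =>
    have ih' := ih (by omega)
    set g1 := M^4*e with hg1
    set g := s0*g1 with hg
    set k := s0*e with hk
    have hgg : g = (2*m+1)*g1 := by rw [hg, hm]
    have hle : g1*(n+1) ≤ g1*m := Nat.mul_le_mul_left _ hn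
    obtain ⟨k', hk'⟩ := Nat.exists_eq_add_of_le hse
    obtain ⟨a, ha⟩ : ∃ a, 2*g = g1 + 2*g1*n + a ∧ g1 ≤ a := by
      refine ⟨2*g - (g1+2*g1*n), ?_, ?_⟩
      · rw [hgg]
        have : g1+2*g1*n ≤ 2*((2*m+1)*g1) := by nlinarith
        omega
      · rw [hgg]
        have : g1+2*g1*n + g1 ≤ 2*((2*m+1)*g1) := by nlinarith
        omega
    have hp := piece h (c0 := a) (c1 := g1 + 2*g1*(n+1)) (j := k-1) (x := 0)
      ha.2 (by rw [← hg1]; nlinarith) (by rw [← hg1, ← hg]; nlinarith)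
      (by rw [← hg1, ← hg]; nlinarith)
      (by
        rw [← hg1, ← hg, ← hk, hk']
        have e1 : 1 + k' - 1 = k' := by omega
        have e2 : 2*g*k' + a + (g1 + 2*g1*(n+1)) = 2*g*k' + (g1 + 2*g1*n + a) + 2*g1 := by ring
        rw [e1, e2, ← ha.1]; ring)
      (by omega) (by omega)
    have := ih'.mul hp (by positivity) (by positivity) ((Pr_U h0 h1 _).pow _).nn
      (Pr_Ww h0 h1 _ _ _ _).nn
    rw [← hg1, ← hg, ← hk] at this
    rw [Ww_mul q g ha.1.symm] at this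
    have e1 : (1/2:ℝ)^(m+1+n) * (1/2) = (1/2)^(m+1+(n+1)) := by ring
    have e2 : eU q g ^ (k*(m+1+n)) * eU q g ^ k = eU q g ^ (k*(m+1+(n+1))) := by
      rw [← pow_add]; congr 1
    have e3 : k*(m+1+n)+(k-1)+1 = k*(m+1+(n+1)) := by
      have h6 : k*(m+1+(n+1)) = k*(m+1+n) + k := by ring
      omega
    rw [e1, e2, e3] at this
    exact this

theorem overlap_base (q : ℝ) (h0 : 0 < q) (h1 : q < 1) : OverlapBase q := by
  obtain ⟨K, hK, hA, hP, hρ⟩ : ∃ K : ℕ, 1 ≤ K ∧ cA q ≤ K ∧ (1-q)^2*(1/q) ≤ K ∧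
      1/(1-q^2)^2 ≤ K := by
    refine ⟨⌈cA q⌉₊ + ⌈(1-q)^2*(1/q)⌉₊ + ⌈1/(1-q^2)^2⌉₊ + 1, by omega, ?_, ?_, ?_⟩
    · have := Nat.le_ceil (cA q)
      push_cast
      have a1 : (0:ℝ) ≤ (⌈(1-q)^2*(1/q)⌉₊:ℝ) := Nat.cast_nonneg _
      have a2 : (0:ℝ) ≤ (⌈1/(1-q^2)^2⌉₊:ℝ) := Nat.cast_nonneg _
      linarith
    · have := Nat.le_ceil ((1-q)^2*(1/q))
      push_cast
      have a1 : (0:ℝ) ≤ (⌈cA q⌉₊:ℝ) := Nat.cast_nonneg _
      have a2 : (0:ℝ) ≤ (⌈1/(1-q^2)^2⌉₊:ℝ) := Nat.cast_nonneg _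
      linarith
    · have := Nat.le_ceil (1/(1-q^2)^2)
      push_cast
      have a1 : (0:ℝ) ≤ (⌈cA q⌉₊:ℝ) := Nat.cast_nonneg _
      have a2 : (0:ℝ) ≤ (⌈(1-q)^2*(1/q)⌉₊:ℝ) := Nat.cast_nonneg _
      linarith
  obtain ⟨M, hM⟩ : ∃ M, M = 110*K^3 := ⟨_, rfl⟩
  obtain ⟨m, hm'⟩ : ∃ m, m = 3*K*M^2 := ⟨_, rfl⟩
  obtain ⟨s0, hs0⟩ : ∃ s0, s0 = 6*K*M^2+1 := ⟨_, rfl⟩
  have hM1 : 1 ≤ M := by
    have := Nat.one_le_pow 3 K hK
    omega
  have hm : s0 = 2*m+1 := by rw [hs0, hm']; ring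
  have hm1 : 1 ≤ m := by
    rw [hm']
    exact Nat.one_le_iff_ne_zero.mpr (by positivity)
  refine ⟨s0*M^4, s0^2, (1/2)^s0, ?_, ?_, by positivity, ?_⟩
  · rw [hm]; positivity
  · rw [hm]; positivity
  · intro e he
    have h : Ip q K M s0 e := ⟨h0, h1, hK, he, hM, hs0, hA, hP, hρ⟩
    have key := chain_right h hm hm1 m le_rfl
    have e1 : m+1+m = s0 := by rw [hm]; ring
    have e2 : M^4*e + 2*(M^4*e)*m = s0*(M^4*e) := by rw [hm]; ring
    rw [e1, e2, ← eU_pow] at key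
    have e3 : s0*(M^4*e) = s0*M^4*e := by ring
    have e4 : s0*e*s0 = s0^2*e := by ring
    rw [e3, e4] at key
    exact key.l1 ((Pr_U h0 h1 _).pow _) ((Pr_U h0 h1 _).pow _)

end Vale.Agent.P321S
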