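import Mathlib
import Vale.Agent.P321S.Levels
import Vale.Agent.P321S.Assembly

namespace Vale.Agent.P321S

open MonoidAlgebra Finset Filter
open Vale.Agent.P321 (Letter)

section hell
variable {M : Type*} [Monoid M]

lemma hell_eq_sum (P Q : Al M) (s : Finset M) (hP : P.coeff.support ⊆ s) (hQ : Q.coeff.support ⊆ s) :
    hell P Q = ∑ w ∈ s, (√(P.coeff w) - √(Q.coeff w))^2 := by
  classical
  unfold hell
  have hsub : P.coeff.support ∪ Q.coeff.support ⊆ s := Finset.union_subset hP hQ
  have key : ∑ w ∈ P.coeff.support ∪ Q.coeff.support, (√(P.coeff w) - √(Q.coeff w))^2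
      = ∑ w ∈ s, (√(P.coeff w) - √(Q.coeff w))^2 := by
    apply Finset.sum_subset hsub
    intro w _ hw
    rw [Finset.mem_union, not_or, Finsupp.notMem_support_iff, Finsupp.notMem_support_iff] at hw
    rw [hw.1, hw.2]; simp
  convert key

lemma hell_le_l1 {P Q : Al M} (hP : Nn P) (hQ : Nn Q) : hell P Q ≤ l1 (P - Q) := by
  classical
  set s := P.coeff.support ∪ Q.coeff.support with hs
  have h1 : P.coeff.support ⊆ s := Finset.subset_union_left
  have h2 : Q.coeff.support ⊆ s := Finset.subset_union_right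
  have hd : (P - Q).coeff.support ⊆ s := by
    intro w hw
    by_contra hcon
    rw [hs, Finset.mem_union, not_or, Finsupp.notMem_support_iff, Finsupp.notMem_support_iff] at hcon
    rw [Finsupp.mem_support_iff, coeff_sub, Finsupp.sub_apply, hcon.1, hcon.2] at hw
    simp at hw
  rw [hell_eq_sum P Q s h1 h2, l1_eq_sum _ s hd]
  apply Finset.sum_le_sum
  intro w _
  rw [coeff_sub, Finsupp.sub_apply]
  have a0 := Real.sqrt_nonneg (P.coeff w)
  have b0 := Real.sqrt_nonneg (Q.coeff w)
  have a1 := Real.sq_sqrt (hP w)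
  have b1 := Real.sq_sqrt (hQ w)
  have e : P.coeff w - Q.coeff w = (√(P.coeff w) - √(Q.coeff w)) * (√(P.coeff w) + √(Q.coeff w)) := by
    nlinarith
  rw [e, abs_mul, abs_of_nonneg (by positivity : 0 ≤ √(P.coeff w) + √(Q.coeff w)), ← sq_abs, sq]
  apply mul_le_mul_of_nonneg_left _ (abs_nonneg _)
  rw [abs_le]
  constructor <;> linarith

lemma hell_le_dom {A B : Al M} {c : ℝ} (hA : Nn A) (hB : Nn B) (hc : 0 ≤ c) (h : Dom c (A - B) A) :
    hell A B ≤ c := by
  classical
  set s := A.coeff.support ∪ B.coeff.support with hs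
  have h1 : A.coeff.support ⊆ s := Finset.subset_union_left
  have h2 : B.coeff.support ⊆ s := Finset.subset_union_right
  have hd : (A - B).coeff.support ⊆ s := by
    intro w hw
    by_contra hcon
    rw [hs, Finset.mem_union, not_or, Finsupp.notMem_support_iff, Finsupp.notMem_support_iff] at hcon
    rw [Finsupp.mem_support_iff, coeff_sub, Finsupp.sub_apply, hcon.1, hcon.2] at hw
    simp at hw
  rw [hell_eq_sum A B s h1 h2]
  -- where A vanishes so does B
  have hz : ∀ w, A.coeff w = 0 → B.coeff w = 0 := by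
    intro w hw
    have := h (fun x => if x = w then 1 else 0)
    have e : (fun x => (if x = w then (1:ℝ) else 0)^2) = fun x => if x = w then 1 else 0 := by
      funext x; split_ifs <;> simp
    rw [e, E_indicator, E_indicator, hw, mul_zero, coeff_sub, Finsupp.sub_apply, hw, zero_sub] at this
    have h3 : B.coeff w ^ 2 ≤ 0 := by linarith [neg_sq (B.coeff w)]
    nlinarith [sq_nonneg (B.coeff w)]
  set φ : M → ℝ := fun w => (A.coeff w - B.coeff w) / A.coeff w with hφ
  set S := ∑ w ∈ s, (A.coeff w - B.coeff w)^2 / A.coeff w with hS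
  have hS0 : 0 ≤ S := Finset.sum_nonneg (fun w _ => div_nonneg (sq_nonneg _) (hA w))
  have e1 : E (A - B) φ = S := by
    rw [E_eq_sum _ s hd]
    apply Finset.sum_congr rfl
    intro w _
    rw [coeff_sub, Finsupp.sub_apply, hφ]
    ring
  have e2 : E A (fun w => φ w ^ 2) = S := by
    rw [E_eq_sum _ s h1]
    apply Finset.sum_congr rfl
    intro w _
    rw [hφ]
    by_cases hw : A.coeff w = 0
    · rw [hw]; simp
    · field_simp
  have h3 := h φ
  rw [e1, e2] at h3
  have hSc : S ≤ c := by
    rcases eq_or_lt_of_le hS0 with h0 | h0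
    · rw [← h0]; exact hc
    · rw [sq] at h3; exact le_of_mul_le_mul_right h3 h0
  refine le_trans ?_ hSc
  apply Finset.sum_le_sum
  intro w _
  by_cases hw : A.coeff w = 0
  · rw [hz w hw, hw]; simp
  · have hpos : 0 < A.coeff w := lt_of_le_of_ne (hA w) (Ne.symm hw)
    rw [le_div_iff₀ hpos]
    have a0 := Real.sqrt_nonneg (A.coeff w)
    have b0 := Real.sqrt_nonneg (B.coeff w)
    have a1 := Real.sq_sqrt (hA w)
    have b1 := Real.sq_sqrt (hB w)
    have e : A.coeff w - B.coeff w = (√(A.coeff w) - √(B.coeff w)) * (√(A.coeff w) + √(B.coeff w)) := by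
      nlinarith
    rw [e, mul_pow]
    apply mul_le_mul_of_nonneg_left _ (sq_nonneg _)
    nlinarith

lemma hell_three (P A B Q : Al M) : hell P Q ≤ 3 * (hell P A + hell A B + hell B Q) := by
  classical
  set s := P.coeff.support ∪ A.coeff.support ∪ B.coeff.support ∪ Q.coeff.support with hs
  have sP : P.coeff.support ⊆ s := fun x hx => by simp only [hs, Finset.mem_union]; tauto
  have sA : A.coeff.support ⊆ s := fun x hx => by simp only [hs, Finset.mem_union]; tauto
  have sB : B.coeff.support ⊆ s := fun x hx => by simp only [hs, Finset.mem_union]; tauto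
  have sQ : Q.coeff.support ⊆ s := fun x hx => by simp only [hs, Finset.mem_union]; tauto
  rw [hell_eq_sum P Q s sP sQ, hell_eq_sum P A s sP sA, hell_eq_sum A B s sA sB,
    hell_eq_sum B Q s sB sQ, ← Finset.sum_add_distrib, ← Finset.sum_add_distrib, Finset.mul_sum]
  apply Finset.sum_le_sum
  intro w _
  nlinarith [sq_nonneg ((√(P.coeff w) - √(A.coeff w)) - (√(A.coeff w) - √(B.coeff w))),
    sq_nonneg ((√(A.coeff w) - √(B.coeff w)) - (√(B.coeff w) - √(Q.coeff w))),
    sq_nonneg ((√(P.coeff w) - √(A.coeff w)) - (√(B.coeff w) - √(Q.coeff w)))]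

lemma evB_pr {x : Fin 3 → Al M} (h : ∀ i, Pr (x i)) (w : List (Fin 3)) : Pr (evB x w) := by
  induction w with
  | nil => exact Pr.one
  | cons i w ih => rw [evB_cons]; exact (h i).mul ih

lemma evB_l1 {x y : Fin 3 → Al M} (hx : ∀ i, Pr (x i)) (hy : ∀ i, Pr (y i)) {ε : ℝ}
    (h : ∀ i, l1 (x i - y i) ≤ ε) (w : List (Fin 3)) : l1 (evB x w - evB y w) ≤ w.length * ε := by
  induction w with
  | nil => simp [l1_zero]
  | cons i w ih =>
    have e : evB x (i :: w) - evB y (i :: w) = (x i - y i) * evB x w + y i * (evB x w - evB y w) := by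
      rw [evB_cons, evB_cons]; noncomm_ring
    rw [e]
    refine (l1_add_le _ _).trans ?_
    have a1 := l1_mul_le (x i - y i) (evB x w)
    have a2 := l1_mul_le (y i) (evB x w - evB y w)
    rw [(evB_pr hx w).l1, mul_one] at a1
    rw [(hy i).l1, one_mul] at a2
    have a3 := h i
    rw [List.length_cons]
    push_cast
    linarith

end hell

/-- `(01)^g` -/
def nb (g : ℕ) : List Bool := (List.replicate g [false, true]).flatten

lemma nb_succ (g : ℕ) : nb (g+1) = false :: true :: nb g := by
  unfold nb; rw [List.replicate_succ, List.flatten_cons]; rfl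

lemma length_nb (g : ℕ) : (nb g).length = 2*g := by
  induction g with
  | zero => rfl
  | succ g ih => rw [nb_succ, List.length_cons, List.length_cons, ih]; ring

lemma descr_nb (q : ℝ) (g : ℕ) : Descr q (eN q ^ g) (nb g) := by
  induction g with
  | zero => rw [pow_zero]; exact descr_one q
  | succ g ih =>
    rw [pow_succ', nb_succ]
    exact descr_mul q _ _ _ _ (descr_eN q) ih

/-- the blocks -/
def blk (g : ℕ) : Fin 3 → List Bool := fun i =>
  if i = 0 then nb g ++ ([false] ++ nb g)
  else if i = 1 then nb (g+1) ++ ([false] ++ nb (g-1))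
  else nb (g-1) ++ ([false] ++ nb (g+1))

lemma descr_blk (q : ℝ) (g : ℕ) (i : Fin 3) : Descr q (xr q g i) (blk g i) := by
  have key : ∀ a b : ℕ, Descr q (eN q ^ a * eX q * eN q ^ b) (nb a ++ ([false] ++ nb b)) := by
    intro a b
    have := descr_mul q _ _ _ _ (descr_nb q a) (descr_mul q _ _ _ _ (descr_eX q) (descr_nb q b))
    rwa [← mul_assoc] at this
  fin_cases i
  · simpa [xr, blk, eU] using key g g
  · simpa [xr, blk] using key (g+1) (g-1)
  · simpa [xr, blk] using key (g-1) (g+1)

lemma length_blk {g : ℕ} (hg : 1 ≤ g) (i : Fin 3) : (blk g i).length = 4*g+1 := by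
  fin_cases i
  · simp [blk, length_nb]; omega
  · simp [blk, length_nb]; omega
  · simp [blk, length_nb]; omega

lemma nb_inj (a : ℕ) : ∀ a' b b' : ℕ, nb a ++ ([false] ++ nb b) = nb a' ++ ([false] ++ nb b') →
    a = a' := by
  have aux : ∀ (b c b' : ℕ), ([false] ++ nb b : List Bool) ≠ nb (c+1) ++ ([false] ++ nb b') := by
    intro b c b' h
    rw [nb_succ] at h
    simp only [List.cons_append, List.nil_append, List.cons.injEq, true_and] at h
    cases b with
    | zero => simp [nb] at h
    | succ b => rw [nb_succ] at h; simp at h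
  induction a with
  | zero =>
    intro a' b b' h
    cases a' with
    | zero => rfl
    | succ c => exact absurd h (by simpa [nb] using aux b c b')
  | succ a ih =>
    intro a' b b' h
    cases a' with
    | zero => exact absurd h.symm (by simpa [nb] using aux b' a b)
    | succ c =>
      rw [nb_succ, nb_succ] at h
      simp only [List.cons_append, List.cons.injEq, true_and] at h
      rw [ih c b b' h]

lemma blk_inj {g : ℕ} (hg : 1 ≤ g) {i j : Fin 3} (h : blk g i = blk g j) : i = j := by
  fin_cases i <;> fin_cases j <;> simp only [blk] at h ⊢ <;> simp at h ⊢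
  all_goals first
    | rfl
    | (exfalso
       have := nb_inj _ _ _ _ (by simpa using h)
       omega)

/-- the bit string of a list of blocks -/
def str (g : ℕ) (w : List (Fin 3)) : List Bool := w.flatMap (blk g)

lemma str_cons (g : ℕ) (i : Fin 3) (w : List (Fin 3)) : str g (i :: w) = blk g i ++ str g w := by
  unfold str; rw [List.flatMap_cons]

lemma descr_str (q : ℝ) (g : ℕ) (w : List (Fin 3)) : Descr q (evB (xr q g) w) (str g w) := by
  induction w with
  | nil => exact descr_one q
  | cons i w ih => rw [evB_cons, str_cons]; exact descr_mul q _ _ _ _ (descr_blk q g i) ih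

lemma length_str {g : ℕ} (hg : 1 ≤ g) (w : List (Fin 3)) :
    (str g w).length = w.length * (4*g+1) := by
  induction w with
  | nil => simp [str]
  | cons i w ih => rw [str_cons, List.length_append, ih, length_blk hg, List.length_cons]; ring

lemma str_inj {g : ℕ} (hg : 1 ≤ g) : ∀ {w w' : List (Fin 3)}, w.length = w'.length →
    str g w = str g w' → w = w' := by
  intro w
  induction w with
  | nil =>
    intro w' hl _
    rw [List.length_nil] at hl
    exact (List.eq_nil_of_length_eq_zero hl.symm).symm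
  | cons i w ih =>
    intro w' hl h
    cases w' with
    | nil => simp at hl
    | cons j w' =>
      rw [str_cons, str_cons] at h
      have := List.append_inj h (by rw [length_blk hg, length_blk hg])
      rw [List.length_cons, List.length_cons] at hl
      rw [blk_inj hg this.1, ih (by omega) this.2]

/-- from the levels to the input of the final assembly -/
theorem stringsInput {q : ℝ} (h0 : 0 < q) (h1 : q < 1) (hO : OverlapBase q) (s : ℕ) :
    StringsInput q (ex s).2.2 (43 * 2^(s+1) - 1) := by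
  obtain ⟨R, cg, hR, hcg, hl1, hpr, hbase⟩ := baseLevel h0 h1 hO
  set g : ℕ → ℕ := fun t => R * (cg * t^42) with hg
  set x : ℕ → Fin 3 → Al Wo := fun t => xt q (R*(cg*t^42)) (2*(R*(cg*t^42)) - cg*t^42) with hx
  obtain ⟨ul, al, bl, l, α, K, δ₁, hL, hne, hlen, hNO⟩ := levels (x := x) hbase s
    (ex s).2.2 (ex s).2.2 le_rfl le_rfl
  -- closeness of the truncated laws
  have hAB : DO (ex s).2.2 (fun t => evB (x t) (al t) - evB (x t) (bl t))
      (fun t => evB (x t) (al t)) := by
    have := (hL.hh.ref hL.geA).smul 2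
    refine this.congr' (fun t => ?_) (fun t => rfl)
    rw [smul_smul]; norm_num
  obtain ⟨C, hC, hAB⟩ := hAB
  obtain ⟨C', hC', hNO'⟩ := hNO
  have hNg : NO (fun t => 4 * g t + 1) 42 := by
    have h2 := (NO.const (4*R*cg)).mul (NO.tpow 42)
    rw [zero_add] at h2
    have h3 := h2.add ((NO.const 1).mono (by norm_num : 0 ≤ 42))
    refine h3.of_le (Eventually.of_forall (fun t => ?_))
    simp only [hg]
    apply le_of_eq; ring
  have hNO2 := (show NO (fun t => (al t).length) (43 * (2^(s+1) - 1)) from ⟨C', hC', hNO'⟩).mul hNg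
  have hexp : 43 * (2^(s+1) - 1) + 42 = 43 * 2^(s+1) - 1 := by
    have : 1 ≤ 2^(s+1) := Nat.one_le_two_pow
    omega
  rw [hexp] at hNO2
  obtain ⟨C2, hC2, hNO2⟩ := hNO2
  have hall : ∀ᶠ t : ℕ in atTop, ∀ i : Fin 3, l1 (x t i - xr q (g t) i) ≤ 4 * (1/2)^t := by
    rw [Filter.eventually_all]
    intro i
    exact hl1 i
  have hallp : ∀ᶠ t : ℕ in atTop, ∀ i : Fin 3, Pr (x t i) := by
    rw [Filter.eventually_all]
    intro i
    exact hpr i
  have hgeom := ev_geom (4*C') (zero_lt_one) (43 * (2^(s+1) - 1) + (ex s).2.2)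
  have fin : ∀ᶠ y : ℕ in atTop, ∃ (u v : List Bool) (P Q : Al Wo),
      u ≠ v ∧ u.length = v.length ∧ (u.length : ℝ) ≤ (C2 + 3*C + 6 + 1) * (y:ℝ)^(43 * 2^(s+1) - 1) ∧
      Pr P ∧ Pr Q ∧ Descr q P u ∧ Descr q Q v ∧
      hell P Q ≤ (C2 + 3*C + 6 + 1) / (y:ℝ)^(ex s).2.2 := by
    filter_upwards [hAB, hNO', hNO2, hall, hallp, hgeom, eventually_ge_atTop 1]
      with t k1 k2 k3 k4 k5 k6 ht
    have htR : (1:ℝ) ≤ t := by exact_mod_cast ht
    have ht0 : (0:ℝ) < t := by linarith
    have hgt : 1 ≤ g t := by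
      have : 1 ≤ cg * t^42 := Nat.one_le_iff_ne_zero.mpr (by positivity)
      simp only [hg]
      exact Nat.one_le_iff_ne_zero.mpr (by positivity)
    have hprr : ∀ i, Pr (xr q (g t) i) := fun i => xr_pr h0 h1 hgt i
    refine ⟨str (g t) (al t), str (g t) (bl t), evB (xr q (g t)) (al t), evB (xr q (g t)) (bl t),
      ?_, ?_, ?_, evB_pr hprr _, evB_pr hprr _, descr_str q _ _, descr_str q _ _, ?_⟩
    · intro heq
      exact hne t (str_inj hgt (hlen t) heq)
    · rw [length_str hgt, length_str hgt, hlen t]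
    · rw [length_str hgt]
      refine k3.trans ?_
      apply mul_le_mul_of_nonneg_right _ (by positivity)
      linarith
    · have pA := evB_pr k5 (al t)
      have pB := evB_pr k5 (bl t)
      have m1 : hell (evB (xr q (g t)) (al t)) (evB (x t) (al t)) ≤ (al t).length * (4 * (1/2)^t) := by
        refine (hell_le_l1 (evB_pr hprr _).nn pA.nn).trans ?_
        rw [l1_sub_comm]
        exact evB_l1 k5 hprr k4 _
      have m2 : hell (evB (x t) (al t)) (evB (x t) (bl t)) ≤ C / (t:ℝ)^(ex s).2.2 :=
        hell_le_dom pA.nn pB.nn (by positivity) k1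
      have m3 : hell (evB (x t) (bl t)) (evB (xr q (g t)) (bl t)) ≤ (al t).length * (4 * (1/2)^t) := by
        refine (hell_le_l1 pB.nn (evB_pr hprr _).nn).trans ?_
        rw [hlen t]
        exact evB_l1 k5 hprr k4 _
      have m4 : ((al t).length : ℝ) * (4 * (1/2)^t) ≤ 1 / (t:ℝ)^(ex s).2.2 := by
        rw [le_div_iff₀ (by positivity)]
        refine le_trans ?_ k6
        rw [pow_add]
        calc ((al t).length : ℝ) * (4 * (1/2)^t) * (t:ℝ)^(ex s).2.2
            ≤ (C' * (t:ℝ)^(43 * (2^(s+1) - 1))) * (4 * (1/2)^t) * (t:ℝ)^(ex s).2.2 := by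
              apply mul_le_mul_of_nonneg_right _ (by positivity)
              exact mul_le_mul_of_nonneg_right k2 (by positivity)
          _ = _ := by ring
      refine (hell_three _ (evB (x t) (al t)) (evB (x t) (bl t)) _).trans ?_
      have : (C2 + 3*C + 6 + 1) / (t:ℝ)^(ex s).2.2
          = (C2 + 1) / (t:ℝ)^(ex s).2.2 + 3 * (C / (t:ℝ)^(ex s).2.2) + 6 * (1 / (t:ℝ)^(ex s).2.2) := by
        ring
      rw [this]
      have hpos : 0 ≤ (C2 + 1) / (t:ℝ)^(ex s).2.2 := by positivity
      linarith
  obtain ⟨y0, hy0⟩ := Filter.eventually_atTop.mp fin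
  exact ⟨C2 + 3*C + 6 + 1, y0, by positivity, hy0⟩

/-- the exponents outgrow every multiple of the length exponents -/
lemma ex_large (K : ℕ) : K * (43 * 2^(43*K+1) - 1) ≤ (ex (43*K)).2.2 := by
  have h := (ex_growth (43*K)).2
  refine le_trans ?_ h
  calc K * (43 * 2^(43*K+1) - 1) ≤ K * (43 * 2^(43*K+1)) := Nat.mul_le_mul_left _ (Nat.sub_le _ _)
    _ = (43*K) * 2^(43*K+1) := by ring
    _ ≤ (74 + 3*(43*K+1)) * 2^(43*K+1) := Nat.mul_le_mul_right _ (by omega)

/-- the number of traces needed for trace reconstruction is not polynomially bounded -/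
theorem superpoly_of_overlap {q : ℝ} (h0 : 0 < q) (h1 : q < 1) (hO : OverlapBase q) (K : ℕ) :
    ∃ c : ℝ, 0 < c ∧ ∀ n : ℕ, 1 ≤ n →
      c * (n:ℝ)^K ≤ (Vale.Agent.P321.sampleComplexity q n : ℝ) := by
  have hL : 1 ≤ 43 * 2^(43*K+1) - 1 := by
    have : 1 ≤ 2^(43*K+1) := Nat.one_le_two_pow
    omega
  exact final q h0 h1 K _ _ hL (ex_large K) (stringsInput h0 h1 hO (43*K))

end Vale.Agent.P321S
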